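import Vale.Agent.P017.H185.Cl

namespace Vale.Agent.P017.H185

open NumberField

/-- the rational prime `p` ramifies in `ℚ(√-d)` (`d` squarefree) -/
def Ram (d p : ℕ) : Prop := p ∣ d ∨ (p = 2 ∧ d % 4 ≠ 3)

namespace QF

variable {K : Type*} [Field K] [NumberField K] {d : ℕ} (q : QF K d)

theorem intCast_inj' {a b : ℤ} (h : (a : 𝓞 K) = (b : 𝓞 K)) : a = b := by
  exact_mod_cast h

include q in
/-- the ring of integers modulo an unramified prime is reduced -/
theorem dvd_of_dvd_sq {p : ℕ} (hp : p.Prime) (hr : ¬ Ram d p) {z : 𝓞 K}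
    (h : (p : 𝓞 K) ∣ z ^ 2) : (p : 𝓞 K) ∣ z := by
  obtain ⟨w, hw⟩ := h
  obtain ⟨a, b, hab, n, hn⟩ := q.int_coords (isInt z)
  have hpd : ¬ p ∣ d := fun h => hr (Or.inl h)
  have hp' : Prime (p : ℤ) := Nat.prime_iff_prime_int.mp hp
  -- the norm
  have h1 : algebraMap (𝓞 K) K z = ((a / 2 : ℚ) : K) + ((b / 2 : ℚ) : K) * q.θ := by
    push_cast; linear_combination (1 / 2 : K) * hab
  have hNz : (q.N z : ℤ) = n := by
    have e : (q.N z : ℚ) = n := by
      rw [q.N_eq, h1, q.nm_coords]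
      have : ((a ^ 2 + d * b ^ 2 : ℤ) : ℚ) = ((4 * n : ℤ) : ℚ) := by rw [hn]
      push_cast at this
      linear_combination (1 / 4 : ℚ) * this
    exact_mod_cast e
  have hTr : z + q.s z = (a : 𝓞 K) := by
    obtain ⟨a', ha', ha''⟩ := q.exists_trace z
    rw [ha']
    have e := (q.re_im_unique h1).1
    rw [e] at ha''
    have : a' = a := by
      have : (a' : ℚ) = a := by rw [ha'']; ring
      exact_mod_cast this
    rw [this]
  have hpN : (p : ℤ) ∣ n := by
    have e1 : ((q.N z : 𝓞 K)) ^ 2 = (p : 𝓞 K) ^ 2 * (q.N w : 𝓞 K) := by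
      rw [← q.mul_s, ← q.mul_s w]
      calc (z * q.s z) ^ 2 = z ^ 2 * q.s (z ^ 2) := by rw [map_pow]; ring
        _ = _ := by rw [hw, map_mul, map_natCast]; ring
    have e2 : (q.N z) ^ 2 = p ^ 2 * q.N w := by exact_mod_cast e1
    have e3 : p ∣ q.N z := hp.dvd_of_dvd_pow (n := 2) ⟨p * q.N w, by rw [e2]; ring⟩
    rw [← hNz]; exact_mod_cast e3
  have hpa : (p : ℤ) ∣ a := by
    obtain ⟨t', ht', -⟩ := q.exists_trace w
    have e1 : z ^ 2 + q.s (z ^ 2) = ((a ^ 2 - 2 * n : ℤ) : 𝓞 K) := by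
      have : z * q.s z = ((n : ℤ) : 𝓞 K) := by rw [q.mul_s, ← hNz]; simp
      push_cast
      rw [← this, ← hTr, map_pow]; ring
    have e2 : z ^ 2 + q.s (z ^ 2) = ((p * t' : ℤ) : 𝓞 K) := by
      rw [hw, map_mul, map_natCast]
      push_cast
      rw [← ht']; ring
    have e3 : a ^ 2 - 2 * n = p * t' := intCast_inj' (K := K) (e1.symm.trans e2)
    apply hp'.dvd_of_dvd_pow (n := 2)
    have : a ^ 2 = p * t' + 2 * n := by linarith
    rw [this]
    exact dvd_add (dvd_mul_right _ _) (Dvd.dvd.mul_left hpN 2)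
  -- produce the quotient
  have key : ∃ a' b' : ℤ, a = p * a' ∧ b = p * b' ∧ (4 : ℤ) ∣ a' ^ 2 + d * b' ^ 2 := by
    obtain ⟨a', ha'⟩ := hpa
    by_cases hp2 : p = 2
    · subst hp2
      have hd3 : d % 4 = 3 := by
        by_contra hcon; exact hr (Or.inr ⟨rfl, hcon⟩)
      obtain ⟨m, hm⟩ := hpN
      obtain ⟨e, he⟩ : ∃ e : ℤ, (d : ℤ) = 4 * e + 3 := ⟨d / 4, by omega⟩
      rw [hm, ha', he] at hn
      push_cast at hn ha' ⊢
      have hb : b % 2 = 0 := by
        rcases Int.emod_two_eq_zero_or_one b with h | h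
        · exact h
        · obtain ⟨c, hc⟩ : ∃ c, b = 2 * c + 1 := ⟨b / 2, by omega⟩
          exfalso
          rw [hc] at hn
          ring_nf at hn
          omega
      obtain ⟨b', hb'⟩ : ∃ b', b = 2 * b' := ⟨b / 2, by omega⟩
      refine ⟨a', b', ha', hb', ?_⟩
      rw [hb'] at hn
      have h8 : a' ^ 2 + (4 * e + 3) * b' ^ 2 = 2 * m := by nlinarith
      rcases Int.even_or_odd' a' with ⟨x, hx | hx⟩ <;> rcases Int.even_or_odd' b' with ⟨y, hy | hy⟩
      · rw [he, hx, hy]; exact ⟨x ^ 2 + (4 * e + 3) * y ^ 2, by ring⟩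
      · exfalso; rw [hx, hy] at h8; ring_nf at h8; omega
      · exfalso; rw [hx, hy] at h8; ring_nf at h8; omega
      · rw [he, hx, hy]; exact ⟨x ^ 2 + x + (4 * e + 3) * (y ^ 2 + y) + e + 1, by ring⟩
    · have hpb : (p : ℤ) ∣ b := by
        have e1 : (p : ℤ) ∣ d * b ^ 2 := by
          have : (d : ℤ) * b ^ 2 = 4 * n - a ^ 2 := by linarith
          rw [this]
          exact dvd_sub (Dvd.dvd.mul_left hpN 4) (Dvd.dvd.pow ⟨a', ha'⟩ two_ne_zero)
        rcases hp'.dvd_or_dvd e1 with h | h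
        · exact absurd (by exact_mod_cast h) hpd
        · exact hp'.dvd_of_dvd_pow h
      obtain ⟨b', hb'⟩ := hpb
      refine ⟨a', b', ha', hb', ?_⟩
      have hcop : IsCoprime (4 : ℤ) ((p : ℤ) ^ 2) := by
        have : Nat.Coprime 4 (p ^ 2) := by
          have : Nat.Coprime (2 ^ 2) (p ^ 2) := Nat.Coprime.pow _ _
            ((Nat.coprime_primes Nat.prime_two hp).mpr (Ne.symm hp2))
          simpa using this
        have := Nat.isCoprime_iff_coprime.mpr this
        exact_mod_cast this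
      apply hcop.dvd_of_dvd_mul_left
      refine ⟨n, ?_⟩
      rw [← hn, ha', hb']; ring
  obtain ⟨a', b', ha', hb', h4⟩ := key
  obtain ⟨y, hy, hy2⟩ := q.of_coords h4
  obtain ⟨y', hy'⟩ := exists_of_isInt hy
  refine ⟨y', ?_⟩
  apply ext'
  rw [map_mul, map_natCast, hy']
  have : (2 : K) * algebraMap (𝓞 K) K z = 2 * (p * y) := by
    rw [hab, ha', hb']
    push_cast
    linear_combination (-(p : K)) * hy2
  exact mul_left_cancel₀ two_ne_zero this

/-- **Classes of order two contain ambiguous ideals**, with control of the norm. -/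
theorem amb {I : Ideal (𝓞 K)} (hI : I ≠ ⊥) {n : ℕ} (hn : q.HasN I n) {γ : 𝓞 K}
    (hγ : I * I = Ideal.span {γ}) :
    ∃ a : ℕ, Squarefree a ∧ (∀ p : ℕ, p.Prime → p ∣ a → Ram d p) ∧
      (∃ J : Ideal (𝓞 K), J * J = Ideal.span {(a : 𝓞 K)} ∧
        ∃ x y : 𝓞 K, x ≠ 0 ∧ y ≠ 0 ∧ Ideal.span {x} * I = Ideal.span {y} * J) ∧
      ∃ w : K, w ≠ 0 ∧ (n : ℚ) * a = q.nm w := by
  have hn0 : n ≠ 0 := by
    rintro rfl
    unfold HasN at hn
    rw [Nat.cast_zero, Ideal.span_singleton_eq_bot.mpr rfl] at hn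
    rcases Ideal.mul_eq_bot.mp hn with h | h
    · exact hI h
    · rw [Ideal.map_eq_bot_iff_of_injective q.s.injective] at h
      exact hI h
  have hγN : n ^ 2 = q.N γ := by
    have h1 : q.HasN (I * I) (n * n) := hn.mul hn
    rw [hγ] at h1
    rw [sq]
    exact q.hasN_unique h1 (q.hasN_span γ)
  have hγs : γ * q.s γ = (n : 𝓞 K) ^ 2 := by
    rw [q.mul_s, ← hγN]; push_cast; rfl
  -- the Hilbert 90 element
  obtain ⟨δ, hδ0, hδ⟩ : ∃ δ : 𝓞 K, δ ≠ 0 ∧ γ * q.s δ = n * δ := by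
    by_cases h0 : (n : 𝓞 K) + γ = 0
    · refine ⟨q.t, q.t_ne_zero, ?_⟩
      rw [q.s_t]
      linear_combination (-q.t) * h0
    · refine ⟨n + γ, h0, ?_⟩
      rw [map_add, map_natCast]
      linear_combination hγs
  have hsδ0 : q.s δ ≠ 0 := by
    rw [Ne, map_eq_zero_iff _ q.s.injective]; exact hδ0
  obtain ⟨a, k, hak, ha⟩ := Nat.sq_mul_squarefree (n * q.N δ)
  have hk0 : k ≠ 0 := by
    rintro rfl
    rw [zero_pow two_ne_zero, zero_mul] at hak
    exact mul_ne_zero hn0 (q.N_ne_zero hδ0) hak.symm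
  have hkO : (k : 𝓞 K) ≠ 0 := by exact_mod_cast hk0
  have ha0 : a ≠ 0 := ha.ne_zero
  have hMM : (Ideal.span {q.s δ} * I) * (Ideal.span {q.s δ} * I) =
      Ideal.span {(k : 𝓞 K)} * Ideal.span {(k : 𝓞 K)} * Ideal.span {(a : 𝓞 K)} := by
    rw [mul_mul_mul_comm, hγ]
    simp only [Ideal.span_singleton_mul_span_singleton]
    congr 2
    have e : (n : 𝓞 K) * q.N δ = (k : 𝓞 K) ^ 2 * a := by exact_mod_cast hak.symm
    calc q.s δ * q.s δ * γ = q.s δ * (γ * q.s δ) := by ring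
      _ = n * (δ * q.s δ) := by rw [hδ]; ring
      _ = _ := by rw [q.mul_s, e]; ring
  have hle : Ideal.span {q.s δ} * I ≤ Ideal.span {(k : 𝓞 K)} := by
    intro z hz
    have h1 : z * z ∈ Ideal.span {(k : 𝓞 K)} * Ideal.span {(k : 𝓞 K)} * Ideal.span {(a : 𝓞 K)} := by
      rw [← hMM]; exact Ideal.mul_mem_mul hz hz
    simp only [Ideal.span_singleton_mul_span_singleton] at h1
    rw [Ideal.mem_span_singleton] at h1
    obtain ⟨w, hw⟩ := h1
    have hkK : (k : K) ≠ 0 := by exact_mod_cast hk0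
    have hint : IsIntegral ℤ (algebraMap (𝓞 K) K z / k) := by
      apply IsIntegral.of_pow (n := 2) (by norm_num)
      have : (algebraMap (𝓞 K) K z / k) ^ 2 = algebraMap (𝓞 K) K (a * w) := by
        have := congrArg (algebraMap (𝓞 K) K) hw
        simp only [map_mul, map_natCast] at this ⊢
        field_simp
        linear_combination this
      rw [this]; exact isInt _
    obtain ⟨y, hy⟩ := exists_of_isInt hint
    rw [Ideal.mem_span_singleton]
    refine ⟨y, ?_⟩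
    apply ext'
    rw [map_mul, map_natCast, hy]
    field_simp
  obtain ⟨J, hJ⟩ := Ideal.dvd_iff_le.mpr hle
  have hJJ : J * J = Ideal.span {(a : 𝓞 K)} := by
    rw [hJ, mul_mul_mul_comm, Ideal.span_singleton_mul_span_singleton] at hMM
    exact (Ideal.span_singleton_mul_right_inj (mul_ne_zero hkO hkO)).mp hMM
  refine ⟨a, ha, ?_, ⟨J, hJJ, q.s δ, k, hsδ0, hkO, hJ⟩, ?_⟩
  · intro p hp hpa
    by_contra hram
    have h1 : J ≤ Ideal.span {(p : 𝓞 K)} := by
      intro z hz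
      rw [Ideal.mem_span_singleton]
      apply q.dvd_of_dvd_sq hp hram
      have h2 : z * z ∈ Ideal.span {(a : 𝓞 K)} := by rw [← hJJ]; exact Ideal.mul_mem_mul hz hz
      rw [Ideal.mem_span_singleton] at h2
      rw [sq]
      exact dvd_trans (by exact_mod_cast (Nat.cast_dvd_cast hpa)) h2
    have h2 : Ideal.span {(a : 𝓞 K)} ≤ Ideal.span {(p : 𝓞 K)} * Ideal.span {(p : 𝓞 K)} := by
      rw [← hJJ]; exact Ideal.mul_mono h1 h1
    rw [Ideal.span_singleton_mul_span_singleton, Ideal.span_singleton_le_span_singleton] at h2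
    have h3 : p * p ∣ a := natCast_dvd (K := K) (by push_cast; exact h2)
    exact hp.one_lt.ne' (Nat.isUnit_iff.mp (ha p h3))
  · have hδK : algebraMap (𝓞 K) K δ ≠ 0 := by
      rw [Ne, ← map_zero (algebraMap (𝓞 K) K)]
      exact fun h => hδ0 (ext' h)
    have haK : (a : K) ≠ 0 := by exact_mod_cast ha0
    have hkK : (k : K) ≠ 0 := by exact_mod_cast hk0
    refine ⟨(a * k : ℕ) / algebraMap (𝓞 K) K δ, div_ne_zero (by push_cast; exact mul_ne_zero haK hkK) hδK, ?_⟩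
    have h1 : q.nm (((a * k : ℕ) : K) / algebraMap (𝓞 K) K δ) * q.nm (algebraMap (𝓞 K) K δ) =
        ((a * k : ℕ) : ℚ) ^ 2 := by
      rw [← q.nm_mul, div_mul_cancel₀ _ hδK]
      have : ((a * k : ℕ) : K) = (((a * k : ℕ) : ℚ) : K) := by push_cast; rfl
      rw [this, q.nm_rat]
    rw [← q.N_eq] at h1
    have h2 : (n : ℚ) * q.N δ = (k : ℚ) ^ 2 * a := by exact_mod_cast hak.symm
    have h3 : (q.N δ : ℚ) ≠ 0 := by exact_mod_cast q.N_ne_zero hδ0
    apply mul_right_cancel₀ h3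
    rw [h1]
    push_cast
    linear_combination (a : ℚ) * h2

end QF

end Vale.Agent.P017.H185
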