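import Vale.Agent.P017.H185.QF

namespace Vale.Agent.P017.H185

open NumberField

namespace QF

variable {K : Type*} [Field K] [NumberField K] {d : ℕ} (q : QF K d)

/-- the nontrivial automorphism of the ring of integers -/
noncomputable def s : 𝓞 K ≃+* 𝓞 K := RingOfIntegers.mapRingEquiv (q.σ : K ≃+* K)

theorem ext' {x y : 𝓞 K} (h : algebraMap (𝓞 K) K x = algebraMap (𝓞 K) K y) : x = y :=
  RingOfIntegers.ext h

theorem coe_s (z : 𝓞 K) : algebraMap (𝓞 K) K (q.s z) = q.σ (algebraMap (𝓞 K) K z) := rfl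

theorem s_s (z : 𝓞 K) : q.s (q.s z) = z := by
  apply ext'
  rw [coe_s, coe_s, q.σσ]

theorem isInt (z : 𝓞 K) : IsIntegral ℤ (algebraMap (𝓞 K) K z) := RingOfIntegers.isIntegral_coe z

theorem exists_of_isInt {z : K} (h : IsIntegral ℤ z) : ∃ y : 𝓞 K, algebraMap (𝓞 K) K y = z :=
  ⟨⟨z, h⟩, rfl⟩

/-- `θ` as an element of the ring of integers -/
noncomputable def t : 𝓞 K := ⟨q.θ, by
  refine ⟨Polynomial.X ^ 2 + Polynomial.C (d : ℤ), ?_, ?_⟩
  · exact Polynomial.monic_X_pow_add (by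
      exact lt_of_le_of_lt Polynomial.degree_C_le (by norm_num))
  · simp [q.hθ]⟩

theorem coe_t : algebraMap (𝓞 K) K q.t = q.θ := rfl

theorem t_sq : q.t ^ 2 = -(d : 𝓞 K) := by
  apply ext'
  rw [map_pow, coe_t, q.hθ, map_neg, map_natCast]

theorem s_t : q.s q.t = -q.t := by
  apply ext'
  rw [coe_s, coe_t, q.hσ, map_neg, coe_t]

theorem t_ne_zero : q.t ≠ 0 := by
  intro h
  have := q.t_sq
  rw [h] at this
  have h2 : (d : 𝓞 K) = 0 := by linear_combination this
  have h3 : d = 0 := by exact_mod_cast h2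
  exact q.d_pos.ne' h3

theorem exists_trace (z : 𝓞 K) : ∃ a : ℤ, z + q.s z = (a : 𝓞 K) ∧
    (a : ℚ) = 2 * q.re (algebraMap (𝓞 K) K z) := by
  obtain ⟨a, b, h, -⟩ := q.int_coords (isInt z)
  have h1 : algebraMap (𝓞 K) K z = ((a / 2 : ℚ) : K) + ((b / 2 : ℚ) : K) * q.θ := by
    push_cast; linear_combination (1 / 2 : K) * h
  obtain ⟨h2, h3⟩ := q.re_im_unique h1
  refine ⟨a, ?_, by rw [h2]; ring⟩
  apply ext'
  rw [map_add, coe_s, q.σ_apply, h2, h3, h1, map_intCast]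
  push_cast; ring

theorem exists_N (z : 𝓞 K) : ∃ n : ℕ, z * q.s z = (n : 𝓞 K) ∧
    (n : ℚ) = q.nm (algebraMap (𝓞 K) K z) := by
  have h1 : IsIntegral ℤ ((q.nm (algebraMap (𝓞 K) K z) : ℚ) : K) := by
    rw [← q.mul_σ, ← coe_s]
    exact (isInt z).mul (isInt _)
  obtain ⟨n, hn⟩ := int_of_isIntegral h1
  have h0 : 0 ≤ n := by
    have := q.nm_nonneg (algebraMap (𝓞 K) K z)
    rw [hn] at this; exact_mod_cast this
  lift n to ℕ using h0
  refine ⟨n, ?_, by rw [hn]; simp⟩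
  apply ext'
  rw [map_mul, coe_s, q.mul_σ, hn, map_natCast]
  simp

/-- the norm of an integer -/
noncomputable def N (z : 𝓞 K) : ℕ := (q.exists_N z).choose

theorem mul_s (z : 𝓞 K) : z * q.s z = (q.N z : 𝓞 K) := (q.exists_N z).choose_spec.1

theorem N_eq (z : 𝓞 K) : (q.N z : ℚ) = q.nm (algebraMap (𝓞 K) K z) :=
  (q.exists_N z).choose_spec.2

theorem N_ne_zero {z : 𝓞 K} (h : z ≠ 0) : q.N z ≠ 0 := by
  intro h0
  have h1 := q.N_eq z
  rw [h0] at h1
  have := q.nm_eq_zero (by simpa using h1.symm)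
  apply h
  apply ext'
  rw [this, map_zero]

/-- divisibility of an integer by a rational integer, from trace and norm -/
theorem dvd_of_trace_norm {x : 𝓞 K} {g a n : ℤ} (hg : g ≠ 0) (h1 : x + q.s x = (g * a : ℤ))
    (h2 : x * q.s x = (g ^ 2 * n : ℤ)) : ∃ y : 𝓞 K, x = g * y := by
  have hgK : (g : K) ≠ 0 := by exact_mod_cast hg
  have h1' : algebraMap (𝓞 K) K x + algebraMap (𝓞 K) K (q.s x) = (g : K) * a := by
    rw [← map_add, h1, map_intCast]; push_cast; rfl
  have h2' : algebraMap (𝓞 K) K x * algebraMap (𝓞 K) K (q.s x) = (g : K) ^ 2 * n := by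
    rw [← map_mul, h2, map_intCast]; push_cast; rfl
  have hint : IsIntegral ℤ (algebraMap (𝓞 K) K x / g) := by
    refine ⟨Polynomial.X ^ 2 - Polynomial.C a * Polynomial.X + Polynomial.C n, ?_, ?_⟩
    · have : Polynomial.X ^ 2 - Polynomial.C a * Polynomial.X + Polynomial.C n =
        Polynomial.X ^ 2 + (- Polynomial.C a * Polynomial.X + Polynomial.C n) := by ring
      rw [this]
      apply Polynomial.monic_X_pow_add
      have hle : (-Polynomial.C a * Polynomial.X + Polynomial.C n : Polynomial ℤ).degree ≤ 1 := by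
        compute_degree
      exact lt_of_le_of_lt hle (by norm_num)
    · simp only [Polynomial.eval₂_add, Polynomial.eval₂_sub, Polynomial.eval₂_pow,
        Polynomial.eval₂_X, Polynomial.eval₂_mul, Polynomial.eval₂_C]
      simp only [eq_intCast]
      field_simp
      linear_combination algebraMap (𝓞 K) K x * h1' - h2'
  obtain ⟨y, hy⟩ := exists_of_isInt hint
  refine ⟨y, ?_⟩
  apply ext'
  rw [map_mul, map_intCast, hy]
  field_simp

theorem natCast_dvd {m n : ℕ} (h : (m : 𝓞 K) ∣ (n : 𝓞 K)) : m ∣ n := by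
  obtain ⟨z, hz⟩ := h
  by_cases hm : m = 0
  · subst hm
    have : (n : 𝓞 K) = 0 := by rw [hz]; simp
    have : n = 0 := by exact_mod_cast this
    rw [this]
  · have hmK : (m : K) ≠ 0 := by exact_mod_cast hm
    have hz' : (n : K) = m * algebraMap (𝓞 K) K z := by
      rw [← map_natCast (algebraMap (𝓞 K) K) n, hz, map_mul, map_natCast]
    have h1 : algebraMap (𝓞 K) K z = (((n : ℚ) / m : ℚ) : K) := by
      push_cast
      rw [hz']; field_simp
    have h2 := isInt z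
    rw [h1] at h2
    obtain ⟨k, hk⟩ := int_of_isIntegral h2
    have hmQ : (m : ℚ) ≠ 0 := by exact_mod_cast hm
    have h3 : (n : ℚ) = m * k := by
      rw [← hk]; field_simp
    have h4 : (n : ℤ) = m * k := by exact_mod_cast h3
    exact Int.natCast_dvd_natCast.mp ⟨k, h4⟩

theorem span_natCast_inj {m n : ℕ} (h : Ideal.span {(m : 𝓞 K)} = Ideal.span {(n : 𝓞 K)}) : m = n := by
  apply Nat.dvd_antisymm
  · apply natCast_dvd (K := K)
    rw [← Ideal.span_singleton_le_span_singleton, h]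
  · apply natCast_dvd (K := K)
    rw [← Ideal.span_singleton_le_span_singleton, h]

/-- the ideal `I` has norm `n` -/
def HasN (I : Ideal (𝓞 K)) (n : ℕ) : Prop := I * I.map q.s = Ideal.span {(n : 𝓞 K)}

theorem hasN_unique {I : Ideal (𝓞 K)} {m n : ℕ} (h1 : q.HasN I m) (h2 : q.HasN I n) : m = n :=
  span_natCast_inj (K := K) (h1.symm.trans h2)

theorem HasN.mul {q : QF K d} {I J : Ideal (𝓞 K)} {m n : ℕ} (h1 : q.HasN I m) (h2 : q.HasN J n) :
    q.HasN (I * J) (m * n) := by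
  unfold HasN at *
  rw [Ideal.map_mul]
  calc I * J * (I.map q.s * J.map q.s) = (I * I.map q.s) * (J * J.map q.s) := by
        rw [mul_mul_mul_comm]
    _ = _ := by rw [h1, h2, Ideal.span_singleton_mul_span_singleton]; push_cast; rfl

theorem hasN_span (x : 𝓞 K) : q.HasN (Ideal.span {x}) (q.N x) := by
  unfold HasN
  rw [Ideal.map_span, Set.image_singleton, Ideal.span_singleton_mul_span_singleton, q.mul_s]

theorem exists_hasN {I : Ideal (𝓞 K)} (hI : I ≠ ⊥) : ∃ n : ℕ, n ≠ 0 ∧ q.HasN I n := by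
  obtain ⟨x, hxI, hx⟩ := Submodule.exists_mem_ne_zero_of_ne_bot hI
  obtain ⟨y, hy⟩ := IsDedekindDomain.exists_eq_span_pair hxI hx
  obtain ⟨T, hT, -⟩ := q.exists_trace (x * q.s y)
  have hsT : q.s (x * q.s y) = q.s x * y := by rw [map_mul, q.s_s]
  rw [hsT] at hT
  obtain ⟨g, hg⟩ : ∃ g : ℕ, g = Int.gcd (Int.gcd (q.N x) (q.N y)) T := ⟨_, rfl⟩
  have hA : (g : ℤ) ∣ (q.N x : ℤ) := by
    rw [hg]
    exact (Int.gcd_dvd_left ..).trans (Int.gcd_dvd_left ..)
  have hB : (g : ℤ) ∣ (q.N y : ℤ) := by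
    rw [hg]
    exact (Int.gcd_dvd_left ..).trans (Int.gcd_dvd_right ..)
  have hTg : (g : ℤ) ∣ T := by
    rw [hg]; exact Int.gcd_dvd_right ..
  have hg0 : g ≠ 0 := by
    rintro h0
    rw [h0] at hA
    have : (q.N x : ℤ) = 0 := by simpa using hA
    exact q.N_ne_zero hx (by exact_mod_cast this)
  refine ⟨g, hg0, ?_⟩
  unfold HasN
  rw [hy, Ideal.map_span, Set.image_pair, Ideal.span_pair_mul_span_pair]
  have hxy : (g : 𝓞 K) ∣ x * q.s y := by
    obtain ⟨T', hT'⟩ := hTg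
    obtain ⟨A', hA'⟩ := hA
    obtain ⟨B', hB'⟩ := hB
    obtain ⟨z, hz⟩ := q.dvd_of_trace_norm (x := x * q.s y) (g := g) (a := T') (n := A' * B')
      (by exact_mod_cast hg0) (by rw [hsT, hT, hT']) (by
        rw [hsT]
        have e1 : x * q.s y * (q.s x * y) = (x * q.s x) * (y * q.s y) := by ring
        rw [e1, q.mul_s, q.mul_s]
        have e2 : ((q.N x : ℤ) : 𝓞 K) * ((q.N y : ℤ) : 𝓞 K) = ((g : ℤ) * A' : ℤ) * ((g : ℤ) * B' : ℤ) := by
          rw [hA', hB']
        push_cast at e2 ⊢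
        rw [e2]; ring)
    exact ⟨z, by rw [hz]; simp⟩
  have hyx : (g : 𝓞 K) ∣ y * q.s x := by
    have e : y * q.s x = (T : 𝓞 K) - x * q.s y := by rw [← hT]; ring
    rw [e]
    apply dvd_sub _ hxy
    obtain ⟨T', hT'⟩ := hTg
    exact ⟨T', by rw [hT']; push_cast; rfl⟩
  apply le_antisymm
  · rw [Ideal.span_le]
    intro z hz
    rw [SetLike.mem_coe, Ideal.mem_span_singleton]
    rcases hz with rfl | rfl | rfl | rfl
    · rw [q.mul_s]
      obtain ⟨A', hA'⟩ := hA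
      exact ⟨A', by
        have : ((q.N x : ℤ) : 𝓞 K) = ((g : ℤ) * A' : ℤ) := by rw [hA']
        push_cast at this; exact this⟩
    · exact hxy
    · exact hyx
    · rw [q.mul_s]
      obtain ⟨A', hA'⟩ := hB
      exact ⟨A', by
        have : ((q.N y : ℤ) : 𝓞 K) = ((g : ℤ) * A' : ℤ) := by rw [hA']
        push_cast at this; exact this⟩
  · rw [Ideal.span_singleton_le_iff_mem]
    have hb1 := Int.gcd_eq_gcd_ab (Int.gcd (q.N x) (q.N y)) T
    have hb2 := Int.gcd_eq_gcd_ab (q.N x) (q.N y)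
    rw [← hg, hb2] at hb1
    have hb3 : (g : 𝓞 K) = ((g : ℤ) : 𝓞 K) := by simp
    rw [hb3, hb1]
    have m1 : ((q.N x : ℤ) : 𝓞 K) ∈ Ideal.span {x * q.s x, x * q.s y, y * q.s x, y * q.s y} := by
      have : ((q.N x : ℤ) : 𝓞 K) = x * q.s x := by rw [q.mul_s]; simp
      rw [this]; exact Ideal.subset_span (by simp)
    have m2 : ((q.N y : ℤ) : 𝓞 K) ∈ Ideal.span {x * q.s x, x * q.s y, y * q.s x, y * q.s y} := by
      have : ((q.N y : ℤ) : 𝓞 K) = y * q.s y := by rw [q.mul_s]; simp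
      rw [this]; exact Ideal.subset_span (by simp)
    have m3 : ((T : ℤ) : 𝓞 K) ∈ Ideal.span {x * q.s x, x * q.s y, y * q.s x, y * q.s y} := by
      rw [← hT, mul_comm (q.s x) y]
      exact Ideal.add_mem _ (Ideal.subset_span (by simp)) (Ideal.subset_span (by simp))
    push_cast at m1 m2 ⊢
    exact Ideal.add_mem _ (Ideal.mul_mem_right _ _ (Ideal.add_mem _ (Ideal.mul_mem_right _ _ m1)
      (Ideal.mul_mem_right _ _ m2))) (Ideal.mul_mem_right _ _ m3)

end QF

end Vale.Agent.P017.H185
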