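import Vale.Agent.P017.H185.Amb

namespace Vale.Agent.P017.H185

open NumberField

/-- In a finite commutative group without elements of order four every element is the product of
an element of order at most two and a square. -/
theorem decomp {G : Type*} [CommGroup G] [Finite G] (h : ∀ c : G, orderOf c ≠ 4) (C : G) :
    ∃ A S : G, A * A = 1 ∧ C = A * (S * S) := by
  have hn : 0 < orderOf C := orderOf_pos C
  have h4 : ¬ 4 ∣ orderOf C := by
    intro h4
    obtain ⟨k, hk⟩ := h4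
    have hk0 : k ≠ 0 := by rintro rfl; omega
    apply h (C ^ k)
    rw [orderOf_pow_of_dvd hk0 ⟨4, by rw [hk]; ring⟩, hk]
    exact Nat.mul_div_cancel _ (Nat.pos_of_ne_zero hk0)
  obtain ⟨m, hm⟩ : ∃ m, C ^ (2 * (2 * m + 1)) = 1 := by
    rcases Nat.even_or_odd' (orderOf C) with ⟨r, hr | hr⟩
    · rcases Nat.even_or_odd' r with ⟨u, hu | hu⟩
      · exact absurd ⟨u, by omega⟩ h4
      · refine ⟨u, ?_⟩
        rw [← hu, ← hr, pow_orderOf_eq_one]
    · refine ⟨r, ?_⟩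
      rw [← hr, mul_comm, pow_mul, pow_orderOf_eq_one, one_pow]
  refine ⟨C ^ (2 * m + 1), (C ^ m)⁻¹, ?_, ?_⟩
  · rw [← pow_add, ← hm]; congr 1; ring
  · rw [pow_succ, two_mul, pow_add]
    group

namespace QF

variable {K : Type*} [Field K] [NumberField K] {d : ℕ} (q : QF K d)

/-- a split prime -/
theorem hasN_split {l : ℕ} {c : ℤ} (hl : (l : ℤ) ∣ c ^ 2 + d) (hcop : IsCoprime (2 * c) (l : ℤ)) :
    q.HasN (Ideal.span {(l : 𝓞 K), q.t - c}) l := by
  unfold HasN
  obtain ⟨m, hm⟩ := hl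
  obtain ⟨α, β, hαβ⟩ := hcop
  have hαβ' : (α : 𝓞 K) * (2 * c) + β * l = 1 := by exact_mod_cast congrArg (Int.cast : ℤ → 𝓞 K) hαβ
  have hm' : (c : 𝓞 K) ^ 2 + d = l * m := by exact_mod_cast congrArg (Int.cast : ℤ → 𝓞 K) hm
  have ht := q.t_sq
  rw [Ideal.map_span, Set.image_pair, map_sub, q.s_t, map_natCast, map_intCast,
    Ideal.span_pair_mul_span_pair]
  apply le_antisymm
  · rw [Ideal.span_le]
    intro z hz
    rw [SetLike.mem_coe, Ideal.mem_span_singleton]
    rcases hz with rfl | rfl | rfl | rfl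
    · exact dvd_mul_right _ _
    · exact dvd_mul_right _ _
    · exact dvd_mul_left _ _
    · exact ⟨m, by linear_combination hm' - ht⟩
  · rw [Ideal.span_singleton_le_iff_mem]
    have h1 : (l : 𝓞 K) * l ∈ Ideal.span {(l : 𝓞 K) * l, (l : 𝓞 K) * (-q.t - c), (q.t - c) * l,
        (q.t - c) * (-q.t - c)} := Ideal.subset_span (by simp)
    have h2 : (l : 𝓞 K) * (-q.t - c) ∈ Ideal.span {(l : 𝓞 K) * l, (l : 𝓞 K) * (-q.t - c),
        (q.t - c) * l, (q.t - c) * (-q.t - c)} := Ideal.subset_span (by simp)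
    have h3 : (q.t - c) * l ∈ Ideal.span {(l : 𝓞 K) * l, (l : 𝓞 K) * (-q.t - c), (q.t - c) * l,
        (q.t - c) * (-q.t - c)} := Ideal.subset_span (by simp)
    have h4 := Ideal.add_mem _ (Ideal.mul_mem_left _ (β : 𝓞 K) h1)
      (Ideal.mul_mem_left _ (-α : 𝓞 K) (Ideal.add_mem _ h2 h3))
    convert h4 using 1
    linear_combination (-(l : 𝓞 K)) * hαβ'

theorem span_ne_bot {x : 𝓞 K} (hx : x ≠ 0) : Ideal.span {x} ≠ ⊥ := by
  rwa [Ne, Ideal.span_singleton_eq_bot]

theorem ne_zero_of_hasN {q : QF K d} {I : Ideal (𝓞 K)} {n : ℕ} (hn : n ≠ 0) (h : q.HasN I n) : I ≠ ⊥ := by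
  rintro rfl
  unfold HasN at h
  rw [Ideal.bot_mul] at h
  have := Ideal.span_singleton_eq_bot.mp h.symm
  exact hn (by exact_mod_cast this)

/-- **Consequence of the absence of elements of order four in the class group**: for every ideal
`L` of norm `l` there is a squarefree `a` supported on ramified primes such that `l a` is a norm
from `K`. -/
theorem exists_amb_norm (hcl : ∀ c : ClassGroup (𝓞 K), orderOf c ≠ 4) {L : Ideal (𝓞 K)} {l : ℕ}
    (hl : l ≠ 0) (hL : q.HasN L l) :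
    ∃ a : ℕ, Squarefree a ∧ (∀ p : ℕ, p.Prime → p ∣ a → Ram d p) ∧
      ∃ w : K, w ≠ 0 ∧ (l : ℚ) * a = q.nm w := by
  have hL0 : L ≠ ⊥ := ne_zero_of_hasN hl hL
  obtain ⟨A, S, hA, hC⟩ := decomp hcl (ClassGroup.mk0 ⟨L, mem_nonZeroDivisors_of_ne_zero hL0⟩)
  obtain ⟨⟨I, hI⟩, rfl⟩ := ClassGroup.mk0_surjective A
  obtain ⟨⟨J, hJ⟩, rfl⟩ := ClassGroup.mk0_surjective S
  have hI0 : I ≠ ⊥ := nonZeroDivisors.ne_zero hI
  have hJ0 : J ≠ ⊥ := nonZeroDivisors.ne_zero hJ
  rw [← map_mul] at hA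
  rw [← map_mul, ← map_mul, ClassGroup.mk0_eq_mk0_iff] at hC
  obtain ⟨x, y, hx, hy, hxy⟩ := hC
  obtain ⟨γ, hγ⟩ := ((ClassGroup.mk0_eq_one_iff _).mp hA).principal
  have hγ' : I * I = Ideal.span {γ} := hγ
  obtain ⟨n, hn, hIn⟩ := q.exists_hasN hI0
  obtain ⟨m, hm, hJm⟩ := q.exists_hasN hJ0
  obtain ⟨a, ha, hram, -, w, hw, hwn⟩ := q.amb hI0 hIn hγ'
  refine ⟨a, ha, hram, ?_⟩
  have h1 : q.HasN (Ideal.span {x} * L) (q.N x * l) := (q.hasN_span x).mul hL
  have h2 : q.HasN (Ideal.span {y} * (I * (J * J))) (q.N y * (n * (m * m))) :=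
    (q.hasN_span y).mul (hIn.mul (hJm.mul hJm))
  have hxy' : Ideal.span {x} * L = Ideal.span {y} * (I * (J * J)) := hxy
  rw [hxy'] at h1
  have h3 := q.hasN_unique h1 h2
  have h3' : (q.N x : ℚ) * l = q.N y * (n * (m * m)) := by exact_mod_cast h3
  have hxK : algebraMap (𝓞 K) K x ≠ 0 := by
    rw [Ne, ← map_zero (algebraMap (𝓞 K) K)]; exact fun h => hx (ext' h)
  have hyK : algebraMap (𝓞 K) K y ≠ 0 := by
    rw [Ne, ← map_zero (algebraMap (𝓞 K) K)]; exact fun h => hy (ext' h)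
  have hmK : ((m : ℚ) : K) ≠ 0 := by exact_mod_cast hm
  refine ⟨algebraMap (𝓞 K) K y * ((m : ℚ) : K) * w / algebraMap (𝓞 K) K x,
    div_ne_zero (mul_ne_zero (mul_ne_zero hyK hmK) hw) hxK, ?_⟩
  have h4 : q.nm (algebraMap (𝓞 K) K y * ((m : ℚ) : K) * w / algebraMap (𝓞 K) K x) *
      q.nm (algebraMap (𝓞 K) K x) = q.N y * m ^ 2 * (n * a) := by
    rw [← q.nm_mul, div_mul_cancel₀ _ hxK, q.nm_mul, q.nm_mul, q.nm_rat, ← q.N_eq, hwn]
  rw [← q.N_eq] at h4
  have h5 : (q.N x : ℚ) ≠ 0 := by exact_mod_cast q.N_ne_zero hx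
  apply mul_right_cancel₀ h5
  rw [h4]
  linear_combination (a : ℚ) * h3'

/-- ambiguous ideals of norm dividing `d` -/
theorem amb_ideal {b : ℕ} (hb : b ∣ d) :
    Ideal.span {(b : 𝓞 K), q.t} * Ideal.span {(b : 𝓞 K), q.t} = Ideal.span {(b : 𝓞 K)} := by
  obtain ⟨c, hc⟩ := hb
  have hcop : Nat.Coprime b c := by
    have := q.hd; rw [hc] at this
    exact Nat.coprime_of_squarefree_mul this
  obtain ⟨α, β, hαβ⟩ := Nat.isCoprime_iff_coprime.mpr hcop
  have hαβ' : (α : 𝓞 K) * b + β * c = 1 := by exact_mod_cast congrArg (Int.cast : ℤ → 𝓞 K) hαβ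
  have ht := q.t_sq
  have hdc : (d : 𝓞 K) = b * c := by rw [hc]; push_cast; rfl
  rw [Ideal.span_pair_mul_span_pair]
  apply le_antisymm
  · rw [Ideal.span_le]
    intro z hz
    rw [SetLike.mem_coe, Ideal.mem_span_singleton]
    rcases hz with rfl | rfl | rfl | rfl
    · exact dvd_mul_right _ _
    · exact dvd_mul_right _ _
    · exact dvd_mul_left _ _
    · exact ⟨-c, by linear_combination ht - hdc⟩
  · rw [Ideal.span_singleton_le_iff_mem]
    have h1 : (b : 𝓞 K) * b ∈ Ideal.span {(b : 𝓞 K) * b, (b : 𝓞 K) * q.t, q.t * b, q.t * q.t} :=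
      Ideal.subset_span (by simp)
    have h4 : q.t * q.t ∈ Ideal.span {(b : 𝓞 K) * b, (b : 𝓞 K) * q.t, q.t * b, q.t * q.t} :=
      Ideal.subset_span (by simp)
    have h5 := Ideal.add_mem _ (Ideal.mul_mem_left _ (α : 𝓞 K) h1) (Ideal.mul_mem_left _ (-β : 𝓞 K) h4)
    convert h5 using 1
    linear_combination (-(b : 𝓞 K)) * hαβ' + (β : 𝓞 K) * ht - (β : 𝓞 K) * hdc

/-- the ramified prime above two, `d ≡ 1 mod 4` -/
theorem amb_two (hd : d % 4 = 1) :
    Ideal.span {(2 : 𝓞 K), 1 + q.t} * Ideal.span {(2 : 𝓞 K), 1 + q.t} = Ideal.span {(2 : 𝓞 K)} := by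
  obtain ⟨e, he⟩ : ∃ e, d = 4 * e + 1 := ⟨d / 4, by omega⟩
  have he' : (d : 𝓞 K) = 4 * e + 1 := by rw [he]; push_cast; rfl
  have ht := q.t_sq
  rw [Ideal.span_pair_mul_span_pair]
  apply le_antisymm
  · rw [Ideal.span_le]
    intro z hz
    rw [SetLike.mem_coe, Ideal.mem_span_singleton]
    rcases hz with rfl | rfl | rfl | rfl
    · exact dvd_mul_right _ _
    · exact dvd_mul_right _ _
    · exact dvd_mul_left _ _
    · exact ⟨q.t - 2 * e, by linear_combination ht - he'⟩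
  · rw [Ideal.span_singleton_le_iff_mem]
    have h1 : (2 : 𝓞 K) * 2 ∈ Ideal.span {(2 : 𝓞 K) * 2, (2 : 𝓞 K) * (1 + q.t), (1 + q.t) * 2,
        (1 + q.t) * (1 + q.t)} := Ideal.subset_span (by simp)
    have h2 : (2 : 𝓞 K) * (1 + q.t) ∈ Ideal.span {(2 : 𝓞 K) * 2, (2 : 𝓞 K) * (1 + q.t),
        (1 + q.t) * 2, (1 + q.t) * (1 + q.t)} := Ideal.subset_span (by simp)
    have h4 : (1 + q.t) * (1 + q.t) ∈ Ideal.span {(2 : 𝓞 K) * 2, (2 : 𝓞 K) * (1 + q.t),
        (1 + q.t) * 2, (1 + q.t) * (1 + q.t)} := Ideal.subset_span (by simp)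
    have h5 := Ideal.add_mem _ (Ideal.sub_mem _ h2 h4) (Ideal.mul_mem_left _ (-e : 𝓞 K) h1)
    convert h5 using 1
    linear_combination ht - he'

theorem amb_ideal_map (b : ℕ) :
    (Ideal.span {(b : 𝓞 K), q.t}).map q.s = Ideal.span {(b : 𝓞 K), q.t} := by
  rw [Ideal.map_span, Set.image_pair, q.s_t, map_natCast]
  apply le_antisymm
  · rw [Ideal.span_le]
    intro z hz
    rcases hz with rfl | rfl
    · exact Ideal.subset_span (by simp)
    · exact Ideal.neg_mem_iff _ |>.mpr (Ideal.subset_span (by simp))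
  · rw [Ideal.span_le]
    intro z hz
    rcases hz with rfl | rfl
    · exact Ideal.subset_span (by simp)
    · exact Ideal.neg_mem_iff _ |>.mp (Ideal.subset_span (by simp))

theorem amb_two_map :
    (Ideal.span {(2 : 𝓞 K), 1 + q.t}).map q.s = Ideal.span {(2 : 𝓞 K), 1 + q.t} := by
  rw [Ideal.map_span, Set.image_pair, map_add, q.s_t, map_one, map_ofNat]
  apply le_antisymm
  · rw [Ideal.span_le]
    intro z hz
    rcases hz with rfl | rfl
    · exact Ideal.subset_span (by simp)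
    · rw [SetLike.mem_coe, Ideal.mem_span_pair]
      exact ⟨1, -1, by ring⟩
  · rw [Ideal.span_le]
    intro z hz
    rcases hz with rfl | rfl
    · exact Ideal.subset_span (by simp)
    · rw [SetLike.mem_coe, Ideal.mem_span_pair]
      exact ⟨1, -1, by ring⟩

include q in
/-- ambiguous ideals of squarefree norm supported on the ramified primes -/
theorem exists_amb_ideal {b : ℕ} (hb : Squarefree b) (hram : ∀ p : ℕ, p.Prime → p ∣ b → Ram d p) :
    ∃ J : Ideal (𝓞 K), J * J = Ideal.span {(b : 𝓞 K)} ∧ J.map q.s = J := by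
  have hodd : ∀ p : ℕ, p.Prime → p ∣ b → p ≠ 2 → p ∣ d := by
    intro p hp hpb hp2
    rcases hram p hp hpb with h | h
    · exact h
    · exact absurd h.1 hp2
  have hdvd : ∀ c : ℕ, Squarefree c → (∀ p : ℕ, p.Prime → p ∣ c → p ∣ d) → c ∣ d := by
    intro c hc h
    rw [← Nat.prod_primeFactors_of_squarefree hc]
    exact Finset.prod_primes_dvd _ (fun p hp => (Nat.prime_of_mem_primeFactors hp).prime)
      (fun p hp => h p (Nat.prime_of_mem_primeFactors hp) (Nat.dvd_of_mem_primeFactors hp))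
  by_cases h2 : 2 ∣ b ∧ ¬ 2 ∣ d
  · obtain ⟨⟨c, hc⟩, h2d⟩ := h2
    have hd1 : d % 4 = 1 := by
      rcases hram 2 Nat.prime_two ⟨c, hc⟩ with h | h
      · exact absurd h h2d
      · omega
    have hc2 : ¬ 2 ∣ c := by
      rintro ⟨e, he⟩
      have := hb 2 ⟨e, by rw [hc, he]; ring⟩
      exact absurd (Nat.isUnit_iff.mp this) (by norm_num)
    have hcsq : Squarefree c := hb.squarefree_of_dvd ⟨2, by rw [hc]; ring⟩
    have hcd : c ∣ d := hdvd c hcsq (fun p hp hpc => hodd p hp (hpc.trans ⟨2, by rw [hc]; ring⟩)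
      (by rintro rfl; exact hc2 hpc))
    refine ⟨Ideal.span {(2 : 𝓞 K), 1 + q.t} * Ideal.span {(c : 𝓞 K), q.t}, ?_, ?_⟩
    · rw [mul_mul_mul_comm, q.amb_two hd1, q.amb_ideal hcd, Ideal.span_singleton_mul_span_singleton, hc]
      push_cast; rfl
    · rw [Ideal.map_mul, q.amb_two_map, q.amb_ideal_map]
  · refine ⟨Ideal.span {(b : 𝓞 K), q.t}, q.amb_ideal (hdvd b hb ?_), q.amb_ideal_map b⟩
    intro p hp hpb
    by_cases hp2 : p = 2
    · subst hp2
      by_contra hcon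
      exact h2 ⟨hpb, hcon⟩
    · exact hodd p hp hpb hp2

/-- elementary endgame: a principal ambiguous ideal -/
theorem endgame {d b : ℕ} (hd : Squarefree d) (hb : Squarefree b) (hd1 : d ≠ 1) {u v τ : ℤ}
    (h1 : u ^ 2 = b * (2 + τ)) (h2 : (d : ℤ) * v ^ 2 = b * (2 - τ)) : b = 1 ∨ b = d := by
  have hb0 : (0 : ℤ) < b := by exact_mod_cast Nat.pos_of_ne_zero hb.ne_zero
  have hd0 : (0 : ℤ) < d := by exact_mod_cast Nat.pos_of_ne_zero hd.ne_zero
  have ht1 : -2 ≤ τ := by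
    by_contra hcon
    push Not at hcon
    nlinarith [sq_nonneg u]
  have ht2 : τ ≤ 2 := by
    by_contra hcon
    push Not at hcon
    nlinarith [mul_nonneg hd0.le (sq_nonneg v)]
  have hsqf : ∀ {e : ℤ} {n : ℕ}, Squarefree n → e * e ∣ (n : ℤ) → e ^ 2 = 1 := by
    intro e n hn he
    have h := Int.isUnit_iff.mp ((Int.squarefree_natCast.mpr hn) e he)
    rcases h with rfl | rfl <;> norm_num
  interval_cases τ
  · -- τ = -2
    right
    have hv : v % 2 = 0 := by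
      rcases Int.emod_two_eq_zero_or_one v with h | h
      · exact h
      · exfalso
        obtain ⟨c, hc⟩ : ∃ c, v = 2 * c + 1 := ⟨v / 2, by omega⟩
        have h4 : (4 : ℤ) ∣ d := by
          have : (d : ℤ) = 4 * (b - d * (c ^ 2 + c)) := by
            rw [hc] at h2; linarith
          exact ⟨_, this⟩
        have := (Int.squarefree_natCast.mpr hd) 2 (by simpa using h4)
        norm_num [Int.isUnit_iff] at this
    obtain ⟨v', hv'⟩ : ∃ v', v = 2 * v' := ⟨v / 2, by omega⟩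
    have h3 : (b : ℤ) = d * v' ^ 2 := by rw [hv'] at h2; linarith
    have h4 := hsqf hb (e := v') ⟨d, by rw [h3]; ring⟩
    rw [h4, mul_one] at h3
    exact_mod_cast h3
  · -- τ = -1
    left
    have h3 : (b : ℤ) = u ^ 2 := by rw [h1]; ring
    have h4 := hsqf hb (e := u) ⟨1, by rw [h3]; ring⟩
    rw [h4] at h3
    exact_mod_cast h3
  · -- τ = 0
    exfalso
    have hu : u % 2 = 0 := by
      rcases Int.emod_two_eq_zero_or_one u with h | h
      · exact h
      · obtain ⟨c, hc⟩ : ∃ c, u = 2 * c + 1 := ⟨u / 2, by omega⟩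
        rw [hc] at h1; ring_nf at h1; omega
    obtain ⟨u', hu'⟩ : ∃ u', u = 2 * u' := ⟨u / 2, by omega⟩
    have h3 : (b : ℤ) = 2 * u' ^ 2 := by rw [hu'] at h1; linarith
    have h4 := hsqf hb (e := u') ⟨2, by rw [h3]; ring⟩
    rw [h4] at h3
    rw [h3] at h2
    have h5 : (d : ℤ) * v ^ 2 = 4 := by linarith
    have hd4 : d ≤ 4 := by
      have : (d : ℤ) ∣ 4 := ⟨v ^ 2, h5.symm⟩
      exact_mod_cast Int.le_of_dvd (by norm_num) this
    have : d ≠ 0 := hd.ne_zero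
    have hvb : v ^ 2 ≤ 4 := by nlinarith [sq_nonneg v]
    have hv1 : v ≤ 2 := by nlinarith
    have hv2 : -2 ≤ v := by nlinarith
    have hd4' : d ≠ 4 := by
      rintro rfl
      have := hd 2 (by norm_num)
      norm_num at this
    have hcases : d = 2 ∨ d = 3 := by omega
    rcases hcases with rfl | rfl <;> interval_cases v <;> norm_num at h5
  · -- τ = 1
    have hu : u % 3 = 0 := by
      have : (3 : ℤ) ∣ u ^ 2 := ⟨b, by rw [h1]; ring⟩
      have := Int.prime_three.dvd_of_dvd_pow this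
      omega
    obtain ⟨u', hu'⟩ : ∃ u', u = 3 * u' := ⟨u / 3, by omega⟩
    have h3 : (b : ℤ) = 3 * u' ^ 2 := by rw [hu'] at h1; linarith
    have h4 := hsqf hb (e := u') ⟨3, by rw [h3]; ring⟩
    rw [h4] at h3
    right
    rw [h3] at h2
    have h5 : (d : ℤ) * v ^ 2 = 3 := by linarith
    have hd4 : d ≤ 3 := by
      have : (d : ℤ) ∣ 3 := ⟨v ^ 2, h5.symm⟩
      exact_mod_cast Int.le_of_dvd (by norm_num) this
    have : d ≠ 0 := hd.ne_zero
    have hvb : v ^ 2 ≤ 3 := by nlinarith [sq_nonneg v]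
    have hv1 : v ≤ 1 := by nlinarith
    have hv2 : -1 ≤ v := by nlinarith
    have hb3 : b = 3 := by exact_mod_cast h3
    have hcases : d = 2 ∨ d = 3 := by omega
    rcases hcases with rfl | rfl
    · interval_cases v <;> norm_num at h5
    · exact hb3
  · -- τ = 2
    left
    have hu : u % 2 = 0 := by
      rcases Int.emod_two_eq_zero_or_one u with h | h
      · exact h
      · obtain ⟨c, hc⟩ : ∃ c, u = 2 * c + 1 := ⟨u / 2, by omega⟩
        rw [hc] at h1; ring_nf at h1; omega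
    obtain ⟨u', hu'⟩ : ∃ u', u = 2 * u' := ⟨u / 2, by omega⟩
    have h3 : (b : ℤ) = u' ^ 2 := by rw [hu'] at h1; linarith
    have h4 := hsqf hb (e := u') ⟨1, by rw [h3]; ring⟩
    rw [h4] at h3
    exact_mod_cast h3

/-- **First consequence**: a squarefree norm from `K` supported on the ramified primes is `1` or
`d`, if the class group has no element of order four. -/
theorem norm_trivial (hcl : ∀ c : ClassGroup (𝓞 K), orderOf c ≠ 4) (hd1 : d ≠ 1) {b : ℕ}
    (hb : Squarefree b) (hram : ∀ p : ℕ, p.Prime → p ∣ b → Ram d p) {w : K}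
    (hw : q.nm w = b) : b = 1 ∨ b = d := by
  have hb0 : b ≠ 0 := hb.ne_zero
  obtain ⟨x, y, hy, rfl⟩ := IsFractionRing.div_surjective (A := 𝓞 K) w
  have hy0 : y ≠ 0 := nonZeroDivisors.ne_zero hy
  have hyK : algebraMap (𝓞 K) K y ≠ 0 := by
    rw [Ne, ← map_zero (algebraMap (𝓞 K) K)]; exact fun h => hy0 (ext' h)
  obtain ⟨J, hJJ, hJs⟩ := q.exists_amb_ideal hb hram
  obtain ⟨n, hn⟩ : ∃ n, n = q.N y := ⟨_, rfl⟩
  have hn0 : n ≠ 0 := by rw [hn]; exact q.N_ne_zero hy0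
  have hNx : (q.N x : ℚ) = b * n := by
    have h1 : q.nm (algebraMap (𝓞 K) K x / algebraMap (𝓞 K) K y) * q.nm (algebraMap (𝓞 K) K y) =
        q.nm (algebraMap (𝓞 K) K x) := by
      rw [← q.nm_mul, div_mul_cancel₀ _ hyK]
    rw [hw, ← q.N_eq, ← q.N_eq, ← hn] at h1
    exact h1.symm
  have hNx' : q.N x = b * n := by exact_mod_cast hNx
  obtain ⟨β, hβ⟩ : ∃ β, β = x * q.s y := ⟨_, rfl⟩
  have hββ : β * q.s β = (b : 𝓞 K) * n ^ 2 := by
    rw [hβ, map_mul, q.s_s]
    have e1 := q.mul_s x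
    have e2 := q.mul_s y
    rw [hNx'] at e1
    rw [← hn] at e2
    push_cast at e1
    calc x * q.s y * (q.s x * y) = (x * q.s x) * (y * q.s y) := by ring
      _ = _ := by rw [e1, e2]; ring
  have hbO : (b : 𝓞 K) ≠ 0 := by exact_mod_cast hb0
  have hnO : (n : 𝓞 K) ≠ 0 := by exact_mod_cast hn0
  have hβ0 : β ≠ 0 := by
    rintro rfl
    rw [zero_mul] at hββ
    exact mul_ne_zero hbO (pow_ne_zero 2 hnO) hββ.symm
  obtain ⟨c, hc⟩ : ∃ c : Ideal (𝓞 K), c = Ideal.span {(n : 𝓞 K) * b} ⊔ Ideal.span {β} * J := ⟨_, rfl⟩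
  have hcs : c.map q.s = Ideal.span {(n : 𝓞 K) * b} ⊔ Ideal.span {q.s β} * J := by
    rw [hc, Ideal.map_sup, Ideal.map_mul, hJs, Ideal.map_span, Ideal.map_span,
      Set.image_singleton, Set.image_singleton, map_mul, map_natCast, map_natCast]
  have hc0 : c ≠ ⊥ := by
    intro h0
    have : Ideal.span {(n : 𝓞 K) * b} ≤ c := by rw [hc]; exact le_sup_left
    rw [h0, le_bot_iff, Ideal.span_singleton_eq_bot] at this
    exact mul_ne_zero hnO hbO this
  have key : Ideal.span {β} * J * c.map q.s = Ideal.span {(n : 𝓞 K) * b} * c := by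
    rw [hcs, hc, Ideal.mul_sup, Ideal.mul_sup]
    have e1 : Ideal.span {β} * J * Ideal.span {(n : 𝓞 K) * b} =
        Ideal.span {(n : 𝓞 K) * b} * (Ideal.span {β} * J) := mul_comm _ _
    have e2 : Ideal.span {β} * J * (Ideal.span {q.s β} * J) =
        Ideal.span {(n : 𝓞 K) * b} * Ideal.span {(n : 𝓞 K) * b} := by
      rw [mul_mul_mul_comm, hJJ]
      simp only [Ideal.span_singleton_mul_span_singleton]
      congr 2
      rw [hββ]; ring
    rw [e1, e2, sup_comm]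
  obtain ⟨m, hm0, hm⟩ := q.exists_hasN hc0
  have hmO : (m : 𝓞 K) ≠ 0 := by exact_mod_cast hm0
  have hJ0 : J ≠ ⊥ := by
    rintro rfl
    rw [Ideal.bot_mul] at hJJ
    exact hbO (Ideal.span_singleton_eq_bot.mp hJJ.symm)
  have key2 : Ideal.span {β * m} * J = Ideal.span {(n : 𝓞 K) * b} * (c * c) := by
    have h1 : c * c.map q.s = Ideal.span {(m : 𝓞 K)} := hm
    calc Ideal.span {β * m} * J = Ideal.span {β} * J * Ideal.span {(m : 𝓞 K)} := by
          rw [← Ideal.span_singleton_mul_span_singleton, mul_assoc, mul_comm (Ideal.span {(m : 𝓞 K)}),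
            ← mul_assoc]
      _ = Ideal.span {β} * J * c.map q.s * c := by rw [← h1]; ring
      _ = _ := by rw [key]; ring
  obtain ⟨C, hC⟩ : ∃ C, C = ClassGroup.mk0 ⟨c, mem_nonZeroDivisors_of_ne_zero hc0⟩ := ⟨_, rfl⟩
  have hJC : ClassGroup.mk0 ⟨J, mem_nonZeroDivisors_of_ne_zero hJ0⟩ = C * C := by
    rw [hC, ← map_mul, ClassGroup.mk0_eq_mk0_iff]
    exact ⟨β * m, n * b, mul_ne_zero hβ0 hmO, mul_ne_zero hnO hbO, key2⟩
  have hJ2 : ClassGroup.mk0 ⟨J, mem_nonZeroDivisors_of_ne_zero hJ0⟩ *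
      ClassGroup.mk0 ⟨J, mem_nonZeroDivisors_of_ne_zero hJ0⟩ = 1 := by
    rw [← map_mul, MulMemClass.mk_mul_mk, ClassGroup.mk0_eq_one_iff, hJJ]
    exact ⟨⟨_, rfl⟩⟩
  have hC4 : C ^ 4 = 1 := by
    rw [hJC] at hJ2
    rw [← hJ2]
    simp [pow_succ, mul_assoc]
  have hC2 : C ^ 2 = 1 := by
    have h1 : orderOf C ∣ 2 ^ 2 := orderOf_dvd_of_pow_eq_one hC4
    rw [Nat.dvd_prime_pow Nat.prime_two] at h1
    obtain ⟨k, hk, hk2⟩ := h1
    have hk3 : k ≠ 2 := by
      rintro rfl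
      exact hcl C (by rw [hk2]; norm_num)
    have : k ≤ 1 := by omega
    apply orderOf_dvd_iff_pow_eq_one.mp
    rw [hk2]
    exact (pow_dvd_pow 2 this).trans (by norm_num)
  have hJ1 : ClassGroup.mk0 ⟨J, mem_nonZeroDivisors_of_ne_zero hJ0⟩ = 1 := by
    rw [hJC, ← sq, hC2]
  obtain ⟨g, hg⟩ := ((ClassGroup.mk0_eq_one_iff _).mp hJ1).principal
  have hg' : J = Ideal.span {g} := hg
  -- trace and norm of the generator
  have hNg : q.N g = b := by
    have h1 : q.HasN (J * J) (q.N g * q.N g) := by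
      have := q.hasN_span g
      rw [← hg'] at this
      exact this.mul this
    have h2 : q.HasN (J * J) (b * b) := by
      unfold HasN
      rw [Ideal.map_mul, hJs, hJJ, Ideal.span_singleton_mul_span_singleton]
      push_cast; rfl
    have h3 := q.hasN_unique h1 h2
    exact Nat.mul_self_inj.mp h3
  have hgg : (b : 𝓞 K) ∣ g * g := by
    rw [← Ideal.span_singleton_le_span_singleton, ← hJJ, hg', Ideal.span_singleton_mul_span_singleton]
  obtain ⟨ε, hε⟩ := hgg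
  obtain ⟨τ, hτ, -⟩ := q.exists_trace ε
  obtain ⟨a, ha, -⟩ := q.exists_trace g
  have hgs := q.mul_s g
  rw [hNg] at hgs
  have h1 : (a : ℤ) ^ 2 = b * (2 + τ) := by
    apply intCast_inj' (K := K)
    push_cast
    rw [← ha, ← hτ]
    have : q.s (g * g) = b * q.s ε := by rw [hε, map_mul, map_natCast]
    rw [map_mul] at this
    linear_combination hε + this + 2 * hgs
  obtain ⟨u, v, huv, -⟩ := q.int_coords (isInt g)
  have hre := q.re_im_unique (z := algebraMap (𝓞 K) K g) (u := u / 2) (v := v / 2) (by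
    push_cast; linear_combination (1 / 2 : K) * huv)
  have hau : a = u := by
    obtain ⟨a', ha', ha''⟩ := q.exists_trace g
    have e1 : a = a' := intCast_inj' (K := K) (ha.symm.trans ha')
    rw [hre.1] at ha''
    have : (a : ℚ) = u := by rw [e1, ha'']; ring
    exact_mod_cast this
  have h2 : (d : ℤ) * v ^ 2 = b * (2 - τ) := by
    have e1 : (b : ℚ) = (u / 2) ^ 2 + d * (v / 2) ^ 2 := by
      rw [← hNg, q.N_eq, QF.nm, hre.1, hre.2]
    have e2 : ((u ^ 2 + d * v ^ 2 : ℤ) : ℚ) = ((4 * b : ℤ) : ℚ) := by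
      push_cast; rw [e1]; ring
    have e3 : u ^ 2 + d * v ^ 2 = 4 * (b : ℤ) := by exact_mod_cast e2
    rw [← hau, h1] at e3
    linarith
  exact endgame q.hd hb hd1 h1 h2

end QF

end Vale.Agent.P017.H185
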