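import Vale.Agent.P017.H185.Desc

namespace Vale.Agent.P017.H185

open WeierstrassCurve

theorem m1 : (-1 : ℚ) ≠ 0 := by norm_num

/-- the point `(20, 180)` of order four on `y² = x (x + 16) (x + 25)` -/
def T5 : (ED (-1)).toAffine.Point := pt m1 20 180 (by norm_num)

theorem two_T5 : 2 • T5 = T1 m1 := by
  have h : (180 : ℚ) ^ 2 = 20 * (20 - 16 * (-1)) * (20 - 25 * (-1)) := by norm_num
  have hne : (180 : ℚ) ≠ (ED (-1)).toAffine.negY 20 180 := by
    simp only [Affine.negY, ED]; norm_num
  rw [two_nsmul]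
  unfold T5 T1 pt
  rw [Affine.Point.add_some (fun h => hne h.2)]
  have hs : (ED (-1)).toAffine.slope 20 20 180 180 = 9 := by
    rw [Affine.slope_of_Y_ne rfl hne]
    simp only [Affine.negY, ED]
    norm_num
  have hX : (ED (-1)).toAffine.addX 20 20 9 = 0 := by
    simp only [Affine.addX, ED]; norm_num
  simp only [Affine.Point.some.injEq]
  rw [hs]
  refine ⟨hX, ?_⟩
  simp only [Affine.addY, Affine.negAddY, Affine.negY, hX]
  simp only [ED]
  norm_num

theorem four_T5 : 4 • T5 = 0 := by
  rw [show (4 : ℕ) = 2 * 2 by norm_num, mul_nsmul, two_T5, two_T1]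

theorem add_T5 {x y : ℚ} (h : y ^ 2 = x * (x - 16 * (-1)) * (x - 25 * (-1)))
    (hx : x ≠ 20) (hx0 : x ≠ 0) :
    ∃ (x' y' : ℚ) (h' : y' ^ 2 = x' * (x' - 16 * (-1)) * (x' - 25 * (-1))),
    x' = 20 * (9 * x - y) ^ 2 / (x * (x - 20) ^ 2) ∧ pt m1 x y h + T5 = pt m1 x' y' h' := by
  have hx2 : x - 20 ≠ 0 := sub_ne_zero.mpr hx
  have hs : (ED (-1)).toAffine.slope x 20 y 180 = (y - 180) / (x - 20) := by
    rw [Affine.slope_of_X_ne hx]
  have hadd : pt m1 x y h + T5 = Affine.Point.some _ _ (Affine.nonsingular_add (ED_ns m1 h)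
      (ED_ns m1 (x := 20) (y := 180) (by norm_num)) (fun h => hx h.1)) := by
    unfold T5 pt
    rw [Affine.Point.add_some (fun h => hx h.1)]
  have hX : (ED (-1)).toAffine.addX x 20 ((y - 180) / (x - 20)) =
      20 * (9 * x - y) ^ 2 / (x * (x - 20) ^ 2) := by
    simp only [Affine.addX, ED]
    field_simp
    linear_combination (x - 20) * h
  have hns := Affine.nonsingular_add (ED_ns m1 h)
      (ED_ns m1 (x := 20) (y := 180) (by norm_num)) (fun h => hx h.1)
  have he := (ED_eq_iff _ _).mp hns.1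
  refine ⟨_, _, he, ?_, ?_⟩
  · rw [hs, hX]
  · rw [hadd]; rfl

/-- first descent condition for the untwisted curve -/
def CondQ : Prop := ∀ x y : ℚ, y ^ 2 = x * (x - 16 * (-1)) * (x - 25 * (-1)) → x ≠ 0 →
  ∃ u : ℚ, x = u ^ 2 ∨ x = (-1) * u ^ 2 ∨ x = 5 * u ^ 2 ∨ x = -5 * u ^ 2

/-- the finite set of torsion points used for the untwisted curve -/
def S8 : Set (ED (-1)).toAffine.Point :=
  S4 m1 ∪ ((fun T => T - T5) '' S4 m1) ∪ {T5, -T5}

theorem finite_S4 {D : ℚ} (hD : D ≠ 0) : (S4 hD).Finite := by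
  unfold S4; exact Set.toFinite _

theorem finite_EQ (h1 : CondQ) (h2 : Cond2 (-1)) : Finite (ED (-1)).toAffine.Point := by
  have := ED_elliptic m1
  refine finite_of_descent (ED (-1)) rfl rfl S8 ?_ 4 four_ne_zero ?_ ?_
  · exact ((finite_S4 m1).union ((finite_S4 m1).image _)).union (Set.toFinite _)
  · rintro T ((hT | ⟨T, hT, rfl⟩) | (rfl | rfl))
    · rw [show (4 : ℕ) = 2 * 2 by norm_num, mul_nsmul, two_S4 m1 hT, nsmul_zero]
    · have h0 : 4 • T = 0 := by
        rw [show (4 : ℕ) = 2 * 2 by norm_num, mul_nsmul, two_S4 m1 hT, nsmul_zero]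
      simp only [nsmul_sub]
      rw [h0, four_T5, sub_zero]
    · exact four_T5
    · rw [neg_nsmul, four_T5, neg_zero]
  · rintro (_ | ⟨x, y, h⟩)
    · exact ⟨0, Or.inl (Or.inl (by simp [S4])), 0, by simp [← Affine.Point.zero_def]⟩
    · have he := (ED_eq_iff x y).mp h.1
      by_cases hx : x = 0
      · obtain ⟨T, hT, R, hR⟩ := descB m1 h2 he (u := 0) (Or.inl (by rw [hx]; ring))
        exact ⟨T, Or.inl (Or.inl hT), R, hR⟩
      obtain ⟨u, hu⟩ := h1 x y he hx
      have key : (x = u ^ 2 ∨ x = (-1) * u ^ 2) ∨ (x = 5 * u ^ 2 ∨ x = -5 * u ^ 2) := by tauto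
      rcases key with hu | hu
      · obtain ⟨T, hT, R, hR⟩ := descB m1 h2 he hu
        exact ⟨T, Or.inl (Or.inl hT), R, hR⟩
      by_cases h20 : x = 20
      · have hy : y = 180 ∨ y = -180 := by
          rw [h20] at he
          have : (y - 180) * (y + 180) = 0 := by linarith
          rcases mul_eq_zero.mp this with h | h
          · left; linarith
          · right; linarith
        rcases hy with hy | hy
        · refine ⟨T5, Or.inr (Or.inl rfl), 0, ?_⟩
          rw [nsmul_zero, add_zero]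
          exact pt_congr m1 (h := he) (h' := by norm_num) h20 hy
        · refine ⟨-T5, Or.inr (Or.inr rfl), 0, ?_⟩
          rw [nsmul_zero, add_zero]
          unfold T5 pt
          rw [Affine.Point.neg_some]
          simp only [Affine.Point.some.injEq]
          refine ⟨h20, ?_⟩
          simp only [Affine.negY, ED]
          rw [hy]; ring
      · obtain ⟨x', y', h', hx', hP⟩ := add_T5 he h20 hx
        have h20' : x - 20 ≠ 0 := sub_ne_zero.mpr h20
        have hu0 : u ≠ 0 := by
          rintro rfl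
          apply hx
          rcases hu with hu | hu <;> rw [hu] <;> ring
        have hcl : x' = (2 * (9 * x - y) / (u * (x - 20))) ^ 2 ∨
            x' = (-1) * (2 * (9 * x - y) / (u * (x - 20))) ^ 2 := by
          rcases hu with hu | hu
          · left
            rw [hx', div_pow]
            rw [div_eq_div_iff (by positivity) (by positivity)]
            linear_combination (-4 : ℚ) * (9 * x - y) ^ 2 * (x - 20) ^ 2 * hu
          · right
            rw [hx', div_pow, ← mul_div_assoc]
            rw [div_eq_div_iff (by positivity) (by positivity)]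
            linear_combination (4 : ℚ) * (9 * x - y) ^ 2 * (x - 20) ^ 2 * hu
        obtain ⟨T, hT, R, hR⟩ := descB m1 h2 h' hcl
        refine ⟨T - T5, Or.inl (Or.inr ⟨T, hT, rfl⟩), R, ?_⟩
        have : pt m1 x y he = pt m1 x' y' h' - T5 := by rw [← hP]; abel
        change pt m1 x y he = _
        rw [this, hR]; abel

end Vale.Agent.P017.H185
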