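import Vale.Agent.P017.H185.Loc2

namespace Vale.Agent.P017.H185

section
variable {b d M e N : ℤ}

theorem two_prime' : Prime (2 : ℤ) := Int.prime_two

theorem extract2 {C : ℤ} (hb : b % 2 = 1) (h : 4 * C = b * N ^ 2) :
    ∃ n : ℤ, N = 2 * n ∧ C = b * n ^ 2 := by
  have := extract (p := 2) Nat.prime_two (b := b) (N := N) (C := C) (by push_cast; omega)
    (by push_cast; linarith)
  simpa using this

theorem odd_of_cop (hMe : IsCoprime M e) (h : M % 2 = 0) : e % 2 = 1 := by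
  by_contra hcon
  have := cop_ndvd Nat.prime_two hMe (by push_cast; omega : ((2 : ℕ) : ℤ) ∣ e)
  apply this
  push_cast; omega

theorem odd_mul {x y : ℤ} (hx : x % 2 = 1) (hy : y % 2 = 1) : x * y % 2 = 1 := by
  rw [Int.mul_emod, hx, hy]; norm_num

theorem odd_sq {x : ℤ} (hx : x % 2 = 1) : x ^ 2 % 2 = 1 := by rw [sq]; exact odd_mul hx hx

theorem sq_mod8 {x : ℤ} (hx : x % 2 = 1) : ∃ k, x ^ 2 = 8 * k + 1 := by
  obtain ⟨y, hy⟩ : ∃ y, x = 2 * y + 1 := ⟨x / 2, by omega⟩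
  rcases Int.even_or_odd' y with ⟨z, hz | hz⟩
  · exact ⟨z * (2 * z + 1), by rw [hy, hz]; ring⟩
  · exact ⟨(2 * z + 1) * (z + 1), by rw [hy, hz]; ring⟩

/-- two-adic condition, `b` and `d` odd -/
theorem two_adic_odd (hMe : IsCoprime M e) (hbo : b % 2 = 1) (hdo : d % 2 = 1)
    (h : (b * M ^ 2 + d * e ^ 2) * (b * M ^ 2 + 81 * d * e ^ 2) = b * N ^ 2) :
    (d % 4 = 3 → b % 4 = 1) ∧ (d % 4 = 1 → b % 8 = 1 ∨ (b + d) % 8 = 0) := by
  by_cases hM : M % 2 = 0
  · have he := odd_of_cop hMe hM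
    obtain ⟨m, hm⟩ : ∃ m, M = 2 * m := ⟨M / 2, by omega⟩
    have h1 : b % 8 = 1 := by
      apply aux8 (A := b * M ^ 2 + d * e ^ 2) (k := 10 * d * e ^ 2) (n := N)
      · have e1 : b * M ^ 2 = 2 * (2 * b * m ^ 2) := by rw [hm]; ring
        have e2 := odd_mul hdo (odd_sq he)
        omega
      · rw [← h]; ring
    constructor
    · intro _; omega
    · intro _; left; exact h1
  by_cases he : e % 2 = 0
  · obtain ⟨f, hf⟩ : ∃ f, e = 2 * f := ⟨e / 2, by omega⟩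
    have h1 : b % 8 = 1 := by
      apply aux8 (A := b * M ^ 2 + d * e ^ 2) (k := 10 * d * e ^ 2) (n := N)
      · have e1 : d * e ^ 2 = 2 * (2 * d * f ^ 2) := by rw [hf]; ring
        have e2 := odd_mul hbo (odd_sq (show M % 2 = 1 by omega))
        omega
      · rw [← h]; ring
    constructor
    · intro _; omega
    · intro _; left; exact h1
  obtain ⟨k, hk⟩ := sq_mod8 (show M % 2 = 1 by omega)
  obtain ⟨l, hl⟩ := sq_mod8 (show e % 2 = 1 by omega)
  have hA : b * M ^ 2 + d * e ^ 2 = 8 * (b * k + d * l) + (b + d) := by rw [hk, hl]; ring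
  by_cases h2 : (b + d) % 4 = 2
  · obtain ⟨a, ha⟩ : ∃ a, b * M ^ 2 + d * e ^ 2 = 2 * a :=
      ⟨(b * M ^ 2 + d * e ^ 2) / 2, by omega⟩
    have ha1 : a % 2 = 1 := by omega
    have h3 : 4 * (a * (a + 8 * (5 * d * e ^ 2))) = b * N ^ 2 := by
      rw [← h, show b * M ^ 2 + 81 * d * e ^ 2 = (b * M ^ 2 + d * e ^ 2) + 80 * d * e ^ 2 by ring, ha]
      ring
    obtain ⟨n, -, hn⟩ := extract2 hbo h3
    have h1 := aux8 ha1 hn
    constructor
    · intro _; omega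
    · intro _; left; exact h1
  · constructor
    · intro _; omega
    · intro hd1
      by_cases h8 : (b + d) % 8 = 0
      · right; exact h8
      · exfalso
        obtain ⟨a, ha⟩ : ∃ a, b * M ^ 2 + d * e ^ 2 = 4 * a :=
          ⟨(b * M ^ 2 + d * e ^ 2) / 4, by omega⟩
        have ha1 : a % 2 = 1 := by omega
        have h3 : 4 * (4 * (a * (a + 4 * (5 * (d * e ^ 2))))) = b * N ^ 2 := by
          rw [← h, show b * M ^ 2 + 81 * d * e ^ 2 = (b * M ^ 2 + d * e ^ 2) + 80 * d * e ^ 2 by ring, ha]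
          ring
        obtain ⟨n, -, hn⟩ := extract2 hbo h3
        obtain ⟨n, -, hn⟩ := extract2 hbo hn
        have h5 : (5 * (d * e ^ 2)) % 2 = 1 :=
          odd_mul (by norm_num) (odd_mul hdo (odd_sq (show e % 2 = 1 by omega)))
        have h1 := aux8' ha1 h5 hn
        omega

/-- two-adic condition, `d` even, `b` odd -/
theorem two_adic_even {δ : ℤ} (hMe : IsCoprime M e) (hbo : b % 2 = 1) (hδ : δ % 2 = 1)
    (hd : d = 2 * δ)
    (h : (b * M ^ 2 + d * e ^ 2) * (b * M ^ 2 + 81 * d * e ^ 2) = b * N ^ 2) : b % 8 = 1 := by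
  by_cases hM : M % 2 = 0
  · have he := odd_of_cop hMe hM
    obtain ⟨m, hm⟩ : ∃ m, M = 2 * m := ⟨M / 2, by omega⟩
    have h3 : 4 * ((2 * b * m ^ 2 + δ * e ^ 2) * ((2 * b * m ^ 2 + δ * e ^ 2) + 8 * (10 * δ * e ^ 2))) =
        b * N ^ 2 := by
      rw [← h, hm, hd]; ring
    obtain ⟨n, -, hn⟩ := extract2 hbo h3
    apply aux8 _ hn
    have e1 : 2 * b * m ^ 2 = 2 * (b * m ^ 2) := by ring
    have e2 := odd_mul hδ (odd_sq he)
    omega
  · apply aux8 (A := b * M ^ 2 + d * e ^ 2) (k := 10 * d * e ^ 2) (n := N)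
    · have e1 : d * e ^ 2 = 2 * (δ * e ^ 2) := by rw [hd]; ring
      have e2 := odd_mul hbo (odd_sq (show M % 2 = 1 by omega))
      omega
    · rw [← h]; ring

/-- two-adic condition, `d` even, `b` even -/
theorem two_adic_even' {δ β : ℤ} (hMe : IsCoprime M e) (hβ : β % 2 = 1) (hδ : δ % 2 = 1)
    (hd : d = 2 * δ) (hb : b = 2 * β)
    (h : (b * M ^ 2 + d * e ^ 2) * (b * M ^ 2 + 81 * d * e ^ 2) = b * N ^ 2) : (β + δ) % 8 = 0 := by
  have h1 : 2 * ((β * M ^ 2 + δ * e ^ 2) * (β * M ^ 2 + 81 * δ * e ^ 2)) = β * N ^ 2 := by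
    apply mul_left_cancel₀ (show (2 : ℤ) ≠ 0 by norm_num)
    rw [hd, hb] at h; linear_combination h
  have hpar : ∀ {x y C n : ℤ}, x % 2 = 1 → y % 2 = 1 → 2 * (C) = β * n ^ 2 → ∃ n', n = 2 * n' ∧
      C = 2 * (β * n' ^ 2) := by
    intro x y C n _ _ hC
    have hn : n % 2 = 0 := by
      by_contra hcon
      have := odd_mul hβ (odd_sq (show n % 2 = 1 by omega))
      omega
    obtain ⟨n', hn'⟩ : ∃ n', n = 2 * n' := ⟨n / 2, by omega⟩
    refine ⟨n', hn', ?_⟩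
    rw [hn'] at hC
    linarith
  obtain ⟨n, -, hn⟩ := hpar (x := 1) (y := 1) rfl rfl h1
  obtain ⟨a, ha⟩ : ∃ a, a = β * M ^ 2 + δ * e ^ 2 := ⟨_, rfl⟩
  have hn' : a * (a + 16 * (5 * (δ * e ^ 2))) = 2 * (β * n ^ 2) := by
    rw [← hn, ha]; ring
  -- parity of M, e
  by_cases hM : M % 2 = 0
  · exfalso
    have he := odd_of_cop hMe hM
    obtain ⟨m, hm⟩ : ∃ m, M = 2 * m := ⟨M / 2, by omega⟩
    have ha1 : a % 2 = 1 := by
      rw [ha]
      have e1 : β * M ^ 2 = 2 * (2 * β * m ^ 2) := by rw [hm]; ring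
      have e2 := odd_mul hδ (odd_sq he)
      omega
    have := odd_mul ha1 (show (a + 16 * (5 * (δ * e ^ 2))) % 2 = 1 by omega)
    omega
  by_cases he : e % 2 = 0
  · exfalso
    obtain ⟨f, hf⟩ : ∃ f, e = 2 * f := ⟨e / 2, by omega⟩
    have ha1 : a % 2 = 1 := by
      rw [ha]
      have e1 : δ * e ^ 2 = 2 * (2 * δ * f ^ 2) := by rw [hf]; ring
      have e2 := odd_mul hβ (odd_sq (show M % 2 = 1 by omega))
      omega
    have := odd_mul ha1 (show (a + 16 * (5 * (δ * e ^ 2))) % 2 = 1 by omega)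
    omega
  obtain ⟨k, hk⟩ := sq_mod8 (show M % 2 = 1 by omega)
  obtain ⟨l, hl⟩ := sq_mod8 (show e % 2 = 1 by omega)
  have hA : a = 8 * (β * k + δ * l) + (β + δ) := by rw [ha, hk, hl]; ring
  have ha2 : a % 2 = 0 := by omega
  obtain ⟨a1, ha1⟩ : ∃ a1, a = 2 * a1 := ⟨a / 2, by omega⟩
  have h2 : 2 * (a1 * (a1 + 8 * (5 * (δ * e ^ 2)))) = β * n ^ 2 := by
    rw [ha1] at hn'; linarith
  obtain ⟨n1, -, hn1⟩ := hpar (x := 1) (y := 1) rfl rfl h2
  have ha12 : a1 % 2 = 0 := by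
    by_contra hcon
    have := odd_mul (show a1 % 2 = 1 by omega) (show (a1 + 8 * (5 * (δ * e ^ 2))) % 2 = 1 by omega)
    omega
  obtain ⟨a2, ha2⟩ : ∃ a2, a1 = 2 * a2 := ⟨a1 / 2, by omega⟩
  have h3 : 2 * (a2 * (a2 + 4 * (5 * (δ * e ^ 2)))) = β * n1 ^ 2 := by
    rw [ha2] at hn1; linarith
  obtain ⟨n2, -, hn2⟩ := hpar (x := 1) (y := 1) rfl rfl h3
  have ha22 : a2 % 2 = 0 := by
    by_contra hcon
    have := odd_mul (show a2 % 2 = 1 by omega) (show (a2 + 4 * (5 * (δ * e ^ 2))) % 2 = 1 by omega)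
    omega
  omega

/-- first descent, two-adic analysis -/
theorem two_adic_first (hb : Squarefree b) (hMe : IsCoprime M e) (hd : d % 4 = 3)
    (h : (b * M ^ 2 + (-16 * d) * e ^ 2) * (b * M ^ 2 + (-25 * d) * e ^ 2) = b * N ^ 2) :
    ¬ (2 : ℤ) ∣ b := by
  rintro ⟨β, hβ⟩
  have hβ' := not_dvd_of_sqf Nat.prime_two hb (by push_cast; exact hβ)
  have hβo : β % 2 = 1 := by push_cast at hβ'; omega
  have h1 : (β * M ^ 2 - 8 * d * e ^ 2) * (2 * β * M ^ 2 - 25 * d * e ^ 2) = β * N ^ 2 := by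
    apply mul_left_cancel₀ (show (2 : ℤ) ≠ 0 by norm_num)
    rw [hβ] at h; linear_combination h
  have hz : ∀ {x : ℤ}, x % 2 = 1 → (x : ZMod 8) ^ 2 = 1 := by
    intro x hx
    obtain ⟨k, hk⟩ := sq_mod8 hx
    have := congrArg (Int.cast : ℤ → ZMod 8) hk
    push_cast at this
    rw [this, show (8 : ZMod 8) = 0 by decide]; ring
  have hβz : (β : ZMod 8) = 1 ∨ (β : ZMod 8) = 3 ∨ (β : ZMod 8) = 5 ∨ (β : ZMod 8) = 7 := by
    have : β % 8 = 1 ∨ β % 8 = 3 ∨ β % 8 = 5 ∨ β % 8 = 7 := by omega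
    rcases this with h | h | h | h
    · left; exact (ZMod.intCast_eq_intCast_iff_dvd_sub β 1 8).mpr (by push_cast; omega)
    · right; left; exact_mod_cast (ZMod.intCast_eq_intCast_iff_dvd_sub β 3 8).mpr (by push_cast; omega)
    · right; right; left; exact_mod_cast (ZMod.intCast_eq_intCast_iff_dvd_sub β 5 8).mpr (by push_cast; omega)
    · right; right; right; exact_mod_cast (ZMod.intCast_eq_intCast_iff_dvd_sub β 7 8).mpr (by push_cast; omega)
  have hdz : (d : ZMod 8) = 3 ∨ (d : ZMod 8) = 7 := by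
    have : d % 8 = 3 ∨ d % 8 = 7 := by omega
    rcases this with h | h
    · left; exact_mod_cast (ZMod.intCast_eq_intCast_iff_dvd_sub d 3 8).mpr (by push_cast; omega)
    · right; exact_mod_cast (ZMod.intCast_eq_intCast_iff_dvd_sub d 7 8).mpr (by push_cast; omega)
  have key1 : ∀ β d N : ZMod 8, (β = 1 ∨ β = 3 ∨ β = 5 ∨ β = 7) → (d = 3 ∨ d = 7) →
      β * (2 * β - 25 * d) = β * N ^ 2 → False := by decide
  have key2 : ∀ β d N : ZMod 8, (β = 1 ∨ β = 3 ∨ β = 5 ∨ β = 7) → (d = 3 ∨ d = 7) →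
      (β - 2 * d) * (- 25 * d) = β * N ^ 2 → False := by decide
  by_cases he : e % 2 = 0
  · have hMo : M % 2 = 1 := odd_of_cop hMe.symm he
    obtain ⟨f, hf⟩ : ∃ f, e = 2 * f := ⟨e / 2, by omega⟩
    have hC : ¬ ((2 : ℕ) : ℤ) ∣ (β * M ^ 2 + 2 * (-16 * d * f ^ 2)) * (β * M ^ 2 + 2 * (-25 * d * f ^ 2)) := by
      have e2 := odd_mul hβo (odd_sq hMo)
      have := odd_mul (show (β * M ^ 2 + 2 * (-16 * d * f ^ 2)) % 2 = 1 by omega)
        (show (β * M ^ 2 + 2 * (-25 * d * f ^ 2)) % 2 = 1 by omega)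
      push_cast; omega
    have := parity Nat.prime_two (i := 1) (j := 0) (N := N) hC hβ' (by
      rw [hf] at h1; push_cast; linear_combination h1)
    omega
  · have heo : e % 2 = 1 := by omega
    by_cases hM : M % 2 = 0
    · obtain ⟨m, hm⟩ : ∃ m, M = 2 * m := ⟨M / 2, by omega⟩
      by_cases hm2 : m % 2 = 0
      · obtain ⟨m', hm'⟩ : ∃ m', m = 2 * m' := ⟨m / 2, by omega⟩
        have hC : ¬ ((2 : ℕ) : ℤ) ∣ (2 * (β * m' ^ 2) + (-1) * (d * e ^ 2)) *
            (2 * (16 * β * m' ^ 2) + (-25) * (d * e ^ 2)) := by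
          have e2 := odd_mul (show d % 2 = 1 by omega) (odd_sq heo)
          have := odd_mul (show (2 * (β * m' ^ 2) + (-1) * (d * e ^ 2)) % 2 = 1 by omega)
            (show (2 * (16 * β * m' ^ 2) + (-25) * (d * e ^ 2)) % 2 = 1 by omega)
          push_cast; omega
        have := parity Nat.prime_two (i := 3) (j := 0) (N := N) hC hβ' (by
          rw [hm, hm'] at h1; push_cast; linear_combination h1)
        omega
      · have h2 : 4 * ((β * m ^ 2 - 2 * d * e ^ 2) * (8 * β * m ^ 2 - 25 * d * e ^ 2)) = β * N ^ 2 := by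
          rw [hm] at h1; linear_combination h1
        obtain ⟨n, -, hn⟩ := extract2 hβo h2
        have h3 := congrArg (Int.cast : ℤ → ZMod 8) hn
        push_cast at h3
        rw [show (β : ZMod 8) * m ^ 2 - 2 * d * e ^ 2 = β * (m ^ 2) - 2 * d * (e ^ 2) by ring,
          show (8 : ZMod 8) * β * m ^ 2 - 25 * d * e ^ 2 = 8 * (β * m ^ 2) - 25 * d * (e ^ 2) by ring,
          hz heo, hz (show m % 2 = 1 by omega), show (8 : ZMod 8) = 0 by decide] at h3
        exact key2 β d n hβz hdz (by rw [← h3]; ring)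
    · have h3 := congrArg (Int.cast : ℤ → ZMod 8) h1
      push_cast at h3
      rw [show (β : ZMod 8) * M ^ 2 - 8 * d * e ^ 2 = β * (M ^ 2) - 8 * (d * e ^ 2) by ring,
        show (2 : ZMod 8) * β * M ^ 2 - 25 * d * e ^ 2 = 2 * β * (M ^ 2) - 25 * d * (e ^ 2) by ring,
        hz heo, hz (show M % 2 = 1 by omega), show (8 : ZMod 8) = 0 by decide] at h3
      exact key1 β d N hβz hdz (by rw [← h3]; ring)

/-- first descent at five -/
theorem five_adic_first (hb : Squarefree b) (hMe : IsCoprime M e)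
    (h5d : ¬ ((5 : ℕ) : ℤ) ∣ d)
    (h : (b * M ^ 2 + (-16 * d) * e ^ 2) * (b * M ^ 2 + (-25 * d) * e ^ 2) = b * N ^ 2)
    (h5b : ((5 : ℕ) : ℤ) ∣ b) : IsSquare (-(d : ZMod 5)) := by
  have hp := Nat.prime_five
  obtain ⟨β, hβ⟩ := h5b
  have hβ' := not_dvd_of_sqf hp hb hβ
  by_cases he : ((5 : ℕ) : ℤ) ∣ e
  · exfalso
    have hM := cop_ndvd hp hMe he
    obtain ⟨f, hf⟩ := he
    have hC : ¬ ((5 : ℕ) : ℤ) ∣ (β * M ^ 2 + 5 * (-16 * d * f ^ 2)) * (β * M ^ 2 + 5 * (-25 * d * f ^ 2)) := by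
      apply ndvd_mul hp
      · exact ndvd_add_l (ndvd_mul hp hβ' (ndvd_sq hp hM)) ⟨_, by push_cast; rfl⟩
      · exact ndvd_add_l (ndvd_mul hp hβ' (ndvd_sq hp hM)) ⟨_, by push_cast; rfl⟩
    have := parity hp (i := 2) (j := 1) (N := N) hC hβ' (by
      rw [hβ, hf] at h; push_cast at h ⊢; linear_combination h)
    omega
  · by_cases hM : ((5 : ℕ) : ℤ) ∣ M
    · exfalso
      obtain ⟨m, hm⟩ := hM
      have h16 : ¬ ((5 : ℕ) : ℤ) ∣ (-16 : ℤ) := by norm_num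
      have hm1 : ¬ ((5 : ℕ) : ℤ) ∣ (-1 : ℤ) := by norm_num
      have hC : ¬ ((5 : ℕ) : ℤ) ∣ (5 * (25 * β * m ^ 2) + (-16) * (d * e ^ 2)) *
          (5 * (β * m ^ 2) + (-1) * (d * e ^ 2)) := by
        apply ndvd_mul hp
        · exact ndvd_add_r (ndvd_mul hp h16 (ndvd_mul hp h5d (ndvd_sq hp he))) ⟨_, by push_cast; rfl⟩
        · exact ndvd_add_r (ndvd_mul hp hm1 (ndvd_mul hp h5d (ndvd_sq hp he))) ⟨_, by push_cast; rfl⟩
      have := parity hp (i := 2) (j := 1) (N := N) hC hβ' (by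
        rw [hβ, hm] at h; push_cast at h ⊢; linear_combination h)
      omega
    · have h9 : (5 * β * M ^ 2 - 16 * d * e ^ 2) * (β * M ^ 2 - 5 * d * e ^ 2) = β * N ^ 2 := by
        apply mul_left_cancel₀ (show (5 : ℤ) ≠ 0 by norm_num)
        rw [hβ] at h; push_cast at h ⊢; linear_combination h
      have h8 := congrArg (Int.cast : ℤ → ZMod 5) h9
      push_cast at h8
      have h5 : (5 : ZMod 5) = 0 := by decide
      have h16 : (16 : ZMod 5) = 1 := by decide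
      have hf5 : Fact (Nat.Prime 5) := ⟨hp⟩
      have hβ0 : (β : ZMod 5) ≠ 0 := ne_iff.mpr hβ'
      have hM0 : (M : ZMod 5) ≠ 0 := ne_iff.mpr hM
      have he0 : (e : ZMod 5) ≠ 0 := ne_iff.mpr he
      have h7 : (β : ZMod 5) * (-(d * e ^ 2 * M ^ 2)) = β * N ^ 2 := by
        rw [← h8, h5, h16]; ring
      have h6 := mul_left_cancel₀ hβ0 h7
      refine ⟨N / (e * M), ?_⟩
      field_simp
      linear_combination h6

end

end Vale.Agent.P017.H185
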