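import Vale.Agent.P017.H185.Jac2
import Vale.Agent.P017.H185.Cl2
import Vale.Agent.P017.H185.Loc3
import Vale.Agent.P017.H185.DescQ

namespace Vale.Agent.P017.H185

open NumberField

section Q

theorem cond2Q : Cond2 (-1) := by
  intro X Y h hX
  obtain ⟨b, M, e, hb, hMe, hM, he, hXb⟩ := exists_sqf hX
  obtain ⟨N, hN⟩ := exists_int_eq (Y := Y) (α := -1) (β := 81 * (-1)) hb hM he hXb
    (by push_cast; rw [h]; ring)
  have hprime : ∀ p : ℕ, p.Prime → ¬ (p : ℤ) ∣ b := by
    intro p hp hpb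
    have h1 : ¬ (p : ℤ) ∣ (-1 : ℤ) := by
      rw [Int.dvd_neg]
      intro h1
      have : p ∣ 1 := by exact_mod_cast h1
      exact hp.one_lt.ne' (Nat.dvd_one.mp this)
    by_cases h2 : (p : ℤ) ∣ (81 * (-1) : ℤ)
    · have hp3 : p = 3 := by
        have h3 : p ∣ 3 ^ 4 := by
          rw [mul_neg_one, Int.dvd_neg] at h2
          exact_mod_cast h2
        exact (Nat.prime_dvd_prime_iff_eq hp Nat.prime_three).mp (hp.dvd_of_dvd_pow h3)
      subst hp3
      have := three_dvd (d := -1) hb hMe hN hpb h1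
      exact absurd this (by decide)
    · exact prime_dvd_gen hp hb hMe hN hpb h1 h2
  have hb1 : b.natAbs = 1 := by
    by_contra hcon
    obtain ⟨p, hp, hpb⟩ := Nat.exists_prime_and_dvd hcon
    exact hprime p hp (Int.natCast_dvd.mpr hpb)
  have hMe0 : (M / e : ℚ) ^ 2 > 0 := by
    have : (M / e : ℚ) ≠ 0 := div_ne_zero (by exact_mod_cast hM) (by exact_mod_cast he)
    positivity
  rcases Int.natAbs_eq b with hb2 | hb2
  · rw [hb1] at hb2
    refine ⟨M / e, Or.inl ?_⟩
    rw [hXb, hb2]; push_cast; ring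
  · exfalso
    rw [hb1] at hb2
    have hX0 : X < 0 := by rw [hXb, hb2]; push_cast; linarith
    have h3 : Y ^ 2 = X * ((X - 1) * (X - 81)) := by rw [h]; ring
    have h4 : 0 < (X - 1) * (X - 81) := by nlinarith
    nlinarith [sq_nonneg Y]

theorem condQ : CondQ := by
  intro x y h hx
  obtain ⟨b, M, e, hb, hMe, hM, he, hXb⟩ := exists_sqf hx
  obtain ⟨N, hN⟩ := exists_int_eq (α := -16 * (-1)) (β := -25 * (-1)) hb hM he hXb
    (by push_cast; rw [h]; ring)
  have h2 : ¬ (2 : ℤ) ∣ b := two_adic_first hb hMe (by norm_num) hN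
  have hprime : ∀ p : ℕ, p.Prime → (p : ℤ) ∣ b → p = 5 := by
    intro p hp hpb
    by_contra hp5
    have hp2 : p ≠ 2 := by
      rintro rfl; exact h2 (by exact_mod_cast hpb)
    apply prime_dvd_gen hp hb hMe hN hpb
    · intro h1
      have h3 : p ∣ 2 ^ 4 := by
        rw [show (-16 * (-1) : ℤ) = ((2 ^ 4 : ℕ) : ℤ) by norm_num] at h1
        exact_mod_cast h1
      exact hp2 ((Nat.prime_dvd_prime_iff_eq hp Nat.prime_two).mp (hp.dvd_of_dvd_pow h3))
    · intro h1
      have h3 : p ∣ 5 ^ 2 := by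
        rw [show (-25 * (-1) : ℤ) = ((5 ^ 2 : ℕ) : ℤ) by norm_num] at h1
        exact_mod_cast h1
      exact hp5 ((Nat.prime_dvd_prime_iff_eq hp Nat.prime_five).mp (hp.dvd_of_dvd_pow h3))
  have hb1 : b.natAbs = 1 ∨ b.natAbs = 5 := by
    have hdvd : b.natAbs ∣ 5 := by
      have hsq : Squarefree b.natAbs := Int.squarefree_natAbs.mpr hb
      rw [← Nat.prod_primeFactors_of_squarefree hsq]
      apply Finset.prod_primes_dvd
      · intro p hp; exact (Nat.prime_of_mem_primeFactors hp).prime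
      · intro p hp
        rw [hprime p (Nat.prime_of_mem_primeFactors hp)
          (Int.natCast_dvd.mpr (Nat.dvd_of_mem_primeFactors hp))]
    exact (Nat.dvd_prime Nat.prime_five).mp hdvd
  have hb2 : b = 1 ∨ b = -1 ∨ b = 5 ∨ b = -5 := by omega
  refine ⟨M / e, ?_⟩
  rcases hb2 with hb2 | hb2 | hb2 | hb2 <;> rw [hXb, hb2] <;> push_cast
  · left; ring
  · right; left; ring
  · right; right; left; ring
  · right; right; right; ring

theorem finite_EQ' : Finite (ED (-1)).toAffine.Point := finite_EQ condQ cond2Q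

end Q

namespace QF

variable {K : Type*} [Field K] [NumberField K] {d : ℕ} (q : QF K d)

include q in
/-- **Second consequence** of the absence of elements of order four: genus characters which are
locally trivial at the ramified primes are trivial. -/
theorem second_trivial (hcl : ∀ c : ClassGroup (𝓞 K), orderOf c ≠ 4) {b b' : ℤ}
    (hbb : b * b' = -(d : ℤ)) (hb4 : b % 4 = 1) (hb8 : Ram d 2 → b % 8 = 1)
    (loc1 : ∀ p : ℕ, p.Prime → p ≠ 2 → (p : ℤ) ∣ b → IsSquare (b' : ZMod p))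
    (loc2 : ∀ p : ℕ, p.Prime → p ≠ 2 → (p : ℤ) ∣ b' → IsSquare (b : ZMod p)) :
    b = 1 ∨ b' = 1 := by
  by_contra hcon
  push Not at hcon
  have hdsq : Squarefree (-(d : ℤ)) := by
    exact Int.squarefree_natAbs.mp (by rw [Int.natAbs_neg, Int.natAbs_natCast]; exact q.hd)
  have hb : Squarefree b := hdsq.squarefree_of_dvd ⟨b', hbb.symm⟩
  have hb' : Squarefree b' := hdsq.squarefree_of_dvd ⟨b, by rw [← hbb]; ring⟩
  obtain ⟨l, hld, hlp, hlo, hJ1, hJ2⟩ := exists_prime_neg_neg hb hcon.1 hb' hcon.2 d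
  have hdpos := q.d_pos
  have hld' : ¬ l ∣ d := fun h => absurd (Nat.le_of_dvd hdpos h) (by omega)
  have hldZ : ¬ (l : ℤ) ∣ -(d : ℤ) := by
    rw [Int.dvd_neg, Int.natCast_dvd_natCast]; exact hld'
  have hlf := Fact.mk hlp
  have hsq : IsSquare ((-(d : ℤ) : ℤ) : ZMod l) := by
    have h1 : jacobiSym (-(d : ℤ)) l = 1 := by
      rw [← hbb, jacobiSym.mul_left, hJ1, hJ2]; norm_num
    rw [← jacobiSym.legendreSym.to_jacobiSym] at h1
    exact (legendreSym.eq_one_iff l (by rw [Ne, ZMod.intCast_zmod_eq_zero_iff_dvd]; exact hldZ)).mp h1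
  obtain ⟨r, hr⟩ := hsq
  obtain ⟨c, hc⟩ : ∃ c : ℤ, (c : ZMod l) = r := ⟨r.val, by simp⟩
  have hlc : (l : ℤ) ∣ c ^ 2 + d := by
    rw [← ZMod.intCast_zmod_eq_zero_iff_dvd]
    push_cast at hr ⊢
    rw [hc]
    linear_combination -hr
  have hl2 : ¬ (l : ℤ) ∣ 2 * c := by
    intro h
    rcases (Nat.prime_iff_prime_int.mp hlp).dvd_or_dvd h with h | h
    · have h2 : l ∣ 2 := by exact_mod_cast h
      have := (Nat.prime_dvd_prime_iff_eq hlp Nat.prime_two).mp h2
      rw [this] at hlo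
      exact absurd hlo (by decide)
    · apply hld'
      have : (l : ℤ) ∣ (d : ℤ) := (dvd_add_right (Dvd.dvd.pow h two_ne_zero)).mp hlc
      exact_mod_cast this
  have hcop : IsCoprime (2 * c) (l : ℤ) := by
    rw [isCoprime_comm]
    exact (Irreducible.coprime_iff_not_dvd (Nat.prime_iff_prime_int.mp hlp).irreducible).mpr hl2
  have hL := q.hasN_split hlc hcop
  obtain ⟨a, ha, hram, w, hw, hwn⟩ := q.exists_amb_norm hcl hlp.ne_zero hL
  -- clear denominators
  obtain ⟨u, hu⟩ : ∃ u, u = q.re w := ⟨_, rfl⟩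
  obtain ⟨v, hv⟩ : ∃ v, v = q.im w := ⟨_, rfl⟩
  have h1 : (l : ℚ) * a = u ^ 2 + d * v ^ 2 := by rw [hwn, hu, hv]; rfl
  have hud : (u.den : ℚ) ≠ 0 := by exact_mod_cast u.den_ne_zero
  have hvd : (v.den : ℚ) ≠ 0 := by exact_mod_cast v.den_ne_zero
  have h2 : (((u.num * v.den) ^ 2 + d * (v.num * u.den) ^ 2 : ℤ) : ℚ) =
      (((l * a : ℕ) : ℤ) * (u.den * v.den : ℤ) ^ 2 : ℤ) := by
    have e1 : u = u.num / u.den := (Rat.num_div_den u).symm
    have e2 : v = v.num / v.den := (Rat.num_div_den v).symm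
    push_cast
    rw [h1]
    conv_rhs => rw [e1, e2]
    field_simp
    simp only [Rat.num_div_den]
    ring
  have h3 : (u.num * v.den) ^ 2 + d * (v.num * u.den) ^ 2 =
      ((l * a : ℕ) : ℤ) * (u.den * v.den : ℤ) ^ 2 := by exact_mod_cast h2
  have hW : (u.den * v.den : ℤ) ≠ 0 := by
    exact_mod_cast mul_ne_zero u.den_ne_zero v.den_ne_zero
  have hfin := jac_main q.hd hbb hb4 ha hram (fun h2a => hb8 (hram 2 Nat.prime_two h2a)) hlo hlp hld'
    loc1 loc2 hW h3
  rw [hfin] at hJ1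
  norm_num at hJ1

end QF

end Vale.Agent.P017.H185
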