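import Vale.Agent.P017.H185.Fin

namespace Vale.Agent.P017.H185

open WeierstrassCurve

/-- the curve `y² = x (x - 16 D) (x - 25 D)` -/
def ED (D : ℚ) : WeierstrassCurve ℚ := ⟨0, -41 * D, 0, 400 * D ^ 2, 0⟩

theorem ED_elliptic {D : ℚ} (hD : D ≠ 0) : (ED D).IsElliptic := by
  constructor
  have : (ED D).Δ = 16 * 160000 * 81 * D ^ 6 := by
    simp [Δ, b₂, b₄, b₆, b₈, ED]; ring
  rw [this]
  exact isUnit_iff_ne_zero.mpr (by positivity)

variable {D : ℚ}

theorem ED_eq_iff (x y : ℚ) : (ED D).toAffine.Equation x y ↔ y ^ 2 = x * (x - 16 * D) * (x - 25 * D) := by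
  rw [Affine.equation_iff]
  simp only [ED]
  constructor <;> intro h <;> linear_combination h

theorem ED_ns (hD : D ≠ 0) {x y : ℚ} (h : y ^ 2 = x * (x - 16 * D) * (x - 25 * D)) :
    (ED D).toAffine.Nonsingular x y := by
  have := ED_elliptic hD
  exact Affine.equation_iff_nonsingular.mp ((ED_eq_iff x y).mpr h)

/-- the point `(x, y)` -/
def pt (hD : D ≠ 0) (x y : ℚ) (h : y ^ 2 = x * (x - 16 * D) * (x - 25 * D)) :
    (ED D).toAffine.Point := Affine.Point.some x y (ED_ns hD h)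

theorem pt_congr (hD : D ≠ 0) {x y x' y' : ℚ} {h : y ^ 2 = x * (x - 16 * D) * (x - 25 * D)}
    {h' : y' ^ 2 = x' * (x' - 16 * D) * (x' - 25 * D)} (hx : x = x') (hy : y = y') :
    pt hD x y h = pt hD x' y' h' := by
  subst hx; subst hy; rfl

/-- halving -/
theorem halve (hD : D ≠ 0) {x y u v w : ℚ} (h : y ^ 2 = x * (x - 16 * D) * (x - 25 * D))
    (hu : x = u ^ 2) (hv : x - 16 * D = v ^ 2) (hw : x - 25 * D = w ^ 2) (hy : y = u * v * w) :
    ∃ R : (ED D).toAffine.Point, pt hD x y h = 2 • R := by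
  have huv : u ^ 2 - v ^ 2 = 16 * D := by rw [← hu, ← hv]; ring
  have huw : u ^ 2 - w ^ 2 = 25 * D := by rw [← hu, ← hw]; ring
  have hvw : v ^ 2 - w ^ 2 = 9 * D := by rw [← hv, ← hw]; ring
  have n1 : u + v ≠ 0 := by
    intro h0; apply hD
    have : (u + v) * (u - v) = 16 * D := by rw [← huv]; ring
    rw [h0] at this; linarith
  have n2 : u + w ≠ 0 := by
    intro h0; apply hD
    have : (u + w) * (u - w) = 25 * D := by rw [← huw]; ring
    rw [h0] at this; linarith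
  have n3 : v + w ≠ 0 := by
    intro h0; apply hD
    have : (v + w) * (v - w) = 9 * D := by rw [← hvw]; ring
    rw [h0] at this; linarith
  have hDv : D = (u ^ 2 - v ^ 2) / 16 := by rw [huv]; ring
  have hwv : w ^ 2 = u ^ 2 - 25 * ((u ^ 2 - v ^ 2) / 16) := by linarith
  have hR : ((u + v) * (u + w) * (v + w)) ^ 2 = (u ^ 2 + u * v + u * w + v * w) *
      ((u ^ 2 + u * v + u * w + v * w) - 16 * D) * ((u ^ 2 + u * v + u * w + v * w) - 25 * D) := by
    rw [show u ^ 2 + u * v + u * w + v * w - 16 * D = (v + u) * (v + w) by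
      rw [← huv]; ring, show u ^ 2 + u * v + u * w + v * w - 25 * D = (w + u) * (w + v) by
      rw [← huw]; ring]
    ring
  refine ⟨pt hD (u ^ 2 + u * v + u * w + v * w) ((u + v) * (u + w) * (v + w)) hR, ?_⟩
  have hy0 : (u + v) * (u + w) * (v + w) ≠ 0 := by positivity
  have hne : (u + v) * (u + w) * (v + w) ≠
      (ED D).toAffine.negY (u ^ 2 + u * v + u * w + v * w) ((u + v) * (u + w) * (v + w)) := by
    simp only [Affine.negY, ED]
    intro h2
    apply hy0
    linarith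
  have hs : (ED D).toAffine.slope (u ^ 2 + u * v + u * w + v * w) (u ^ 2 + u * v + u * w + v * w)
      ((u + v) * (u + w) * (v + w)) ((u + v) * (u + w) * (v + w)) = u + v + w := by
    rw [Affine.slope_of_Y_ne rfl hne]
    simp only [Affine.negY, ED]
    rw [div_eq_iff (by intro h2; apply hy0; linarith)]
    have e1 : D = (u ^ 2 - v ^ 2) / 16 := hDv
    have e2 : D = (u ^ 2 - w ^ 2) / 25 := by rw [huw]; ring
    have key : 400 * D ^ 2 = (u ^ 2 - v ^ 2) * (u ^ 2 - w ^ 2) := by rw [huv, huw]; ring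
    have key2 : 41 * D = (u ^ 2 - v ^ 2) + (u ^ 2 - w ^ 2) := by rw [huv, huw]; ring
    linear_combination key - 2 * (u ^ 2 + u * v + u * w + v * w) * key2
  rw [two_nsmul]
  unfold pt
  rw [Affine.Point.add_some (fun h => hne h.2)]
  simp only [Affine.Point.some.injEq]
  rw [hs]
  have key2 : 41 * D = (u ^ 2 - v ^ 2) + (u ^ 2 - w ^ 2) := by rw [huv, huw]; ring
  have hX : (ED D).toAffine.addX (u ^ 2 + u * v + u * w + v * w) (u ^ 2 + u * v + u * w + v * w)
      (u + v + w) = u ^ 2 := by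
    simp only [Affine.addX, ED]
    linear_combination key2
  refine ⟨by rw [hX, hu], ?_⟩
  simp only [Affine.addY, Affine.negAddY, Affine.negY, hX]
  simp only [ED]
  rw [hy]
  ring

/-- the point `(0,0)` -/
def T1 (hD : D ≠ 0) : (ED D).toAffine.Point := pt hD 0 0 (by ring)

/-- the point `(25 D,0)` -/
def T3 (hD : D ≠ 0) : (ED D).toAffine.Point := pt hD (25 * D) 0 (by ring)

theorem two_T1 (hD : D ≠ 0) : 2 • T1 hD = 0 := by
  rw [two_nsmul]
  apply Affine.Point.add_of_Y_eq rfl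
  simp [Affine.negY, ED]

theorem two_T3 (hD : D ≠ 0) : 2 • T3 hD = 0 := by
  rw [two_nsmul]
  apply Affine.Point.add_of_Y_eq rfl
  simp [Affine.negY, ED]

theorem add_T1 (hD : D ≠ 0) {x y : ℚ} (h : y ^ 2 = x * (x - 16 * D) * (x - 25 * D)) (hx : x ≠ 0) :
    ∃ h' : (-(400 * D ^ 2 * y / x ^ 2)) ^ 2 = (400 * D ^ 2 / x) * (400 * D ^ 2 / x - 16 * D) *
      (400 * D ^ 2 / x - 25 * D),
    pt hD x y h + T1 hD = pt hD (400 * D ^ 2 / x) (-(400 * D ^ 2 * y / x ^ 2)) h' := by
  have h' : (-(400 * D ^ 2 * y / x ^ 2)) ^ 2 = (400 * D ^ 2 / x) * (400 * D ^ 2 / x - 16 * D) *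
      (400 * D ^ 2 / x - 25 * D) := by
    field_simp
    rw [h]
    ring
  refine ⟨h', ?_⟩
  unfold T1 pt
  rw [Affine.Point.add_some (fun h => hx h.1)]
  simp only [Affine.Point.some.injEq]
  have hs : (ED D).toAffine.slope x 0 y 0 = y / x := by
    rw [Affine.slope_of_X_ne hx]; simp
  rw [hs]
  have hX : (ED D).toAffine.addX x 0 (y / x) = 400 * D ^ 2 / x := by
    simp only [Affine.addX, ED]
    field_simp
    linear_combination h
  refine ⟨hX, ?_⟩
  simp only [Affine.addY, Affine.negAddY, Affine.negY, hX]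
  simp only [ED]
  field_simp
  ring

theorem add_T3 (hD : D ≠ 0) {x y : ℚ} (h : y ^ 2 = x * (x - 16 * D) * (x - 25 * D))
    (hx : x ≠ 25 * D) :
    ∃ (x' y' : ℚ) (h' : y' ^ 2 = x' * (x' - 16 * D) * (x' - 25 * D)),
    x' = 25 * D * (x - 16 * D) / (x - 25 * D) ∧ pt hD x y h + T3 hD = pt hD x' y' h' := by
  have hx0 : x - 25 * D ≠ 0 := sub_ne_zero.mpr hx
  have h' : (-(225 * D ^ 2 * y / (x - 25 * D) ^ 2)) ^ 2 = (25 * D * (x - 16 * D) / (x - 25 * D)) *
      (25 * D * (x - 16 * D) / (x - 25 * D) - 16 * D) *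
      (25 * D * (x - 16 * D) / (x - 25 * D) - 25 * D) := by
    have e1 : 25 * D * (x - 16 * D) / (x - 25 * D) - 16 * D = 9 * D * x / (x - 25 * D) := by
      field_simp; ring
    have e2 : 25 * D * (x - 16 * D) / (x - 25 * D) - 25 * D = 225 * D ^ 2 / (x - 25 * D) := by
      field_simp; ring
    rw [e1, e2]
    have e3 : (-(225 * D ^ 2 * y / (x - 25 * D) ^ 2)) ^ 2 =
        225 ^ 2 * D ^ 4 * (y ^ 2) / (x - 25 * D) ^ 4 := by
      rw [neg_sq, div_pow]; ring
    rw [e3, h]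
    obtain ⟨A, hA⟩ : ∃ A, A = x - 25 * D := ⟨_, rfl⟩
    rw [← hA] at hx0 ⊢
    field_simp
    ring
  refine ⟨_, _, h', rfl, ?_⟩
  unfold T3 pt
  rw [Affine.Point.add_some (fun h => hx h.1)]
  simp only [Affine.Point.some.injEq]
  have hs : (ED D).toAffine.slope x (25 * D) y 0 = y / (x - 25 * D) := by
    rw [Affine.slope_of_X_ne hx]; simp
  rw [hs]
  have hX : (ED D).toAffine.addX x (25 * D) (y / (x - 25 * D)) =
      25 * D * (x - 16 * D) / (x - 25 * D) := by
    simp only [Affine.addX, ED]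
    field_simp
    linear_combination h
  refine ⟨hX, ?_⟩
  simp only [Affine.addY, Affine.negAddY, Affine.negY, hX]
  simp only [ED]
  field_simp
  ring

/-- the second descent condition -/
def Cond2 (D : ℚ) : Prop := ∀ X Y : ℚ, Y ^ 2 = X * (X + D) * (X + 81 * D) → X ≠ 0 →
  ∃ s : ℚ, X = s ^ 2 ∨ X = -D * s ^ 2

theorem descA (hD : D ≠ 0) (hc : Cond2 D) {x y u : ℚ}
    (h : y ^ 2 = x * (x - 16 * D) * (x - 25 * D)) (hu : x = u ^ 2) :
    ∃ R, pt hD x y h = 2 • R ∨ pt hD x y h = T1 hD + 2 • R := by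
  by_cases hu0 : u = 0
  · refine ⟨0, Or.inr ?_⟩
    rw [nsmul_zero, add_zero]
    have hx : x = 0 := by rw [hu, hu0]; ring
    have hy : y = 0 := by
      rw [hx] at h; simpa using h
    exact pt_congr hD hx hy
  have hx : x ≠ 0 := by rw [hu]; positivity
  obtain ⟨t, ht⟩ : ∃ t, t = y / u := ⟨_, rfl⟩
  have hy : y = u * t := by rw [ht]; field_simp
  have ht2 : t ^ 2 = (x - 16 * D) * (x - 25 * D) := by
    have : u ^ 2 * t ^ 2 = u ^ 2 * ((x - 16 * D) * (x - 25 * D)) := by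
      rw [← mul_pow, ← hy, h, hu]; ring
    exact mul_left_cancel₀ (by positivity) this
  obtain ⟨X, hX⟩ : ∃ X, X = 2 * x - 41 * D + 2 * t := ⟨_, rfl⟩
  have hX2 : (X + D) * (X + 81 * D) = 4 * x * X := by
    rw [hX]; linear_combination 4 * ht2
  have hX0 : X ≠ 0 := by
    intro h0
    rw [h0] at hX2
    apply hD
    have : D ^ 2 = 0 := by linarith
    simpa using this
  obtain ⟨s, hs | hs⟩ := hc X (2 * u * X) (by linear_combination (-X) * hX2 - 4 * X ^ 2 * hu) hX0
  · -- all three are squares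
    have hs0 : s ≠ 0 := by rintro rfl; apply hX0; rw [hs]; ring
    have e1 : (s ^ 2 + D) * (s ^ 2 + 81 * D) = 4 * x * s ^ 2 := by rw [← hs]; exact hX2
    have e2 : t = (s ^ 2 - 81 * D ^ 2 / s ^ 2) / 4 := by
      field_simp
      have : 2 * t = s ^ 2 - 2 * x + 41 * D := by rw [← hs, hX]; ring
      linear_combination 2 * s ^ 2 * this + e1
    obtain ⟨R, hR⟩ := halve hD (v := (s + 9 * D / s) / 2) (w := (s - 9 * D / s) / 2) h hu
      (by field_simp; linear_combination (-1 : ℚ) * e1) (by field_simp; linear_combination (-1 : ℚ) * e1)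
      (by rw [hy, e2]; field_simp; ring)
    exact ⟨R, Or.inl hR⟩
  · have hs0 : s ≠ 0 := by rintro rfl; apply hX0; rw [hs]; ring
    have e1 : (-D * s ^ 2 + D) * (-D * s ^ 2 + 81 * D) = 4 * x * (-D * s ^ 2) := by
      rw [← hs]; exact hX2
    have e1' : D * (s ^ 2 - 1) * (s ^ 2 - 81) = -4 * x * s ^ 2 := by
      apply mul_left_cancel₀ hD
      linear_combination e1
    have e2 : t = -D * (s ^ 2 - 81 / s ^ 2) / 4 := by
      field_simp
      have : 2 * t = -D * s ^ 2 - 2 * x + 41 * D := by rw [← hs, hX]; ring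
      linear_combination 2 * s ^ 2 * this - e1'
    obtain ⟨h', hT⟩ := add_T1 hD h hx
    have hv : x - 16 * D = -D * ((s - 9 / s) / 2) ^ 2 := by
      field_simp; linear_combination e1'
    have hw : x - 25 * D = -D * ((s + 9 / s) / 2) ^ 2 := by
      field_simp; linear_combination e1'
    obtain ⟨R, hR⟩ := halve hD (u := 20 * D / u) (v := 4 * D * ((s + 9 / s) / 2) / u)
      (w := 5 * D * ((s - 9 / s) / 2) / u) h' (by rw [hu]; field_simp; ring)
      (by
        have : 400 * D ^ 2 / x - 16 * D = -16 * D * (x - 25 * D) / x := by field_simp; ring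
        rw [this, hw, hu]; field_simp; norm_num)
      (by
        have : 400 * D ^ 2 / x - 25 * D = -25 * D * (x - 16 * D) / x := by field_simp; ring
        rw [this, hv, hu]; field_simp; ring)
      (by rw [hy, e2, hu]; field_simp; ring)
    refine ⟨R, Or.inr ?_⟩
    rw [← hR, ← hT, add_comm (T1 hD), add_assoc, ← two_nsmul, two_T1, add_zero]

/-- the finite set `{0, T1, T3, T1 + T3}` -/
def S4 (hD : D ≠ 0) : Set (ED D).toAffine.Point := {0, T1 hD, T3 hD, T1 hD + T3 hD}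

theorem descB (hD : D ≠ 0) (hc : Cond2 D) {x y u : ℚ}
    (h : y ^ 2 = x * (x - 16 * D) * (x - 25 * D)) (hu : x = u ^ 2 ∨ x = D * u ^ 2) :
    ∃ T ∈ S4 hD, ∃ R, pt hD x y h = T + 2 • R := by
  rcases hu with hu | hu
  · obtain ⟨R, hR | hR⟩ := descA hD hc h hu
    · exact ⟨0, by simp [S4], R, by rw [hR, zero_add]⟩
    · exact ⟨T1 hD, by simp [S4], R, hR⟩
  by_cases h25 : x = 25 * D
  · have hy : y = 0 := by
      rw [h25] at h; simpa using h
    exact ⟨T3 hD, by simp [S4], 0, by rw [nsmul_zero, add_zero]; exact pt_congr hD h25 hy⟩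
  by_cases hu0 : u = 0
  · subst hu0
    have hx : x = 0 := by rw [hu]; ring
    have hy : y = 0 := by
      rw [hx] at h; simpa using h
    exact ⟨T1 hD, by simp [S4], 0, by rw [nsmul_zero, add_zero]; exact pt_congr hD hx hy⟩
  have h25' : x - 25 * D ≠ 0 := sub_ne_zero.mpr h25
  obtain ⟨x', y', h', hx', hT⟩ := add_T3 hD h h25
  have hsq : x' = (5 * y / (u * (x - 25 * D))) ^ 2 := by
    rw [hx', div_pow, mul_pow, h, hu]
    field_simp
    ring
  have hP : pt hD x y h = T3 hD + pt hD x' y' h' := by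
    rw [← hT, add_comm (T3 hD), add_assoc, ← two_nsmul, two_T3, add_zero]
  obtain ⟨R, hR | hR⟩ := descA hD hc h' hsq
  · exact ⟨T3 hD, by simp [S4], R, by rw [hP, hR]⟩
  · exact ⟨T1 hD + T3 hD, by simp [S4], R, by rw [hP, hR]; abel⟩

theorem two_S4 (hD : D ≠ 0) {T : (ED D).toAffine.Point} (hT : T ∈ S4 hD) : 2 • T = 0 := by
  rcases hT with rfl | rfl | rfl | rfl
  · simp
  · exact two_T1 hD
  · exact two_T3 hD
  · rw [nsmul_add, two_T1, two_T3, add_zero]

/-- the first descent condition -/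
def Cond1 (D : ℚ) : Prop := ∀ x y : ℚ, y ^ 2 = x * (x - 16 * D) * (x - 25 * D) → x ≠ 0 →
  ∃ u : ℚ, x = u ^ 2 ∨ x = D * u ^ 2

instance : Northcott (Height.logHeight₁ (K := ℚ)) := inferInstance

theorem finite_ED (hD : D ≠ 0) (h1 : Cond1 D) (h2 : Cond2 D) : Finite (ED D).toAffine.Point := by
  have := ED_elliptic hD
  refine finite_of_descent (ED D) rfl rfl (S4 hD) (by unfold S4; exact Set.toFinite _) 2 two_ne_zero
    (fun T hT => two_S4 hD hT) ?_
  rintro (_ | ⟨x, y, h⟩)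
  · exact ⟨0, by simp [S4], 0, by simp [← Affine.Point.zero_def]⟩
  · have he := (ED_eq_iff x y).mp h.1
    by_cases hx : x = 0
    · exact descB hD h2 he (u := 0) (Or.inl (by rw [hx]; ring))
    · obtain ⟨u, hu⟩ := h1 x y he hx
      exact descB hD h2 he hu

end Vale.Agent.P017.H185
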