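import Vale.Agent.P017.H185.Main

namespace Vale.Agent.P017.H185

open NumberField

/-- Rédei's condition (absence of nontrivial decompositions of the second kind). -/
def Redei (d : ℕ) : Prop := ∀ a : ℕ, a ∣ d →
  (∀ p : ℕ, p.Prime → p ∣ d →
    (¬ p ∣ a → IsSquare (a : ZMod p)) ∧ (p ∣ a → IsSquare ((d / a : ℕ) : ZMod p))) →
  a = 1 ∨ a = d

/-- primitive common denominator -/
theorem exists_prim (u v : ℚ) : ∃ X Y Z : ℤ, Z ≠ 0 ∧ u * Z = X ∧ v * Z = Y ∧
    ∀ p : ℕ, p.Prime → ¬ ((p : ℤ) ∣ X ∧ (p : ℤ) ∣ Y ∧ (p : ℤ) ∣ Z) := by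
  classical
  have hex : ∃ n : ℕ, 0 < n ∧ ∃ X Y : ℤ, u * n = X ∧ v * n = Y := by
    refine ⟨u.den * v.den, Nat.mul_pos u.den_pos v.den_pos, u.num * v.den, v.num * u.den, ?_, ?_⟩
    · have := Rat.mul_den_eq_num u
      push_cast
      rw [← mul_assoc, this]
    · have := Rat.mul_den_eq_num v
      push_cast
      linear_combination (u.den : ℚ) * this
  obtain ⟨hn, X, Y, hX, hY⟩ := Nat.find_spec hex
  refine ⟨X, Y, (Nat.find hex : ℕ), by exact_mod_cast hn.ne', by exact_mod_cast hX,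
    by exact_mod_cast hY, ?_⟩
  rintro p hp ⟨⟨x, hx⟩, ⟨y, hy⟩, hz⟩
  obtain ⟨z, hz⟩ : p ∣ Nat.find hex := by exact_mod_cast hz
  have hz0 : 0 < z := by
    rcases Nat.eq_zero_or_pos z with h | h
    · rw [h, mul_zero] at hz; omega
    · exact h
  have hpQ : (p : ℚ) ≠ 0 := by exact_mod_cast hp.ne_zero
  have hlt : z < Nat.find hex := by
    rw [hz]; nlinarith [hp.two_le]
  apply Nat.find_min hex hlt
  refine ⟨hz0, x, y, ?_, ?_⟩
  · rw [hz, hx] at hX
    push_cast at hX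
    apply mul_left_cancel₀ hpQ
    linear_combination hX
  · rw [hz, hy] at hY
    push_cast at hY
    apply mul_left_cancel₀ hpQ
    linear_combination hY

namespace QF

variable {K : Type*} [Field K] [NumberField K] {d : ℕ} (q : QF K d)

include q in
/-- local conditions at the ramified primes for a norm dividing `d` -/
theorem norm_local {a : ℕ} (ha : a ∣ d) {w : K} (hw : q.nm w = a) {p : ℕ} (hp : p.Prime)
    (hpd : p ∣ d) : (¬ p ∣ a → IsSquare (a : ZMod p)) ∧
      (p ∣ a → IsSquare ((d / a : ℕ) : ZMod p)) := by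
  have := Fact.mk hp
  have hp' : Prime (p : ℤ) := Nat.prime_iff_prime_int.mp hp
  obtain ⟨c, hc⟩ := ha
  have ha0 : a ≠ 0 := by rintro rfl; exact q.d_pos.ne' (by rw [hc, zero_mul])
  have hdc : d / a = c := by rw [hc]; exact Nat.mul_div_cancel_left c (Nat.pos_of_ne_zero ha0)
  obtain ⟨X, Y, Z, hZ, hX, hY, hprim⟩ := exists_prim (q.re w) (q.im w)
  have heq : X ^ 2 + d * Y ^ 2 = a * Z ^ 2 := by
    have : (X : ℚ) ^ 2 + d * Y ^ 2 = a * Z ^ 2 := by
      rw [← hX, ← hY, ← hw, QF.nm]; ring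
    exact_mod_cast this
  have hsq : ∀ {e : ℕ}, p * p * e ≠ d := by
    intro e he
    have := q.hd p ⟨e, he.symm⟩
    exact hp.one_lt.ne' (Nat.isUnit_iff.mp this)
  constructor
  · intro hpa
    obtain ⟨d', hd'⟩ := hpd
    have hpd' : ¬ p ∣ d' := by
      rintro ⟨e, he⟩
      exact hsq (e := e) (by rw [hd', he]; ring)
    have hZp : ¬ (p : ℤ) ∣ Z := by
      intro hZp
      have h1 : (p : ℤ) ∣ X ^ 2 := by
        have : X ^ 2 = a * Z ^ 2 - p * (d' * Y ^ 2) := by rw [hd'] at heq; push_cast at heq; linarith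
        rw [this]
        exact dvd_sub (Dvd.dvd.mul_left (Dvd.dvd.pow hZp two_ne_zero) _) (dvd_mul_right _ _)
      have h2 := hp'.dvd_of_dvd_pow h1
      obtain ⟨x, hx⟩ := h2
      obtain ⟨z, hz⟩ := hZp
      have h3 : (p : ℤ) ∣ d' * Y ^ 2 := by
        refine ⟨a * z ^ 2 - x ^ 2, ?_⟩
        apply mul_left_cancel₀ hp'.ne_zero
        rw [hd', hx, hz] at heq
        push_cast at heq
        linear_combination heq
      rcases hp'.dvd_or_dvd h3 with h4 | h4
      · exact hpd' (by exact_mod_cast h4)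
      · exact hprim p hp ⟨⟨x, hx⟩, hp'.dvd_of_dvd_pow h4, ⟨z, hz⟩⟩
    have hZ0 : ((Z : ℤ) : ZMod p) ≠ 0 := by
      rwa [Ne, ZMod.intCast_zmod_eq_zero_iff_dvd]
    refine ⟨(X : ZMod p) / Z, ?_⟩
    have h1 : ((X ^ 2 + d * Y ^ 2 : ℤ) : ZMod p) = ((a * Z ^ 2 : ℤ) : ZMod p) := by rw [heq]
    push_cast at h1
    have h2 : (d : ZMod p) = 0 := by
      rw [hd']; simp
    rw [h2] at h1
    field_simp
    linear_combination -h1
  · rintro ⟨a', ha'⟩
    rw [hdc]
    have hpa' : ¬ p ∣ a' := by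
      rintro ⟨e, he⟩
      exact hsq (e := e * c) (by rw [hc, ha', he]; ring)
    have heq2 : X ^ 2 + p * (a' * c * Y ^ 2) = p * (a' * Z ^ 2) := by
      rw [hc, ha'] at heq; push_cast at heq; linarith
    have h1 : (p : ℤ) ∣ X ^ 2 := by
      have : X ^ 2 = p * (a' * Z ^ 2 - a' * c * Y ^ 2) := by linarith
      exact ⟨_, this⟩
    obtain ⟨x, hx⟩ := hp'.dvd_of_dvd_pow h1
    have heq3 : p * x ^ 2 + a' * c * Y ^ 2 = a' * Z ^ 2 := by
      apply mul_left_cancel₀ hp'.ne_zero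
      rw [hx] at heq2
      linear_combination heq2
    have ha'0 : ((a' : ℕ) : ZMod p) ≠ 0 := by
      rwa [Ne, ZMod.natCast_eq_zero_iff]
    have h2 : (c : ZMod p) * (Y : ZMod p) ^ 2 = (Z : ZMod p) ^ 2 := by
      have h1 : ((p * x ^ 2 + a' * c * Y ^ 2 : ℤ) : ZMod p) = ((a' * Z ^ 2 : ℤ) : ZMod p) := by
        rw [heq3]
      push_cast at h1
      rw [ZMod.natCast_self, zero_mul, zero_add] at h1
      apply mul_left_cancel₀ ha'0
      linear_combination h1
    by_cases hY0 : ((Y : ℤ) : ZMod p) = 0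
    · exfalso
      rw [hY0] at h2
      have hZ0 : ((Z : ℤ) : ZMod p) = 0 := by
        have : ((Z : ℤ) : ZMod p) ^ 2 = 0 := by rw [← h2]; ring
        exact pow_eq_zero_iff two_ne_zero |>.mp this
      rw [ZMod.intCast_zmod_eq_zero_iff_dvd] at hY0 hZ0
      exact hprim p hp ⟨⟨x, hx⟩, hY0, hZ0⟩
    · refine ⟨(Z : ZMod p) / Y, ?_⟩
      field_simp
      linear_combination h2

/-- the ideal above a rational square root -/
theorem eq_span_of_mul_self {J : Ideal (𝓞 K)} {g : 𝓞 K} (hg : g ≠ 0)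
    (h : J * J = Ideal.span {g * g}) : J = Ideal.span {g} := by
  have hgK : algebraMap (𝓞 K) K g ≠ 0 := by
    rw [Ne, ← map_zero (algebraMap (𝓞 K) K)]; exact fun h => hg (ext' h)
  have hle : J ≤ Ideal.span {g} := by
    intro z hz
    have h1 : z * z ∈ Ideal.span {g * g} := by rw [← h]; exact Ideal.mul_mem_mul hz hz
    rw [Ideal.mem_span_singleton] at h1
    obtain ⟨w, hw⟩ := h1
    have hint : IsIntegral ℤ (algebraMap (𝓞 K) K z / algebraMap (𝓞 K) K g) := by
      apply IsIntegral.of_pow (n := 2) (by norm_num)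
      have : (algebraMap (𝓞 K) K z / algebraMap (𝓞 K) K g) ^ 2 = algebraMap (𝓞 K) K w := by
        have := congrArg (algebraMap (𝓞 K) K) hw
        simp only [map_mul] at this ⊢
        field_simp
        linear_combination this
      rw [this]; exact isInt _
    obtain ⟨y, hy⟩ := exists_of_isInt hint
    rw [Ideal.mem_span_singleton]
    refine ⟨y, ?_⟩
    apply ext'
    rw [map_mul, hy]
    field_simp
  obtain ⟨M, hM⟩ := Ideal.dvd_iff_le.mpr hle
  have h2 : Ideal.span {g * g} * (M * M) = Ideal.span {g * g} * ⊤ := by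
    rw [Ideal.mul_top]
    conv_rhs => rw [← h, hM, mul_mul_mul_comm, Ideal.span_singleton_mul_span_singleton]
  have h3 : M * M = ⊤ := (Ideal.span_singleton_mul_right_inj (mul_ne_zero hg hg)).mp h2
  have h4 : M = ⊤ := by
    rw [Ideal.eq_top_iff_one]
    have : (1 : 𝓞 K) ∈ M * M := by rw [h3]; trivial
    exact Ideal.mul_le_right this
  rw [hM, h4, Ideal.mul_top]

include q in
/-- **Rédei's criterion**: no element of order four in the class group. -/
theorem no_order_four (hd4 : d % 4 = 3) (hR : Redei d) :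
    ∀ c : ClassGroup (𝓞 K), orderOf c ≠ 4 := by
  intro c hc
  obtain ⟨⟨I₀, hI₀⟩, rfl⟩ := ClassGroup.mk0_surjective c
  have hI₀0 : I₀ ≠ ⊥ := nonZeroDivisors.ne_zero hI₀
  obtain ⟨n₀, hn₀, hIn₀⟩ := q.exists_hasN hI₀0
  have hI0 : I₀ * I₀ ≠ ⊥ := mul_ne_zero hI₀0 hI₀0
  have hpow : (ClassGroup.mk0 ⟨I₀, hI₀⟩) ^ 4 = 1 := by rw [← hc]; exact pow_orderOf_eq_one _
  have hpow' : ClassGroup.mk0 ⟨(I₀ * I₀) * (I₀ * I₀), mem_nonZeroDivisors_of_ne_zero
      (mul_ne_zero hI0 hI0)⟩ = 1 := by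
    rw [← hpow]
    rw [show (4 : ℕ) = 2 + 2 by norm_num, pow_add, sq, ← map_mul, ← map_mul]
    rfl
  obtain ⟨γ, hγ⟩ := ((ClassGroup.mk0_eq_one_iff _).mp hpow').principal
  have hγ' : (I₀ * I₀) * (I₀ * I₀) = Ideal.span {γ} := hγ
  obtain ⟨a, ha, hram, ⟨J, hJJ, x, y, hx, hy, hxy⟩, w, hw, hwn⟩ :=
    q.amb hI0 (hIn₀.mul hIn₀) hγ'
  have had : a ∣ d := by
    rw [← Nat.prod_primeFactors_of_squarefree ha]
    refine Finset.prod_primes_dvd _ (fun p hp => (Nat.prime_of_mem_primeFactors hp).prime)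
      (fun p hp => ?_)
    rcases hram p (Nat.prime_of_mem_primeFactors hp) (Nat.dvd_of_mem_primeFactors hp) with h | h
    · exact h
    · exact absurd hd4 h.2
  have hn₀Q : (n₀ : ℚ) ≠ 0 := by exact_mod_cast hn₀
  have hnma : q.nm (w * (((n₀ : ℚ)⁻¹ : ℚ) : K)) = a := by
    rw [q.nm_mul, q.nm_rat, ← hwn]
    push_cast
    field_simp
  have ha1 := hR a had (fun p hp hpd => q.norm_local had hnma hp hpd)
  have hJ0 : J ≠ ⊥ := by
    rintro rfl
    rw [Ideal.bot_mul] at hJJ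
    exact ha.ne_zero (by exact_mod_cast Ideal.span_singleton_eq_bot.mp hJJ.symm)
  have hJp : ∃ g : 𝓞 K, J = Ideal.span {g} := by
    rcases ha1 with h | h
    · refine ⟨1, eq_span_of_mul_self one_ne_zero ?_⟩
      rw [hJJ, h]; simp
    · refine ⟨q.t, eq_span_of_mul_self q.t_ne_zero ?_⟩
      rw [hJJ, h, ← sq, q.t_sq, Ideal.span_singleton_neg]
  obtain ⟨g, hg⟩ := hJp
  have hJ1 : ClassGroup.mk0 ⟨J, mem_nonZeroDivisors_of_ne_zero hJ0⟩ = 1 := by
    rw [ClassGroup.mk0_eq_one_iff]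
    exact ⟨⟨g, hg⟩⟩
  have hIJ : ClassGroup.mk0 ⟨I₀ * I₀, mem_nonZeroDivisors_of_ne_zero hI0⟩ =
      ClassGroup.mk0 ⟨J, mem_nonZeroDivisors_of_ne_zero hJ0⟩ := by
    rw [ClassGroup.mk0_eq_mk0_iff]
    exact ⟨x, y, hx, hy, hxy⟩
  have h2 : (ClassGroup.mk0 ⟨I₀, hI₀⟩) ^ 2 = 1 := by
    rw [sq, ← map_mul]
    exact hIJ.trans hJ1
  have := orderOf_dvd_of_pow_eq_one h2
  rw [hc] at this
  norm_num at this

end QF

theorem Redei.of_prime {p : ℕ} (hp : p.Prime) : Redei p := fun _ ha _ => (Nat.dvd_prime hp).mp ha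

/-- symmetry of the local conditions -/
theorem local_symm {D a : ℕ} (hD : Squarefree D) (ha : a ∣ D)
    (h : ∀ p : ℕ, p.Prime → p ∣ D →
      (¬ p ∣ a → IsSquare (a : ZMod p)) ∧ (p ∣ a → IsSquare ((D / a : ℕ) : ZMod p))) :
    ∀ p : ℕ, p.Prime → p ∣ D →
      (¬ p ∣ D / a → IsSquare ((D / a : ℕ) : ZMod p)) ∧
        (p ∣ D / a → IsSquare ((D / (D / a) : ℕ) : ZMod p)) := by
  intro p hp hpD
  obtain ⟨c, hc⟩ := ha
  have hD0 := hD.ne_zero
  have ha0 : a ≠ 0 := by rintro rfl; exact hD0 (by rw [hc, zero_mul])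
  have hc0 : c ≠ 0 := by rintro rfl; exact hD0 (by rw [hc, mul_zero])
  have h1 : D / a = c := by rw [hc]; exact Nat.mul_div_cancel_left c (Nat.pos_of_ne_zero ha0)
  have h2 : D / c = a := by rw [hc]; exact Nat.mul_div_cancel a (Nat.pos_of_ne_zero hc0)
  rw [h1, h2]
  have h3 := h p hp hpD
  rw [h1] at h3
  refine ⟨fun hpc => h3.2 ?_, fun hpc => h3.1 ?_⟩
  · rw [hc] at hpD
    rcases (Nat.Prime.dvd_mul hp).mp hpD with h4 | h4
    · exact h4
    · exact absurd h4 hpc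
  · intro hpa
    have : p * p ∣ D := by rw [hc]; exact Nat.mul_dvd_mul hpa hpc
    exact hp.one_lt.ne' (Nat.isUnit_iff.mp (hD p this))

open jacobiSym in
theorem Redei.mul_prime {d : ℕ} (hd : Squarefree d) (hodd : Odd d) (hR : Redei d) {p : ℕ}
    (hp : p.Prime) (hp4 : p % 4 = 1) (hpd : ¬ p ∣ d) {q₁ : ℕ} (hq₁ : q₁.Prime) (hq₁d : q₁ ∣ d)
    (hns : ¬ IsSquare (p : ZMod q₁))
    (hs : ∀ q : ℕ, q.Prime → q ∣ d → q ≠ q₁ → IsSquare (p : ZMod q)) : Redei (d * p) := by
  have hcop : Nat.Coprime d p := by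
    rw [Nat.coprime_comm, Nat.Prime.coprime_iff_not_dvd hp]; exact hpd
  have hD : Squarefree (d * p) := by
    rw [Nat.squarefree_mul hcop]; exact ⟨hd, hp.squarefree⟩
  have key : ∀ a : ℕ, a ∣ d * p → ¬ p ∣ a →
      (∀ r : ℕ, r.Prime → r ∣ d * p →
        (¬ r ∣ a → IsSquare (a : ZMod r)) ∧ (r ∣ a → IsSquare ((d * p / a : ℕ) : ZMod r))) →
      a = 1 := by
    intro a ha hpa hloc
    have had : a ∣ d := Nat.Coprime.dvd_of_dvd_mul_right
      (Nat.Coprime.symm ((Nat.Prime.coprime_iff_not_dvd hp).mpr hpa)) ha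
    have ha0 : a ≠ 0 := by rintro rfl; exact hpa (dvd_zero p)
    have hasq : Squarefree a := hd.squarefree_of_dvd had
    have haodd : Odd a := by
      obtain ⟨c, hc⟩ := had
      rw [hc] at hodd
      exact (Nat.odd_mul.mp hodd).1
    have hq₁a : ¬ q₁ ∣ a := by
      rintro ⟨a', ha'⟩
      have h1 : jacobiSym a p = 1 :=
        J_prime_one hp (by exact_mod_cast hpa)
          (by exact_mod_cast (hloc p hp (dvd_mul_left _ _)).1 hpa)
      have h2 : jacobiSym a p = jacobiSym p a :=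
        quadratic_reciprocity_one_mod_four' haodd hp4
      have hp0 : p ≠ 0 := hp.ne_zero
      have hq₁0 := NeZero.mk hq₁.ne_zero
      have ha'0 : a' ≠ 0 := by rintro rfl; exact ha0 (by rw [ha', mul_zero])
      have ha'0' := NeZero.mk ha'0
      have h3 : jacobiSym p a' = 1 := by
        apply J_one_of_primes ha'0
        intro r hr hra'
        have hrd : r ∣ d := (hra'.trans ⟨q₁, by rw [ha']; ring⟩).trans had
        have hrq : r ≠ q₁ := by
          rintro rfl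
          have : r * r ∣ a := by rw [ha']; exact Nat.mul_dvd_mul_left r hra'
          exact hr.one_lt.ne' (Nat.isUnit_iff.mp (hasq r this))
        apply J_prime_one hr
        · intro h
          have h' : r ∣ p := by exact_mod_cast h
          rcases (Nat.dvd_prime hp).mp h' with h' | h'
          · exact hr.one_lt.ne' h'
          · exact hpd (h' ▸ hrd)
        · exact_mod_cast hs r hr hrd hrq
      have h4 : jacobiSym p q₁ ≠ 1 := by
        have := Fact.mk hq₁
        rw [← legendreSym.to_jacobiSym]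
        intro h
        apply hns
        have hne : ((p : ℤ) : ZMod q₁) ≠ 0 := by
          intro h0
          rw [(legendreSym.eq_zero_iff q₁ (p : ℤ)).mpr h0] at h
          norm_num at h
        exact_mod_cast (legendreSym.eq_one_iff q₁ hne).mp h
      rw [h1] at h2
      apply h4
      have h5 : jacobiSym p a = jacobiSym p q₁ * jacobiSym p a' := by
        rw [ha', mul_right]
      rw [h5, h3, mul_one] at h2
      exact h2.symm
    have hfin : a = 1 ∨ a = d := by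
      apply hR a had
      intro r hr hrd
      have hl := hloc r hr (hrd.mul_right _)
      refine ⟨hl.1, fun hra => ?_⟩
      have hrq : r ≠ q₁ := by rintro rfl; exact hq₁a hra
      have h1 := hl.2 hra
      have h2 : d * p / a = d / a * p := by
        obtain ⟨c, hc⟩ := had
        rw [hc, mul_assoc, Nat.mul_div_cancel_left _ (Nat.pos_of_ne_zero ha0),
          Nat.mul_div_cancel_left _ (Nat.pos_of_ne_zero ha0)]
      rw [h2] at h1
      have := Fact.mk hr
      have hpr : ((p : ℕ) : ZMod r) ≠ 0 := by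
        rw [Ne, ZMod.natCast_eq_zero_iff]
        intro h
        rcases (Nat.dvd_prime hp).mp h with h' | h'
        · exact hr.one_lt.ne' h'
        · exact hpd (h' ▸ hrd)
      obtain ⟨s, hs⟩ := hs r hr hrd hrq
      obtain ⟨t, ht⟩ := h1
      have hs0 : s ≠ 0 := by
        rintro rfl
        exact hpr (by rw [hs]; ring)
      refine ⟨t / s, ?_⟩
      push_cast at ht
      field_simp
      rw [sq, ← hs, ht]; ring
    rcases hfin with h | h
    · exact h
    · exact absurd (h ▸ hq₁d) hq₁a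
  intro a ha hloc
  by_cases hpa : p ∣ a
  · right
    obtain ⟨c, hc⟩ := ha
    have hD0 := hD.ne_zero
    have ha0 : a ≠ 0 := by rintro rfl; exact hD0 (by rw [hc, zero_mul])
    have h1 : d * p / a = c := by
      rw [hc]; exact Nat.mul_div_cancel_left c (Nat.pos_of_ne_zero ha0)
    have h2 := key (d * p / a) (Nat.div_dvd_of_dvd ⟨c, hc⟩) (by
      rw [h1]
      intro hpc
      have : p * p ∣ d * p := by rw [hc]; exact Nat.mul_dvd_mul hpa hpc
      exact hp.one_lt.ne' (Nat.isUnit_iff.mp (hD p this))) (local_symm hD ⟨c, hc⟩ hloc)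
    rw [h1] at h2
    rw [hc, h2, mul_one]
  · left; exact key a ha hpa hloc

/-- Dirichlet's theorem and the Chinese remainder theorem -/
theorem exists_prime_ext {d q₁ : ℕ} (hd : Squarefree d) (h60 : Nat.Coprime d 60) (hq₁ : q₁.Prime)
    (hq₁d : q₁ ∣ d) (B : ℕ) :
    ∃ p > B, p.Prime ∧ p % 60 = 1 ∧ ¬ IsSquare (p : ZMod q₁) ∧
      ∀ q : ℕ, q.Prime → q ∣ d → q ≠ q₁ → IsSquare (p : ZMod q) := by
  obtain ⟨e, he⟩ := hq₁d
  have hF := Fact.mk hq₁
  have hq2 : q₁ ≠ 2 := by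
    rintro rfl
    have := Nat.Coprime.coprime_dvd_left ⟨e, he⟩ h60
    norm_num at this
  obtain ⟨r, hr⟩ := FiniteField.exists_nonsquare (F := ZMod q₁) (by rwa [ZMod.ringChar_zmod_n])
  have hqe : Nat.Coprime q₁ e := by rw [he] at hd; exact Nat.coprime_of_squarefree_mul hd
  have hq60 : Nat.Coprime q₁ 60 := Nat.Coprime.coprime_dvd_left ⟨e, he⟩ h60
  have hcop : Nat.Coprime q₁ (60 * e) := Nat.Coprime.mul_right hq60 hqe
  obtain ⟨n, hn1, hn2⟩ := Nat.chineseRemainder hcop r.val 1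
  have hnq : ((n : ℕ) : ZMod q₁) = r := by
    have := (ZMod.natCast_eq_natCast_iff _ _ _).mpr hn1
    rw [this]; simp
  have hr0 : r ≠ 0 := by rintro rfl; exact hr ⟨0, by simp⟩
  have hc1 : Nat.Coprime n q₁ := by
    rw [Nat.coprime_comm, Nat.Prime.coprime_iff_not_dvd hq₁]
    intro h
    rw [← ZMod.natCast_eq_zero_iff, hnq] at h
    exact hr0 h
  have hc2 : Nat.Coprime n (60 * e) := by
    have := hn2.gcd_eq
    rw [Nat.gcd_one_left] at this
    exact this
  have he0 : e ≠ 0 := by rintro rfl; exact hd.ne_zero (by rw [he, mul_zero])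
  have hNZ : NeZero (q₁ * (60 * e)) := ⟨by have := hq₁.ne_zero; positivity⟩
  obtain ⟨p, hpB, hp, hpn⟩ := Nat.forall_exists_prime_gt_and_eq_mod (q := q₁ * (60 * e))
    (a := (n : ZMod (q₁ * (60 * e)))) ((ZMod.isUnit_iff_coprime _ _).mpr (hc1.mul_right hc2)) B
  have hpn' : p ≡ n [MOD q₁ * (60 * e)] := (ZMod.natCast_eq_natCast_iff _ _ _).mp hpn
  have h1 : p ≡ n [MOD q₁] := hpn'.of_mul_right _
  have h2 : p ≡ 1 [MOD 60 * e] := (hpn'.of_mul_left _).trans hn2
  refine ⟨p, hpB, hp, ?_, ?_, ?_⟩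
  · exact h2.of_mul_right _
  · rw [(ZMod.natCast_eq_natCast_iff _ _ _).mpr h1, hnq]; exact hr
  · intro q hq hqd hqq
    have hqe : q ∣ e := by
      rw [he] at hqd
      rcases (Nat.Prime.dvd_mul hq).mp hqd with h | h
      · exact absurd ((Nat.prime_dvd_prime_iff_eq hq hq₁).mp h) hqq
      · exact h
    have h3 : p ≡ 1 [MOD q] := (h2.of_mul_left _).of_dvd hqe
    rw [(ZMod.natCast_eq_natCast_iff _ _ _).mpr h3]
    exact ⟨1, by simp⟩

theorem exists_family (n : ℕ) : ∀ B : ℕ, ∃ d > B, Squarefree d ∧ d.primeFactors.card = n + 1 ∧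
    d % 60 = 23 ∧ Redei d := by
  induction n with
  | zero =>
    intro B
    obtain ⟨p, hpB, hp, hpn⟩ := Nat.forall_exists_prime_gt_and_eq_mod (q := 60)
      (a := ((23 : ℕ) : ZMod 60)) ((ZMod.isUnit_iff_coprime 23 60).mpr (by norm_num)) B
    refine ⟨p, hpB, hp.squarefree, ?_, ?_, Redei.of_prime hp⟩
    · rw [hp.primeFactors]; simp
    · exact (ZMod.natCast_eq_natCast_iff _ _ _).mp hpn
  | succ n ih =>
    intro B
    obtain ⟨d, -, hd, hcard, hd60, hR⟩ := ih 0
    have hd1 : d ≠ 1 := by rintro rfl; norm_num at hd60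
    have hq₁ := Nat.minFac_prime hd1
    have hcop : Nat.Coprime d 60 := by
      rw [Nat.Coprime, Nat.gcd_comm, Nat.gcd_rec, hd60]; norm_num
    obtain ⟨p, hpB, hp, hp60, hns, hs⟩ := exists_prime_ext hd hcop hq₁ (Nat.minFac_dvd d) (max B d)
    have hpB' : B < p := lt_of_le_of_lt (le_max_left _ _) hpB
    have hpd' : d < p := lt_of_le_of_lt (le_max_right _ _) hpB
    have hd0 : 0 < d := Nat.pos_of_ne_zero hd.ne_zero
    have hpd : ¬ p ∣ d := fun h => absurd (Nat.le_of_dvd hd0 h) (by omega)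
    have hc : Nat.Coprime d p := by
      rw [Nat.coprime_comm, Nat.Prime.coprime_iff_not_dvd hp]; exact hpd
    refine ⟨d * p, by nlinarith, ?_, ?_, ?_, ?_⟩
    · rw [Nat.squarefree_mul hc]; exact ⟨hd, hp.squarefree⟩
    · rw [Nat.Coprime.primeFactors_mul hc, Finset.card_union_of_disjoint
        hc.disjoint_primeFactors, hcard, hp.primeFactors]
      simp
    · rw [Nat.mul_mod, hd60, hp60]
    · exact Redei.mul_prime hd (Nat.odd_iff.mpr (by omega)) hR hp (by omega) hpd hq₁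
        (Nat.minFac_dvd d) hns hs

/-- a quadratic field containing `√-d` -/
theorem exists_QF_of_sqrt {K : Type*} [Field K] [NumberField K] [Algebra.IsQuadraticExtension ℚ K]
    {d : ℕ} (hd : Squarefree d) {θ : K} (hθ : θ ^ 2 = -(d : K)) : Nonempty (QF K d) := by
  have hd0 : (0 : ℝ) < d := by exact_mod_cast Nat.pos_of_ne_zero hd.ne_zero
  have : IsTotallyComplex K := by
    refine ⟨fun w => ?_⟩
    rw [← InfinitePlace.not_isReal_iff_isComplex]
    intro hw
    have h1 : (InfinitePlace.embedding_of_isReal hw θ) ^ 2 = -(d : ℝ) := by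
      rw [← map_pow, hθ, map_neg, map_natCast]
    nlinarith [sq_nonneg (InfinitePlace.embedding_of_isReal hw θ)]
  obtain ⟨d', ⟨q⟩⟩ := exists_QF K
  have h1 : q.nm (θ * θ) = (d : ℚ) ^ 2 := by
    have : θ * θ = ((-(d : ℚ) : ℚ) : K) := by rw [← sq, hθ]; push_cast; rfl
    rw [this, q.nm_rat]; ring
  obtain ⟨u, v, huv⟩ := q.hspan θ
  have h2 : ((u ^ 2 - d' * v ^ 2 + d : ℚ) : K) + ((2 * u * v : ℚ) : K) * q.θ = 0 := by
    have := hθ
    rw [huv] at this
    push_cast
    linear_combination this - (v : K) ^ 2 * q.hθ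
  obtain ⟨h3, h4⟩ := q.uniq h2
  have hdQ : (0 : ℚ) < d := by exact_mod_cast Nat.pos_of_ne_zero hd.ne_zero
  have hv : v ≠ 0 := by
    rintro rfl
    nlinarith [sq_nonneg u]
  have hu : u = 0 := by
    rcases mul_eq_zero.mp h4 with h | h
    · linarith
    · exact absurd h hv
  rw [hu] at h3
  have h5 : (d : ℚ) = d' * v ^ 2 := by linarith
  have h6 : d * v.den ^ 2 = d' * v.num.natAbs ^ 2 := by
    have h0 : (v.den : ℚ) ≠ 0 := by exact_mod_cast v.den_ne_zero
    have h7 : (d : ℚ) * v.den ^ 2 = d' * v.num ^ 2 := by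
      rw [h5, mul_assoc, ← mul_pow, Rat.mul_den_eq_num]
    have h8 : (d : ℤ) * v.den ^ 2 = d' * v.num ^ 2 := by exact_mod_cast h7
    have h9 : ((d * v.den ^ 2 : ℕ) : ℤ) = ((d' * v.num.natAbs ^ 2 : ℕ) : ℤ) := by
      push_cast; rw [h8, sq_abs]
    exact_mod_cast h9
  have h7 : Nat.Coprime (v.den ^ 2) (v.num.natAbs ^ 2) :=
    Nat.Coprime.pow _ _ (Nat.Coprime.symm v.reduced)
  have h8 : v.den ^ 2 ∣ d' := h7.dvd_of_dvd_mul_right ⟨d, by rw [← h6]; ring⟩
  have h9 : v.num.natAbs ^ 2 ∣ d := (Nat.Coprime.symm h7).dvd_of_dvd_mul_right ⟨d', by rw [h6]; ring⟩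
  have h10 : v.den = 1 := Nat.isUnit_iff.mp (q.hd _ (by rwa [← sq]))
  have h11 : v.num.natAbs = 1 := Nat.isUnit_iff.mp (hd _ (by rwa [← sq]))
  rw [h10, h11] at h6
  have h12 : d = d' := by linarith
  exact h12 ▸ ⟨q⟩

universe u

/-- **Infinite families**: any number of ramified primes. -/
theorem families {n : ℕ} (hn : 0 < n) :
    {d : ℕ | Squarefree d ∧ d.primeFactors.card = n ∧ d % 60 = 23 ∧
      ∀ (K : Type u) [Field K] [NumberField K] [Algebra.IsQuadraticExtension ℚ K] (θ : K),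
        θ ^ 2 = -(d : K) → Finite (X015.baseChange K).toAffine.Point}.Infinite := by
  apply Set.infinite_of_forall_exists_gt
  intro B
  obtain ⟨m, rfl⟩ : ∃ m, n = m + 1 := ⟨n - 1, by omega⟩
  obtain ⟨d, hdB, hd, hcard, hd60, hR⟩ := exists_family m B
  refine ⟨d, ⟨hd, hcard, hd60, ?_⟩, hdB⟩
  intro K _ _ _ θ hθ
  obtain ⟨q⟩ := exists_QF_of_sqrt hd hθ
  apply q.finite_of_cond (q.no_order_four (by omega) hR)
  · intro _ h
    have h1 : ((d : ℕ) : ZMod 3) = ((1 : ℕ) : ZMod 3) := by rw [h]; simp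
    have h2 := (ZMod.natCast_eq_natCast_iff _ _ _).mp h1
    have h3 : d % 3 = 1 % 3 := h2
    omega
  · intro _ h
    have h1 : ((d : ℕ) : ZMod 5) = ((3 : ℕ) : ZMod 5) := by
      rw [ZMod.natCast_eq_natCast_iff]
      show d % 5 = 3 % 5
      omega
    rw [h1] at h
    revert h
    decide

end Vale.Agent.P017.H185
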