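import Vale.Agent.P017.H185.MW

namespace Vale.Agent.P017.H185

open WeierstrassCurve Height

/-- If `G` is finitely generated and `G = S + 2 G` with `n • S = 0`, then `G` is torsion. -/
theorem torsion_of_fg {G : Type*} [AddCommGroup G] (hfg : AddGroup.FG G) (n : ℕ) (hn : n ≠ 0)
    (h : ∀ P : G, ∃ R : G, n • P = (2 * n) • R) : IsAddTorsion G := by
  have hmf : Module.Finite ℤ G := Module.Finite.iff_addGroup_fg.mpr hfg
  let N : Submodule ℤ G := LinearMap.range (LinearMap.lsmul ℤ G (n : ℤ))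
  have hN : N.FG := by
    have : N = Submodule.map (LinearMap.lsmul ℤ G (n : ℤ)) ⊤ := LinearMap.range_eq_map _
    rw [this]
    exact Submodule.FG.map _ hmf.1
  have hle : N ≤ (Ideal.span {(2 : ℤ)}) • N := by
    rintro _ ⟨P, rfl⟩
    obtain ⟨R, hR⟩ := h P
    have e1 : (LinearMap.lsmul ℤ G (n : ℤ)) P = (2 : ℤ) • ((LinearMap.lsmul ℤ G (n : ℤ)) R) := by
      simp only [LinearMap.lsmul_apply]
      rw [natCast_zsmul, natCast_zsmul, hR, mul_nsmul']
      simp [two_nsmul, two_zsmul]
    rw [e1]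
    exact Submodule.smul_mem_smul (Ideal.subset_span rfl) ⟨R, rfl⟩
  obtain ⟨r, hr, hr2⟩ := Submodule.exists_sub_one_mem_and_smul_eq_zero_of_fg_of_le_smul _ N hN hle
  intro P
  rw [isOfFinAddOrder_iff_zsmul_eq_zero]
  refine ⟨r * n, ?_, ?_⟩
  · apply mul_ne_zero _ (by exact_mod_cast hn)
    rintro rfl
    rw [Ideal.mem_span_singleton] at hr
    norm_num at hr
  · rw [mul_smul]
    exact hr2 _ ⟨P, rfl⟩

/-- **Finiteness from a complete 2-descent.** -/
theorem finite_of_descent {K : Type*} [Field K] [DecidableEq K] [CharZero K]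
    [AdmissibleAbsValues K] [Northcott (logHeight₁ (K := K))]
    (W : WeierstrassCurve K) [W.IsElliptic] (h1 : W.a₁ = 0) (h3 : W.a₃ = 0)
    (S : Set W.toAffine.Point) (hS : S.Finite) (n : ℕ) (hn : n ≠ 0) (hSn : ∀ T ∈ S, n • T = 0)
    (h : ∀ P : W.toAffine.Point, ∃ T ∈ S, ∃ R, P = T + 2 • R) : Finite W.toAffine.Point := by
  obtain ⟨C, hC⟩ := parallelogram W h1 h3
  have hN := northcott W h1 h3
  have hfi : (nsmulAddMonoidHom (α := W.toAffine.Point) 2).range.FiniteIndex := by
    have : Finite (W.toAffine.Point ⧸ (nsmulAddMonoidHom (α := W.toAffine.Point) 2).range) := by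
      have := hS.to_subtype
      refine Finite.of_surjective (fun T : S => (QuotientAddGroup.mk (T : W.toAffine.Point) :
        W.toAffine.Point ⧸ (nsmulAddMonoidHom (α := W.toAffine.Point) 2).range)) ?_
      intro q
      obtain ⟨P, rfl⟩ := QuotientAddGroup.mk_surjective q
      obtain ⟨T, hT, R, hR⟩ := h P
      refine ⟨⟨T, hT⟩, ?_⟩
      rw [QuotientAddGroup.eq]
      exact ⟨R, by rw [hR]; simp⟩
    exact AddSubgroup.finiteIndex_of_finite_quotient
  have hfg : AddGroup.FG W.toAffine.Point :=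
    AddCommGroup.fg_of_descent' hfi (fun x => ht_nonneg x) hC
  have htor : IsAddTorsion W.toAffine.Point := by
    apply torsion_of_fg hfg n hn
    intro P
    obtain ⟨T, hT, R, hR⟩ := h P
    refine ⟨R, ?_⟩
    rw [hR, smul_add, hSn T hT, zero_add, smul_smul, mul_comm]
  exact AddCommGroup.finite_of_fg_isAddTorsion _ htor

end Vale.Agent.P017.H185
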