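import Vale.Agent.P017.H185.Amb

namespace Vale.Agent.P017.H185

open jacobiSym

/-- reciprocity for integers `≡ 1 mod 4` -/
theorem J_recip {b : ℤ} (hb : b % 4 = 1) {n : ℕ} (hn : Odd n) :
    jacobiSym b n = jacobiSym n b.natAbs := by
  rcases Int.natAbs_eq b with h | h
  · rw [h]
    simp only [Int.natAbs_natCast]
    apply quadratic_reciprocity_one_mod_four _ hn
    omega
  · have h3 : b.natAbs % 4 = 3 := by omega
    have ho : Odd b.natAbs := Nat.odd_iff.mpr (by omega)
    obtain ⟨m, hm⟩ : ∃ m, m = b.natAbs := ⟨_, rfl⟩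
    rw [h, Int.natAbs_neg, Int.natAbs_natCast, ← hm]
    rw [← hm] at h3 ho
    rw [jacobiSym.neg _ hn]
    rcases Nat.odd_mod_four_iff.mp (Nat.odd_iff.mp hn) with h1 | h1
    · rw [ZMod.χ₄_nat_one_mod_four h1, one_mul, quadratic_reciprocity_one_mod_four' ho h1]
    · rw [ZMod.χ₄_nat_three_mod_four h1, quadratic_reciprocity_three_mod_four h3 h1]
      ring

theorem J_one_of_primes {a : ℤ} : ∀ {n : ℕ}, n ≠ 0 →
    (∀ p : ℕ, p.Prime → p ∣ n → jacobiSym a p = 1) → jacobiSym a n = 1 := by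
  intro n
  induction n using Nat.recOnMul with
  | zero => intro h; exact absurd rfl h
  | one => intro _ _; exact one_right a
  | prime p hp => intro _ h; exact h p hp dvd_rfl
  | mul m n hm hn =>
    intro h0 h
    have hm0 : m ≠ 0 := left_ne_zero_of_mul h0
    have hn0 : n ≠ 0 := right_ne_zero_of_mul h0
    have := NeZero.mk hm0
    have := NeZero.mk hn0
    rw [mul_right, hm hm0 (fun p hp hpm => h p hp (hpm.mul_right _)),
      hn hn0 (fun p hp hpm => h p hp (hpm.mul_left _)), one_mul]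

theorem J_prime_one {p : ℕ} (hp : p.Prime) {a : ℤ} (h1 : ¬ (p : ℤ) ∣ a)
    (h : IsSquare (a : ZMod p)) : jacobiSym a p = 1 := by
  have := Fact.mk hp
  rw [← legendreSym.to_jacobiSym]
  refine (legendreSym.eq_one_iff p ?_).mpr h
  rw [Ne, ZMod.intCast_zmod_eq_zero_iff_dvd]
  exact h1

theorem J_mod {a : ℤ} {n m : ℕ} (hn : Odd n) (hm : Odd m) (h : n % (4 * a.natAbs) = m % (4 * a.natAbs)) :
    jacobiSym a n = jacobiSym a m := by
  rw [mod_right a hn, mod_right a hm, h]

/-- existence of an odd `n` with symbol `-1` -/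
theorem exists_J_neg {a : ℤ} (ha : Squarefree a) (ha1 : a ≠ 1) :
    ∃ n : ℕ, Odd n ∧ jacobiSym a n = -1 := by
  by_cases hq : ∃ q : ℕ, q.Prime ∧ q ≠ 2 ∧ (q : ℤ) ∣ a
  · obtain ⟨q, hq, hq2, c, hc⟩ := hq
    have hc0 : c ≠ 0 := by rintro rfl; exact ha.ne_zero (by rw [hc]; ring)
    have hqc : ¬ q ∣ c.natAbs := by
      intro h
      rw [← Int.natCast_dvd] at h
      obtain ⟨e, he⟩ := h
      have h1 := ha q ⟨e, by rw [hc, he]; ring⟩
      rw [Int.isUnit_iff_natAbs_eq, Int.natAbs_natCast] at h1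
      exact hq.one_lt.ne' h1
    have hfq := Fact.mk hq
    have hqodd : Odd q := hq.odd_of_ne_two hq2
    obtain ⟨r, hr⟩ : ∃ r : ZMod q, ¬ IsSquare r := by
      apply FiniteField.exists_nonsquare
      rw [ZMod.ringChar_zmod_n]
      exact hq2
    have hcop : Nat.Coprime q (8 * c.natAbs) := by
      rw [Nat.Prime.coprime_iff_not_dvd hq]
      intro h
      rcases (Nat.Prime.dvd_mul hq).mp h with h | h
      · have : q ∣ 2 ^ 3 := by simpa using h
        have := hq.dvd_of_dvd_pow this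
        exact hq2 ((Nat.prime_dvd_prime_iff_eq hq Nat.prime_two).mp this)
      · exact hqc h
    obtain ⟨n, hn1, hn2⟩ := Nat.chineseRemainder hcop r.val 1
    have hn8 : n % 8 = 1 := by
      have h1 : n ≡ 1 [MOD 8] := hn2.of_dvd ⟨c.natAbs, rfl⟩
      exact h1
    have hodd : Odd n := Nat.odd_iff.mpr (by omega)
    refine ⟨n, hodd, ?_⟩
    rw [hc, mul_left]
    have h1 : jacobiSym c n = 1 := by
      have h2 : n % (4 * c.natAbs) = 1 % (4 * c.natAbs) :=
        hn2.of_dvd ⟨2, by ring⟩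
      rw [J_mod hodd (by decide : Odd 1) h2, one_right]
    have h2 : jacobiSym (q : ℤ) n = jacobiSym n q := (quadratic_reciprocity_one_mod_four
      (a := n) (b := q) (by omega) hqodd).symm
    rw [h1, h2, mul_one, ← legendreSym.to_jacobiSym]
    rw [legendreSym.eq_neg_one_iff]
    have h3 : ((n : ℤ) : ZMod q) = r := by
      have h4 := (ZMod.natCast_eq_natCast_iff _ _ _).mpr hn1
      push_cast
      rw [h4]; simp
    rw [h3]; exact hr
  · -- only the prime two divides a
    push Not at hq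
    have h2 : a = -1 ∨ a = 2 ∨ a = -2 := by
      have hn : a.natAbs = 1 ∨ a.natAbs = 2 := by
        have hsq : Squarefree a.natAbs := Int.squarefree_natAbs.mpr ha
        have hdvd : a.natAbs ∣ 2 := by
          rw [← Nat.prod_primeFactors_of_squarefree hsq]
          apply Finset.prod_primes_dvd
          · intro p hp; exact (Nat.prime_of_mem_primeFactors hp).prime
          · intro p hp
            have hp1 := Nat.prime_of_mem_primeFactors hp
            by_cases hp2 : p = 2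
            · rw [hp2]
            · exact absurd (Int.natCast_dvd.mpr (Nat.dvd_of_mem_primeFactors hp)) (hq p hp1 hp2)
        exact (Nat.dvd_prime Nat.prime_two).mp hdvd
      omega
    rcases h2 with rfl | rfl | rfl
    · exact ⟨3, by decide, by norm_num⟩
    · exact ⟨3, by decide, by norm_num⟩
    · exact ⟨5, by decide, by norm_num⟩

/-- Dirichlet: primes in the class of `n` modulo `4 m` -/
theorem exists_prime_class {n m : ℕ} (hm : m ≠ 0) (hn : Odd n) (hcop : Nat.Coprime n m) (B : ℕ) :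
    ∃ p > B, p.Prime ∧ Odd p ∧ ∀ a : ℤ, a.natAbs ∣ m → jacobiSym a p = jacobiSym a n := by
  have h4 : Nat.Coprime n (4 * m) := by
    apply Nat.Coprime.mul_right _ hcop
    rw [show 4 = 2 ^ 2 by norm_num]
    exact Nat.Coprime.pow_right 2 (Nat.coprime_two_right.mpr hn)
  have : NeZero (4 * m) := ⟨by positivity⟩
  obtain ⟨p, hp, hpp, hpn⟩ := Nat.forall_exists_prime_gt_and_eq_mod (q := 4 * m) (a := (n : ZMod (4 * m)))
    ((ZMod.isUnit_iff_coprime n (4 * m)).mpr h4) (max B 2)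
  have hpodd : Odd p := hpp.odd_of_ne_two (by
    have := le_max_right B 2
    omega)
  refine ⟨p, lt_of_le_of_lt (le_max_left _ _) hp, hpp, hpodd, ?_⟩
  intro a ha
  apply J_mod hpodd hn
  have h1 : p ≡ n [MOD 4 * m] := (ZMod.natCast_eq_natCast_iff _ _ _).mp hpn
  exact h1.of_dvd (Nat.mul_dvd_mul_left 4 ha)

theorem exists_prime_neg {a : ℤ} (ha : Squarefree a) (ha1 : a ≠ 1) (B : ℕ) :
    ∃ p > B, p.Prime ∧ Odd p ∧ jacobiSym a p = -1 := by
  obtain ⟨n, hn, hJ⟩ := exists_J_neg ha ha1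
  have hn0 : NeZero n := ⟨by rintro rfl; exact absurd hn (by decide)⟩
  have hcop : Nat.Coprime n a.natAbs := by
    by_contra hcon
    have : jacobiSym a n = 0 := by
      rw [eq_zero_iff_not_coprime, Int.gcd]
      intro h
      apply hcon
      rw [Int.natAbs_natCast] at h
      exact Nat.Coprime.symm h
    rw [this] at hJ; norm_num at hJ
  obtain ⟨p, hp, hpp, hpo, h⟩ := exists_prime_class (Int.natAbs_ne_zero.mpr ha.ne_zero) hn hcop B
  exact ⟨p, hp, hpp, hpo, by rw [h a dvd_rfl, hJ]⟩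

/-- a prime which is inert for both symbols -/
theorem exists_prime_neg_neg {a b : ℤ} (ha : Squarefree a) (ha1 : a ≠ 1) (hb : Squarefree b)
    (hb1 : b ≠ 1) (B : ℕ) :
    ∃ p > B, p.Prime ∧ Odd p ∧ jacobiSym a p = -1 ∧ jacobiSym b p = -1 := by
  obtain ⟨m, hm⟩ : ∃ m, m = a.natAbs * b.natAbs := ⟨_, rfl⟩
  have hm0 : m ≠ 0 := by
    rw [hm]
    exact mul_ne_zero (Int.natAbs_ne_zero.mpr ha.ne_zero) (Int.natAbs_ne_zero.mpr hb.ne_zero)
  have hcopp : ∀ p > m, p.Prime → ∀ c : ℤ, c.natAbs ∣ m → c.gcd p = 1 := by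
    intro p hp hpp c hc
    rw [Int.gcd, Int.natAbs_natCast]
    apply Nat.Coprime.symm
    rw [Nat.Prime.coprime_iff_not_dvd hpp]
    intro h
    exact absurd (Nat.le_of_dvd (Nat.pos_of_ne_zero hm0) (h.trans hc)) (by omega)
  have ham : a.natAbs ∣ m := ⟨b.natAbs, hm⟩
  have hbm : b.natAbs ∣ m := ⟨a.natAbs, by rw [hm]; ring⟩
  obtain ⟨p, hp, hpp, hpo, hpJ⟩ := exists_prime_neg ha ha1 (max B m)
  have hpB : p > B := lt_of_le_of_lt (le_max_left _ _) hp
  have hpm : p > m := lt_of_le_of_lt (le_max_right _ _) hp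
  rcases eq_one_or_neg_one (hcopp p hpm hpp b hbm) with h1 | h1
  swap
  · exact ⟨p, hpB, hpp, hpo, hpJ, h1⟩
  obtain ⟨r, hr, hrp, hro, hrJ⟩ := exists_prime_neg hb hb1 (max B m)
  have hrB : r > B := lt_of_le_of_lt (le_max_left _ _) hr
  have hrm : r > m := lt_of_le_of_lt (le_max_right _ _) hr
  rcases eq_one_or_neg_one (hcopp r hrm hrp a ham) with h2 | h2
  swap
  · exact ⟨r, hrB, hrp, hro, h2, hrJ⟩
  have hpr : Odd (p * r) := hpo.mul hro
  have hcop : Nat.Coprime (p * r) m := by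
    apply Nat.Coprime.mul_left
    · rw [Nat.Prime.coprime_iff_not_dvd hpp]
      intro h
      exact absurd (Nat.le_of_dvd (Nat.pos_of_ne_zero hm0) h) (by omega)
    · rw [Nat.Prime.coprime_iff_not_dvd hrp]
      intro h
      exact absurd (Nat.le_of_dvd (Nat.pos_of_ne_zero hm0) h) (by omega)
  obtain ⟨l, hl, hlp, hlo, hlJ⟩ := exists_prime_class hm0 hpr hcop B
  have := NeZero.mk hpp.ne_zero
  have := NeZero.mk hrp.ne_zero
  refine ⟨l, hl, hlp, hlo, ?_, ?_⟩
  · rw [hlJ a ham, mul_right, hpJ, h2]; norm_num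
  · rw [hlJ b hbm, mul_right, h1, hrJ]; norm_num

end Vale.Agent.P017.H185
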