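import Vale.Agent.P017.H185.Jac

namespace Vale.Agent.P017.H185

open jacobiSym

theorem gcd_one_of_primes {c : ℤ} {n : ℕ}
    (h : ∀ p : ℕ, p.Prime → p ∣ n → ¬ (p : ℤ) ∣ c) : c.gcd n = 1 := by
  rw [Int.gcd, Int.natAbs_natCast]
  apply Nat.Coprime.symm
  exact Nat.coprime_of_dvd (fun p hp hpn hpc => h p hp hpn (Int.natCast_dvd.mpr hpc))

/-- reduction to a primitive solution -/
theorem exists_primitive (d m : ℤ) : ∀ (k : ℕ) (X Y W : ℤ), k = W.natAbs → W ≠ 0 →
    X ^ 2 + d * Y ^ 2 = m * W ^ 2 →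
    ∃ X' Y' W' : ℤ, W' ≠ 0 ∧ X' ^ 2 + d * Y' ^ 2 = m * W' ^ 2 ∧
      ∀ p : ℕ, p.Prime → ¬ ((p : ℤ) ∣ X' ∧ (p : ℤ) ∣ Y' ∧ (p : ℤ) ∣ W') := by
  intro k
  induction k using Nat.strong_induction_on with
  | _ k ih =>
    intro X Y W hk hW h
    by_cases hex : ∃ p : ℕ, p.Prime ∧ (p : ℤ) ∣ X ∧ (p : ℤ) ∣ Y ∧ (p : ℤ) ∣ W
    · obtain ⟨p, hp, ⟨X', hX⟩, ⟨Y', hY⟩, ⟨W', hWW⟩⟩ := hex
      have hp0 : (p : ℤ) ≠ 0 := by exact_mod_cast hp.ne_zero
      have hW' : W' ≠ 0 := by rintro rfl; apply hW; rw [hWW]; ring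
      refine ih W'.natAbs ?_ X' Y' W' rfl hW' ?_
      · rw [hk, hWW, Int.natAbs_mul, Int.natAbs_natCast]
        have := Int.natAbs_pos.mpr hW'
        nlinarith [hp.two_le]
      · apply mul_left_cancel₀ (pow_ne_zero 2 hp0)
        rw [hX, hY, hWW] at h
        linear_combination h
    · push Not at hex
      exact ⟨X, Y, W, hW, h, fun p hp h => hex p hp h.1 h.2.1 h.2.2⟩

theorem sqf_dvd_of_primes {g : ℕ} (hg : Squarefree g) {X : ℤ}
    (h : ∀ p : ℕ, p.Prime → p ∣ g → (p : ℤ) ∣ X) : (g : ℤ) ∣ X := by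
  rw [Int.natCast_dvd, ← Nat.prod_primeFactors_of_squarefree hg]
  apply Finset.prod_primes_dvd
  · intro p hp; exact (Nat.prime_of_mem_primeFactors hp).prime
  · intro p hp
    exact Int.natCast_dvd.mp (h p (Nat.prime_of_mem_primeFactors hp) (Nat.dvd_of_mem_primeFactors hp))

theorem sq_one_cases {x : ℤ} (h : x = 1 ∨ x = -1) : x * x = 1 := by
  rcases h with rfl | rfl <;> norm_num

set_option maxHeartbeats 2000000 in
/-- **The genus character of `b` vanishes on `l`** whenever `l a` is a norm from `ℚ(√-d)`, `a`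
squarefree supported on ramified primes, and `b` is locally trivial at the ramified primes. -/
theorem jac_main {d : ℕ} (hd : Squarefree d) {b b' : ℤ} (hbb : b * b' = -(d : ℤ)) (hb4 : b % 4 = 1)
    {a l : ℕ} (ha : Squarefree a) (hram : ∀ p : ℕ, p.Prime → p ∣ a → Ram d p)
    (h2 : 2 ∣ a → b % 8 = 1) (hlo : Odd l) (hlp : l.Prime) (hld : ¬ l ∣ d)
    (loc1 : ∀ p : ℕ, p.Prime → p ≠ 2 → (p : ℤ) ∣ b → IsSquare (b' : ZMod p))
    (loc2 : ∀ p : ℕ, p.Prime → p ≠ 2 → (p : ℤ) ∣ b' → IsSquare (b : ZMod p))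
    {X Y W : ℤ} (hW : W ≠ 0) (h : X ^ 2 + d * Y ^ 2 = (l * a : ℕ) * W ^ 2) :
    jacobiSym b l = 1 := by
  obtain ⟨X, Y, W, hW, h, hprim⟩ := exists_primitive _ _ _ X Y W rfl hW h
  obtain ⟨b0, hb0⟩ : ∃ b0, b0 = b.natAbs := ⟨_, rfl⟩
  obtain ⟨c, hc⟩ : ∃ c, c = b'.natAbs := ⟨_, rfl⟩
  have hdbc : d = b0 * c := by
    have := congrArg Int.natAbs hbb
    rw [Int.natAbs_mul, Int.natAbs_neg, Int.natAbs_natCast] at this
    rw [hb0, hc, this]
  have hb0odd : Odd b0 := Nat.odd_iff.mpr (by omega)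
  have hb0d : b0 ∣ d := ⟨c, hdbc⟩
  have hb0sq : Squarefree b0 := hd.squarefree_of_dvd hb0d
  have hdbc' := hd
  rw [hdbc] at hdbc'
  have hcopbc : Nat.Coprime b0 c := Nat.coprime_of_squarefree_mul hdbc'
  obtain ⟨g, hg⟩ : ∃ g, g = Nat.gcd b0 a := ⟨_, rfl⟩
  obtain ⟨b1, hb1⟩ : g ∣ b0 := by rw [hg]; exact Nat.gcd_dvd_left _ _
  obtain ⟨α, hα⟩ : g ∣ a := by rw [hg]; exact Nat.gcd_dvd_right _ _
  have hg0 : g ≠ 0 := by rintro rfl; rw [zero_mul] at hb1; exact hb0sq.ne_zero hb1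
  have hb10 : b1 ≠ 0 := by rintro rfl; rw [mul_zero] at hb1; exact hb0sq.ne_zero hb1
  have hα0 : α ≠ 0 := by rintro rfl; rw [mul_zero] at hα; exact ha.ne_zero hα
  have hgodd : Odd g := Nat.Odd.of_mul_right (m := b1) (by rw [mul_comm, ← hb1]; exact hb0odd) |>.elim
    (fun k hk => ⟨k, hk⟩)
  have hb1odd : Odd b1 := by
    rw [hb1] at hb0odd
    exact (Nat.odd_mul.mp hb0odd).2
  have hgsq : Squarefree g := hb0sq.squarefree_of_dvd ⟨b1, hb1⟩
  have hnsq : ∀ {p n : ℕ}, p.Prime → Squarefree n → ¬ p * p ∣ n := by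
    intro p n hp hn hdvd
    exact hp.one_lt.ne' (Nat.isUnit_iff.mp (hn p hdvd))
  -- coprimality facts, in terms of primes
  have c1 : ∀ p : ℕ, p.Prime → p ∣ b1 → ¬ p ∣ a := by
    intro p hp hpb hpa
    have hpg : p ∣ g := by
      rw [hg]; exact Nat.dvd_gcd (hb1 ▸ hpb.mul_left g) hpa
    exact hnsq hp hb0sq (hb1 ▸ Nat.mul_dvd_mul hpg hpb)
  have c2 : ∀ p : ℕ, p.Prime → p ∣ α → ¬ p ∣ b0 := by
    intro p hp hpa hpb
    have hpg : p ∣ g := by
      rw [hg]; exact Nat.dvd_gcd hpb (hα ▸ hpa.mul_left g)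
    exact hnsq hp ha (hα ▸ Nat.mul_dvd_mul hpg hpa)
  have hpZ : ∀ {p : ℕ}, p.Prime → Prime (p : ℤ) := fun hp => Nat.prime_iff_prime_int.mp hp
  have hlne : ∀ p : ℕ, p.Prime → p ∣ d → ¬ p ∣ l := by
    intro p hp hpd hpl
    have := (Nat.prime_dvd_prime_iff_eq hp hlp).mp hpl
    rw [this] at hpd; exact hld hpd
  -- a prime dividing `d` divides not both `W` ...
  have hWp : ∀ p : ℕ, p.Prime → p ∣ d → ¬ (p : ℤ) ∣ W := by
    intro p hp hpd hpW
    obtain ⟨δ, hδ⟩ := hpd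
    have hXp : (p : ℤ) ∣ X := by
      apply (hpZ hp).dvd_of_dvd_pow (n := 2)
      have e : X ^ 2 = (l * a : ℕ) * W ^ 2 - d * Y ^ 2 := by linarith
      rw [e]
      apply dvd_sub
      · exact (Dvd.dvd.pow hpW two_ne_zero).mul_left _
      · rw [hδ]; push_cast; exact ⟨δ * Y ^ 2, by ring⟩
    have hYp : (p : ℤ) ∣ Y := by
      obtain ⟨X1, hX1⟩ := hXp
      obtain ⟨W1, hW1⟩ := hpW
      have e : (p : ℤ) * (p * X1 ^ 2 - (l * a : ℕ) * (p * W1 ^ 2)) = p * (- δ * Y ^ 2) := by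
        rw [hX1, hW1, hδ] at h
        push_cast at h ⊢
        linear_combination h
      have e2 := mul_left_cancel₀ (hpZ hp).ne_zero e
      have e3 : (p : ℤ) ∣ -δ * Y ^ 2 := by
        rw [← e2]; exact ⟨X1 ^ 2 - (l * a : ℕ) * W1 ^ 2, by ring⟩
      rcases (hpZ hp).dvd_or_dvd e3 with h3 | h3
      · exfalso
        rw [Int.dvd_neg, Int.natCast_dvd_natCast] at h3
        exact hnsq hp hd (hδ ▸ Nat.mul_dvd_mul_left p h3)
      · exact (hpZ hp).dvd_of_dvd_pow h3
    exact hprim p hp ⟨hXp, hYp, hpW⟩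
  have hb1d : b1 ∣ d := by rw [hdbc, hb1]; exact ⟨g * c, by ring⟩
  have hgd : g ∣ d := by rw [hdbc, hb1]; exact ⟨b1 * c, by ring⟩
  -- equation modulo b1
  have hXb1 : ∀ p : ℕ, p.Prime → p ∣ b1 → ¬ (p : ℤ) ∣ X := by
    intro p hp hpb hpX
    have hpd := hpb.trans hb1d
    have e : (p : ℤ) ∣ (l * a : ℕ) * W ^ 2 := by
      rw [← h]
      apply dvd_add
      · exact Dvd.dvd.pow hpX two_ne_zero
      · exact (Int.natCast_dvd_natCast.mpr hpd).mul_right _
    rcases (hpZ hp).dvd_or_dvd e with e | e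
    · rw [Int.natCast_dvd_natCast] at e
      rcases (Nat.Prime.dvd_mul hp).mp e with e | e
      · exact hlne p hp hpd e
      · exact c1 p hp hpb e
    · exact hWp p hp hpd ((hpZ hp).dvd_of_dvd_pow e)
  have gX : X.gcd b1 = 1 := gcd_one_of_primes hXb1
  have gW1 : W.gcd b1 = 1 := gcd_one_of_primes (fun p hp hpb => hWp p hp (hpb.trans hb1d))
  have E2 : jacobiSym l b1 * (jacobiSym g b1 * jacobiSym α b1) = 1 := by
    have e1 : jacobiSym (X ^ 2) b1 = jacobiSym ((l * a : ℕ) * W ^ 2) b1 := by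
      apply mod_left'
      apply Int.emod_emod_of_dvd _ (dvd_refl _) |>.symm.trans _
      rw [← h]
      obtain ⟨k, hk⟩ := hb1d
      rw [hk]
      push_cast
      rw [show X ^ 2 + (b1 : ℤ) * k * Y ^ 2 = X ^ 2 + b1 * (k * Y ^ 2) by ring,
        Int.add_mul_emod_self_left]
      simp
    rw [sq_one' gX, mul_left, sq_one' gW1, mul_one, hα] at e1
    push_cast at e1
    rw [mul_left, mul_left] at e1
    exact e1.symm
  -- primes dividing g
  have hXg : ∀ p : ℕ, p.Prime → p ∣ g → (p : ℤ) ∣ X := by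
    intro p hp hpg
    apply (hpZ hp).dvd_of_dvd_pow (n := 2)
    have e : X ^ 2 = (l * a : ℕ) * W ^ 2 - d * Y ^ 2 := by linarith
    rw [e]
    apply dvd_sub
    · apply Dvd.dvd.mul_right
      rw [Int.natCast_dvd_natCast, hα]
      exact (hpg.mul_right α).mul_left l
    · exact (Int.natCast_dvd_natCast.mpr (hpg.trans hgd)).mul_right _
  obtain ⟨X1, hX1⟩ := sqf_dvd_of_primes hgsq hXg
  have hgZ : (g : ℤ) ≠ 0 := by exact_mod_cast hg0
  have hg2 : (g : ℤ) * X1 ^ 2 + (b1 * c : ℤ) * Y ^ 2 = (l * α : ℤ) * W ^ 2 := by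
    apply mul_left_cancel₀ hgZ
    rw [hX1, hdbc, hb1, hα] at h
    push_cast at h
    linear_combination h
  have gWg : W.gcd g = 1 := gcd_one_of_primes (fun p hp hpb => hWp p hp (hpb.trans hgd))
  have cαg : ∀ p : ℕ, p.Prime → p ∣ g → ¬ p ∣ α := fun p hp hpg hpα =>
    c2 p hp hpα (hb1 ▸ hpg.mul_right b1)
  have gYg : Y.gcd g = 1 := by
    apply gcd_one_of_primes
    intro p hp hpg hpY
    have e : (p : ℤ) ∣ (l * α : ℤ) * W ^ 2 := by
      rw [← hg2]
      apply dvd_add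
      · exact (Int.natCast_dvd_natCast.mpr hpg).mul_right _
      · exact (Dvd.dvd.pow hpY two_ne_zero).mul_left _
    rcases (hpZ hp).dvd_or_dvd e with e | e
    · rcases (hpZ hp).dvd_or_dvd e with e | e
      · exact hlne p hp (hpg.trans hgd) (Int.natCast_dvd_natCast.mp e)
      · exact cαg p hp hpg (Int.natCast_dvd_natCast.mp e)
    · exact hWp p hp (hpg.trans hgd) ((hpZ hp).dvd_of_dvd_pow e)
  have E1 : jacobiSym b1 g * jacobiSym c g = jacobiSym l g * jacobiSym α g := by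
    have e1 : jacobiSym ((b1 * c : ℤ) * Y ^ 2) g = jacobiSym ((l * α : ℤ) * W ^ 2) g := by
      apply mod_left'
      rw [← hg2, add_comm, Int.add_mul_emod_self_left]
    rw [mul_left, mul_left _ (W ^ 2), sq_one' gWg, sq_one' gYg, mul_one, mul_one, mul_left,
      mul_left] at e1
    exact e1
  -- values are ±1
  have vlg := eq_one_or_neg_one (a := (l : ℤ)) (b := g) (gcd_one_of_primes (fun p hp hpg e =>
    hlne p hp (hpg.trans hgd) (Int.natCast_dvd_natCast.mp e)))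
  have vlb := eq_one_or_neg_one (a := (l : ℤ)) (b := b1) (gcd_one_of_primes (fun p hp hpg e =>
    hlne p hp (hpg.trans hb1d) (Int.natCast_dvd_natCast.mp e)))
  have vαg := eq_one_or_neg_one (a := (α : ℤ)) (b := g) (gcd_one_of_primes (fun p hp hpg e =>
    cαg p hp hpg (Int.natCast_dvd_natCast.mp e)))
  have vαb := eq_one_or_neg_one (a := (α : ℤ)) (b := b1) (gcd_one_of_primes (fun p hp hpb e =>
    c2 p hp (Int.natCast_dvd_natCast.mp e) (hb1 ▸ hpb.mul_left g)))
  have cgb : ∀ p : ℕ, p.Prime → p ∣ g → ¬ p ∣ b1 := fun p hp hpg hpb =>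
    hnsq hp hb0sq (hb1 ▸ Nat.mul_dvd_mul hpg hpb)
  have vgb := eq_one_or_neg_one (a := (g : ℤ)) (b := b1) (gcd_one_of_primes (fun p hp hpb e =>
    cgb p hp (Int.natCast_dvd_natCast.mp e) hpb))
  have vbg := eq_one_or_neg_one (a := (b1 : ℤ)) (b := g) (gcd_one_of_primes (fun p hp hpg e =>
    cgb p hp hpg (Int.natCast_dvd_natCast.mp e)))
  -- E4
  have hneg0 := NeZero.mk hg0
  have hneb1 := NeZero.mk hb10
  have E4 : jacobiSym α g * jacobiSym α b1 = 1 := by
    rw [← mul_right, ← hb1]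
    -- odd part of α
    have hodd : ∀ {n : ℕ}, n ∣ α → Odd n → jacobiSym n b0 = 1 := by
      intro n hn hno
      rw [hb0, ← J_recip hb4 hno]
      have hn0 : n ≠ 0 := by rintro rfl; exact hα0 (Nat.eq_zero_of_zero_dvd hn)
      apply J_one_of_primes hn0
      intro p hp hpn
      have hp2 : p ≠ 2 := by
        rintro rfl
        exact absurd hno (by rw [Nat.not_odd_iff_even]; exact (even_iff_two_dvd.mpr hpn))
      have hpb0 := c2 p hp (hpn.trans hn)
      have hpd : p ∣ d := by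
        rcases hram p hp (hα ▸ (hpn.trans hn).mul_left g) with h | h
        · exact h
        · exact absurd h.1 hp2
      have hpc : p ∣ c := by
        rw [hdbc] at hpd
        exact ((Nat.Prime.dvd_mul hp).mp hpd).resolve_left hpb0
      apply J_prime_one hp
      · rw [Int.natCast_dvd, ← hb0]; exact hpb0
      · exact loc2 p hp hp2 (by rw [Int.natCast_dvd, ← hc]; exact hpc)
    by_cases hα2 : 2 ∣ α
    · obtain ⟨α1, hα1⟩ := hα2
      have hα1o : Odd α1 := by
        rw [← Nat.not_even_iff_odd]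
        intro he
        obtain ⟨k, hk⟩ := even_iff_two_dvd.mp he
        exact hnsq Nat.prime_two ha (by rw [hα, hα1, hk]; exact ⟨g * k, by ring⟩)
      have hb8 := h2 (by rw [hα, hα1]; exact ⟨g * α1, by ring⟩)
      rw [hα1]
      push_cast
      rw [mul_left, hodd ⟨2, by rw [hα1]; ring⟩ hα1o, mul_one]
      have : jacobiSym 2 b0 = ZMod.χ₈ b0 := at_two hb0odd
      rw [this, ZMod.χ₈_nat_eq_if_mod_eight]
      have hb08 : b0 % 8 = 1 ∨ b0 % 8 = 7 := by omega
      rw [if_neg (by omega), if_pos hb08]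
    · exact hodd dvd_rfl (by rw [← Nat.not_even_iff_odd, even_iff_two_dvd]; exact hα2)
  -- E3
  have E3 : jacobiSym b' g = 1 := by
    apply J_one_of_primes hg0
    intro p hp hpg
    have hpb : p ∣ b0 := hb1 ▸ hpg.mul_right b1
    have hp2 : p ≠ 2 := by
      rintro rfl
      exact absurd hb0odd (by rw [Nat.not_odd_iff_even]; exact (even_iff_two_dvd.mpr hpb))
    apply J_prime_one hp
    · rw [Int.natCast_dvd, ← hc]
      intro hpc
      exact hnsq hp hd (hdbc ▸ Nat.mul_dvd_mul hpb hpc)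
    · exact loc1 p hp hp2 (by rw [Int.natCast_dvd, ← hb0]; exact hpb)
  -- reciprocity and signs
  have E5 : jacobiSym b1 g * jacobiSym g b1 * jacobiSym c g = 1 := by
    have hb0mod : b0 % 4 = (g % 4) * (b1 % 4) % 4 := by rw [hb1, Nat.mul_mod]
    rcases lt_or_ge b 0 with hneg | hpos
    · have hb'pos : 0 < b' := by
        by_contra hcon
        have hd0 : (0 : ℤ) < d := by exact_mod_cast Nat.pos_of_ne_zero hd.ne_zero
        nlinarith
      have hcb : (c : ℤ) = b' := by rw [hc]; exact Int.natAbs_of_nonneg hb'pos.le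
      rw [hcb, E3, mul_one]
      have h3 : b0 % 4 = 3 := by omega
      have hgm := Nat.odd_mod_four_iff.mp (Nat.odd_iff.mp hgodd)
      have hbm := Nat.odd_mod_four_iff.mp (Nat.odd_iff.mp hb1odd)
      rcases hgm with hgm | hgm
      · rw [← quadratic_reciprocity_one_mod_four hgm hb1odd]
        exact sq_one_cases vgb
      · rcases hbm with hbm | hbm
        · rw [quadratic_reciprocity_one_mod_four hbm hgodd]
          exact sq_one_cases vgb
        · rw [hgm, hbm] at hb0mod; omega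
    · have hb0' : (b0 : ℤ) = b := by rw [hb0]; exact Int.natAbs_of_nonneg hpos
      have hd0 : (0 : ℤ) < d := by exact_mod_cast Nat.pos_of_ne_zero hd.ne_zero
      have hb'neg : b' < 0 := by
        by_contra hcon
        push Not at hcon
        nlinarith [mul_nonneg hpos hcon]
      have hcb : b' = -(c : ℤ) := by rw [hc]; omega
      rw [hcb, jacobiSym.neg _ hgodd] at E3
      have h3 : b0 % 4 = 1 := by omega
      have hgm := Nat.odd_mod_four_iff.mp (Nat.odd_iff.mp hgodd)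
      have hbm := Nat.odd_mod_four_iff.mp (Nat.odd_iff.mp hb1odd)
      rcases hgm with hgm | hgm
      · rw [ZMod.χ₄_nat_one_mod_four hgm, one_mul] at E3
        rw [E3, mul_one, ← quadratic_reciprocity_one_mod_four hgm hb1odd]
        exact sq_one_cases vgb
      · rcases hbm with hbm | hbm
        · rw [hgm, hbm] at hb0mod; omega
        · rw [ZMod.χ₄_nat_three_mod_four hgm] at E3
          have e6 : jacobiSym c g = -1 := by linarith
          rw [e6, quadratic_reciprocity_three_mod_four hbm hgm]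
          have := sq_one_cases vgb
          linarith
  -- conclusion
  rw [J_recip hb4 hlo, ← hb0, hb1, mul_right]
  generalize jacobiSym (l : ℤ) g = x1 at *
  generalize jacobiSym (l : ℤ) b1 = x2 at *
  generalize jacobiSym (α : ℤ) g = x3 at *
  generalize jacobiSym (α : ℤ) b1 = x4 at *
  generalize jacobiSym (g : ℤ) b1 = x5 at *
  generalize jacobiSym (b1 : ℤ) g = x6 at *
  generalize jacobiSym (c : ℤ) g = x7 at *
  have e1 : x1 = x6 * x7 * x3 := by
    rw [E1, mul_assoc, sq_one_cases vαg, mul_one]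
  have e2 : x2 = x5 * x4 := by
    have : x2 * (x5 * x4) * (x5 * x4) = x5 * x4 := by rw [E2, one_mul]
    rw [mul_assoc, mul_mul_mul_comm, sq_one_cases vgb, sq_one_cases vαb, one_mul, mul_one] at this
    exact this
  rw [e1, e2]
  calc x6 * x7 * x3 * (x5 * x4) = (x6 * x5 * x7) * (x3 * x4) := by ring
    _ = 1 := by rw [E5, E4, one_mul]

end Vale.Agent.P017.H185
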