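import Vale.Agent.P017.H185.QF

namespace Vale.Agent.P017.H185

/-- parity of valuations -/
theorem parity {p : ℕ} (hp : p.Prime) {i j : ℕ} {C β N : ℤ} (hC : ¬ (p : ℤ) ∣ C)
    (hβ : ¬ (p : ℤ) ∣ β) (h : (p : ℤ) ^ i * C = (p : ℤ) ^ j * β * N ^ 2) : i % 2 = j % 2 := by
  have hp' : Prime (p : ℤ) := Nat.prime_iff_prime_int.mp hp
  have hC0 : C ≠ 0 := by rintro rfl; exact hC (dvd_zero _)
  have hβ0 : β ≠ 0 := by rintro rfl; exact hβ (dvd_zero _)
  have hN0 : N ≠ 0 := by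
    rintro rfl
    have : (p : ℤ) ^ i * C = 0 := by rw [h]; ring
    rcases mul_eq_zero.mp this with h | h
    · exact pow_ne_zero i hp'.ne_zero h
    · exact hC0 h
  obtain ⟨k, N', hN', hNk⟩ := (FiniteMultiplicity.exists_eq_pow_mul_and_not_dvd
    (Int.finiteMultiplicity_iff.mpr ⟨by
      rw [Int.natAbs_natCast]; exact hp.one_lt.ne', hN0⟩) : ∃ c, _) |> fun ⟨c, hc⟩ => (⟨_, c, hc.2, hc.1⟩ :
        ∃ k : ℕ, ∃ c : ℤ, ¬ (p : ℤ) ∣ c ∧ N = (p : ℤ) ^ k * c)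
  have h2 : (p : ℤ) ^ i * C = (p : ℤ) ^ (j + 2 * k) * (β * N' ^ 2) := by
    rw [h, hNk]; ring
  have hnd : ¬ (p : ℤ) ∣ β * N' ^ 2 := by
    intro h3
    rcases hp'.dvd_or_dvd h3 with h3 | h3
    · exact hβ h3
    · exact hN' (hp'.dvd_of_dvd_pow h3)
  have heq : i = j + 2 * k := by
    rcases lt_trichotomy i (j + 2 * k) with hlt | heq | hgt
    · exfalso
      obtain ⟨r, hr⟩ := Nat.exists_eq_add_of_lt hlt
      rw [hr, show i + r + 1 = i + (r + 1) by ring, pow_add, mul_assoc] at h2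
      have h4 := mul_left_cancel₀ (pow_ne_zero i hp'.ne_zero) h2
      apply hC
      rw [h4, pow_succ]
      exact ⟨(p : ℤ) ^ r * (β * N' ^ 2), by ring⟩
    · exact heq
    · exfalso
      obtain ⟨r, hr⟩ := Nat.exists_eq_add_of_lt hgt
      rw [hr, show j + 2 * k + r + 1 = (j + 2 * k) + (r + 1) by ring, pow_add, mul_assoc] at h2
      have h4 := mul_left_cancel₀ (pow_ne_zero (j + 2 * k) hp'.ne_zero) h2
      apply hnd
      rw [← h4, pow_succ]
      exact ⟨(p : ℤ) ^ r * C, by ring⟩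
  omega

/-- every nonzero rational is a squarefree integer times the square of a reduced fraction -/
theorem exists_sqf {X : ℚ} (hX : X ≠ 0) : ∃ b M e : ℤ, Squarefree b ∧ IsCoprime M e ∧ M ≠ 0 ∧
    e ≠ 0 ∧ X = b * (M / e : ℚ) ^ 2 := by
  have hn0 : X.num.natAbs * X.den ≠ 0 :=
    mul_ne_zero (Int.natAbs_ne_zero.mpr (Rat.num_ne_zero.mpr hX)) X.den_ne_zero
  obtain ⟨a, k, hak, ha⟩ := Nat.sq_mul_squarefree (X.num.natAbs * X.den)
  have hk0 : k ≠ 0 := by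
    rintro rfl
    apply hn0; rw [← hak]; ring
  have hden : (X.den : ℚ) ≠ 0 := by exact_mod_cast X.den_ne_zero
  have hkd : ((k : ℚ) / X.den) ≠ 0 := by positivity
  refine ⟨X.num.sign * a, ((k : ℚ) / X.den).num, ((k : ℚ) / X.den).den, ?_, ?_, ?_, ?_, ?_⟩
  · have h1 : IsUnit X.num.sign := by
      rcases lt_trichotomy X.num 0 with h | h | h
      · rw [Int.sign_eq_neg_one_of_neg h]; exact isUnit_one.neg
      · exact absurd h (Rat.num_ne_zero.mpr hX)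
      · rw [Int.sign_eq_one_of_pos h]; exact isUnit_one
    obtain ⟨u, hu⟩ := h1
    rw [← hu]
    exact (Associated.squarefree_iff ⟨u, mul_comm _ _⟩).mp (Int.squarefree_natCast.mpr ha)
  · rw [Int.isCoprime_iff_gcd_eq_one]
    exact ((k : ℚ) / X.den).reduced
  · exact Rat.num_ne_zero.mpr hkd
  · exact_mod_cast ((k : ℚ) / X.den).den_ne_zero
  · have h2 : (((k : ℚ) / X.den).num : ℚ) / (((k : ℚ) / X.den).den : ℤ) = (k : ℚ) / X.den := by
      have := Rat.num_div_den ((k : ℚ) / X.den)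
      push_cast
      exact this
    rw [h2]
    have h3 : ((X.num.natAbs : ℤ) : ℚ) * X.den = (k : ℚ) ^ 2 * a := by
      exact_mod_cast hak.symm
    have h4 : (X.num.sign : ℚ) * ((X.num.natAbs : ℤ) : ℚ) = X.num := by
      exact_mod_cast Int.sign_mul_natAbs X.num
    have h5 : X = X.num / X.den := (Rat.num_div_den X).symm
    push_cast at h3 h4 ⊢
    conv_lhs => rw [h5]
    rw [div_pow, ← mul_div_assoc, div_eq_div_iff hden (by positivity)]
    linear_combination (-(X.den : ℚ)^2) * h4 + (X.num.sign : ℚ) * X.den * h3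

/-- passing to an integral equation -/
theorem exists_int_eq {X Y : ℚ} {α β b M e : ℤ} (hb : Squarefree b) (hM : M ≠ 0) (he : e ≠ 0)
    (hX : X = b * (M / e : ℚ) ^ 2) (h : Y ^ 2 = X * (X + α) * (X + β)) :
    ∃ N : ℤ, (b * M ^ 2 + α * e ^ 2) * (b * M ^ 2 + β * e ^ 2) = b * N ^ 2 := by
  have hMQ : (M : ℚ) ≠ 0 := by exact_mod_cast hM
  have heQ : (e : ℚ) ≠ 0 := by exact_mod_cast he
  have hb0 : b ≠ 0 := hb.ne_zero
  have h1 : (Y * e ^ 3 / M) ^ 2 =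
      ((b * ((b * M ^ 2 + α * e ^ 2) * (b * M ^ 2 + β * e ^ 2)) : ℤ) : ℚ) := by
    push_cast
    rw [div_pow, mul_pow, h, hX]
    field_simp
  obtain ⟨Z, hZ⟩ := QF.int_of_sq_mul (d := 1) squarefree_one
    (r := Y * e ^ 3 / M) (n := b * ((b * M ^ 2 + α * e ^ 2) * (b * M ^ 2 + β * e ^ 2))) (by
      rw [← h1]; simp)
  rw [hZ] at h1
  have h2 : Z ^ 2 = b * ((b * M ^ 2 + α * e ^ 2) * (b * M ^ 2 + β * e ^ 2)) := by exact_mod_cast h1
  have h3 : b ∣ Z := (hb.dvd_pow_iff_dvd two_ne_zero).mp ⟨_, h2⟩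
  obtain ⟨N, hN⟩ := h3
  refine ⟨N, ?_⟩
  apply mul_left_cancel₀ hb0
  rw [← h2, hN]; ring

section local_analysis

variable {b d M e N : ℤ}

theorem not_dvd_of_sqf {p : ℕ} (hp : p.Prime) (hb : Squarefree b) {β : ℤ} (h : b = p * β) :
    ¬ (p : ℤ) ∣ β := by
  rintro ⟨c, hc⟩
  have h1 := hb p ⟨c, by rw [h, hc]; ring⟩
  rw [Int.isUnit_iff_natAbs_eq, Int.natAbs_natCast] at h1
  exact hp.one_lt.ne' h1

/-- primes dividing the class, general shape -/
theorem prime_dvd_gen {p : ℕ} (hp : p.Prime) {α₁ α₂ : ℤ} (hb : Squarefree b) (hMe : IsCoprime M e)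
    (h : (b * M ^ 2 + α₁ * e ^ 2) * (b * M ^ 2 + α₂ * e ^ 2) = b * N ^ 2)
    (hpb : (p : ℤ) ∣ b) (h1 : ¬ (p : ℤ) ∣ α₁) (h2 : ¬ (p : ℤ) ∣ α₂) : False := by
  have hp' : Prime (p : ℤ) := Nat.prime_iff_prime_int.mp hp
  obtain ⟨β, hβ⟩ := hpb
  have hβ' := not_dvd_of_sqf hp hb hβ
  by_cases hpe : (p : ℤ) ∣ e
  · obtain ⟨f, hf⟩ := hpe
    have hpM : ¬ (p : ℤ) ∣ M := by
      intro hM
      exact hp'.not_isUnit (hMe.isUnit_of_dvd' hM ⟨f, hf⟩)
    have hβM : ¬ (p : ℤ) ∣ β * M ^ 2 := by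
      intro h3
      rcases hp'.dvd_or_dvd h3 with h3 | h3
      · exact hβ' h3
      · exact hpM (hp'.dvd_of_dvd_pow h3)
    have hC : ¬ (p : ℤ) ∣ (β * M ^ 2 + α₁ * p * f ^ 2) * (β * M ^ 2 + α₂ * p * f ^ 2) := by
      intro h3
      rcases hp'.dvd_or_dvd h3 with h3 | h3
      · exact hβM ((dvd_add_left ⟨α₁ * f ^ 2, by ring⟩).mp h3)
      · exact hβM ((dvd_add_left ⟨α₂ * f ^ 2, by ring⟩).mp h3)
    have := parity hp (i := 2) (j := 1) (N := N) hC hβ' (by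
      rw [hβ, hf] at h
      linear_combination h)
    omega
  · have hC : ¬ (p : ℤ) ∣ (b * M ^ 2 + α₁ * e ^ 2) * (b * M ^ 2 + α₂ * e ^ 2) := by
      intro h3
      rcases hp'.dvd_or_dvd h3 with h3 | h3
      · have := (dvd_add_right (⟨β * M ^ 2, by rw [hβ]; ring⟩ : (p : ℤ) ∣ b * M ^ 2)).mp h3
        rcases hp'.dvd_or_dvd this with h4 | h4
        · exact h1 h4
        · exact hpe (hp'.dvd_of_dvd_pow h4)
      · have := (dvd_add_right (⟨β * M ^ 2, by rw [hβ]; ring⟩ : (p : ℤ) ∣ b * M ^ 2)).mp h3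
        rcases hp'.dvd_or_dvd this with h4 | h4
        · exact h2 h4
        · exact hpe (hp'.dvd_of_dvd_pow h4)
    have := parity hp (i := 0) (j := 1) (N := N) hC hβ' (by
      rw [h, hβ]; ring)
    omega

end local_analysis

end Vale.Agent.P017.H185
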