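import Vale.Agent.P017.H185.Loc

namespace Vale.Agent.P017.H185

section
variable {b d M e N : ℤ}

theorem zero_iff {p : ℕ} {x : ℤ} : (x : ZMod p) = 0 ↔ (p : ℤ) ∣ x :=
  ZMod.intCast_zmod_eq_zero_iff_dvd x p

theorem ne_iff {p : ℕ} {x : ℤ} : (x : ZMod p) ≠ 0 ↔ ¬ (p : ℤ) ∣ x := not_congr zero_iff

theorem cop_ndvd {p : ℕ} (hp : p.Prime) (hMe : IsCoprime M e) (he : (p : ℤ) ∣ e) :
    ¬ (p : ℤ) ∣ M := fun hM =>
  (Nat.prime_iff_prime_int.mp hp).not_isUnit (hMe.isUnit_of_dvd' hM he)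

theorem ndvd_mul {p : ℕ} (hp : p.Prime) {x y : ℤ} (hx : ¬ (p : ℤ) ∣ x) (hy : ¬ (p : ℤ) ∣ y) :
    ¬ (p : ℤ) ∣ x * y := fun h =>
  ((Nat.prime_iff_prime_int.mp hp).dvd_or_dvd h).elim hx hy

theorem ndvd_sq {p : ℕ} (hp : p.Prime) {x : ℤ} (hx : ¬ (p : ℤ) ∣ x) : ¬ (p : ℤ) ∣ x ^ 2 :=
  fun h => hx ((Nat.prime_iff_prime_int.mp hp).dvd_of_dvd_pow h)

theorem ndvd_add_l {p : ℕ} {x y : ℤ} (hx : ¬ (p : ℤ) ∣ x) (hy : (p : ℤ) ∣ y) :
    ¬ (p : ℤ) ∣ x + y := fun h => hx ((dvd_add_left hy).mp h)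

theorem ndvd_add_r {p : ℕ} {x y : ℤ} (hx : ¬ (p : ℤ) ∣ x) (hy : (p : ℤ) ∣ y) :
    ¬ (p : ℤ) ∣ y + x := fun h => hx ((dvd_add_right hy).mp h)

/-- extracting a square factor -/
theorem extract {p : ℕ} (hp : p.Prime) {C : ℤ} (hb : ¬ (p : ℤ) ∣ b)
    (h : (p : ℤ) ^ 2 * C = b * N ^ 2) : ∃ n : ℤ, N = p * n ∧ C = b * n ^ 2 := by
  have hp' : Prime (p : ℤ) := Nat.prime_iff_prime_int.mp hp
  have h1 : (p : ℤ) ∣ N := by
    have : (p : ℤ) ∣ b * N ^ 2 := ⟨p * C, by rw [← h]; ring⟩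
    rcases hp'.dvd_or_dvd this with h | h
    · exact absurd h hb
    · exact hp'.dvd_of_dvd_pow h
  obtain ⟨n, hn⟩ := h1
  refine ⟨n, hn, ?_⟩
  apply mul_left_cancel₀ (pow_ne_zero 2 hp'.ne_zero)
  rw [h, hn]; ring

/-- `3 ∣ b`, `3 ∤ d` forces `d ≡ 1 mod 3` -/
theorem three_dvd (hb : Squarefree b) (hMe : IsCoprime M e)
    (h : (b * M ^ 2 + d * e ^ 2) * (b * M ^ 2 + 81 * d * e ^ 2) = b * N ^ 2)
    (h3b : ((3 : ℕ) : ℤ) ∣ b) (h3d : ¬ ((3 : ℕ) : ℤ) ∣ d) : (d : ZMod 3) = 1 := by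
  have hp := Nat.prime_three
  obtain ⟨β, hβ⟩ := h3b
  have hβ' := not_dvd_of_sqf hp hb hβ
  have key : ∀ d β M e N : ZMod 3, β ≠ 0 → M ≠ 0 → e ≠ 0 → d ≠ 0 →
      (d * e ^ 2) * (β * M ^ 2) = β * N ^ 2 → d = 1 := by decide
  have h3 : (3 : ZMod 3) = 0 := by decide
  by_cases he : ((3 : ℕ) : ℤ) ∣ e
  · have hM := cop_ndvd hp hMe he
    obtain ⟨f, hf⟩ := he
    have hC : ¬ ((3 : ℕ) : ℤ) ∣ (β * M ^ 2 + 3 * (d * f ^ 2)) * (β * M ^ 2 + 3 * (81 * d * f ^ 2)) := by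
      apply ndvd_mul hp
      · exact ndvd_add_l (ndvd_mul hp hβ' (ndvd_sq hp hM)) ⟨_, by push_cast; rfl⟩
      · exact ndvd_add_l (ndvd_mul hp hβ' (ndvd_sq hp hM)) ⟨_, by push_cast; rfl⟩
    have := parity hp (i := 2) (j := 1) (N := N) hC hβ' (by
      rw [hβ, hf] at h; push_cast at h ⊢; linear_combination h)
    omega
  by_cases hM : ((3 : ℕ) : ℤ) ∣ M
  · obtain ⟨m, hm⟩ := hM
    by_cases hm3 : ((3 : ℕ) : ℤ) ∣ m
    · obtain ⟨m', hm'⟩ := hm3
      exfalso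
      have hC : ¬ ((3 : ℕ) : ℤ) ∣ (3 * (81 * β * m' ^ 2) + d * e ^ 2) * (3 * (β * m' ^ 2) + d * e ^ 2) := by
        apply ndvd_mul hp
        · exact ndvd_add_r (ndvd_mul hp h3d (ndvd_sq hp he)) ⟨_, by push_cast; rfl⟩
        · exact ndvd_add_r (ndvd_mul hp h3d (ndvd_sq hp he)) ⟨_, by push_cast; rfl⟩
      have := parity hp (i := 4) (j := 1) (N := N) hC hβ' (by
        rw [hβ, hm, hm'] at h; push_cast at h ⊢; linear_combination h)
      omega
    · have h9 : (((3 : ℕ) : ℤ)) ^ 2 * ((27 * β * m ^ 2 + d * e ^ 2) * (β * m ^ 2 + 3 * d * e ^ 2)) =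
          β * N ^ 2 := by
        apply mul_left_cancel₀ (show (3 : ℤ) ≠ 0 by norm_num)
        rw [hβ, hm] at h; push_cast at h ⊢; linear_combination h
      obtain ⟨n, -, hn⟩ := extract hp hβ' h9
      have h8 := congrArg (Int.cast : ℤ → ZMod 3) hn
      push_cast at h8
      apply key d β m e n (ne_iff.mpr hβ') (ne_iff.mpr hm3) (ne_iff.mpr he) (ne_iff.mpr h3d)
      rw [← h8, show (27 : ZMod 3) = 0 by decide, h3]; ring
  · have h9 : (3 * β * M ^ 2 + d * e ^ 2) * (β * M ^ 2 + 27 * d * e ^ 2) = β * N ^ 2 := by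
      apply mul_left_cancel₀ (show (3 : ℤ) ≠ 0 by norm_num)
      rw [hβ] at h; push_cast at h ⊢; linear_combination h
    have h8 := congrArg (Int.cast : ℤ → ZMod 3) h9
    push_cast at h8
    apply key d β M e N (ne_iff.mpr hβ') (ne_iff.mpr hM) (ne_iff.mpr he) (ne_iff.mpr h3d)
    rw [← h8, show (27 : ZMod 3) = 0 by decide, h3]; ring

/-- local condition at odd ramified primes not dividing the class -/
theorem sq_of_ndvd {p : ℕ} (hp : p.Prime) {δ : ℤ} (hMe : IsCoprime M e)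
    (h : (b * M ^ 2 + d * e ^ 2) * (b * M ^ 2 + 81 * d * e ^ 2) = b * N ^ 2)
    (hd : d = p * δ) (hδ : ¬ (p : ℤ) ∣ δ) (hb : ¬ (p : ℤ) ∣ b) : IsSquare (b : ZMod p) := by
  have := Fact.mk hp
  have hp' : Prime (p : ℤ) := Nat.prime_iff_prime_int.mp hp
  have hb0 : (b : ZMod p) ≠ 0 := ne_iff.mpr hb
  have hpp : (p : ZMod p) = 0 := by simp
  by_cases hM : (p : ℤ) ∣ M
  · have he : ¬ (p : ℤ) ∣ e := cop_ndvd hp hMe.symm hM
    have he0 : (e : ZMod p) ≠ 0 := ne_iff.mpr he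
    have hδ0 : (δ : ZMod p) ≠ 0 := ne_iff.mpr hδ
    obtain ⟨m, hm⟩ := hM
    -- the general conclusion from `C = b n²` with `C ≡ (c δ e²)²`
    have concl : ∀ (C n : ℤ) (c : ZMod p), c ≠ 0 → C = b * n ^ 2 →
        (C : ZMod p) = (c * δ * e ^ 2) ^ 2 → IsSquare (b : ZMod p) := by
      intro C n c hc hC hC2
      have h1 : (b : ZMod p) * n ^ 2 = (c * δ * e ^ 2) ^ 2 := by
        rw [← hC2, hC]; push_cast; rfl
      have hn : (n : ZMod p) ≠ 0 := by
        intro h0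
        rw [h0] at h1
        have : (c * δ * e ^ 2) ^ 2 = 0 := by rw [← h1]; ring
        exact pow_ne_zero 2 (mul_ne_zero (mul_ne_zero hc hδ0) (pow_ne_zero 2 he0)) this
      refine ⟨c * δ * e ^ 2 / n, ?_⟩
      field_simp
      linear_combination h1
    by_cases hp3 : p = 3
    · subst hp3
      by_cases hm3 : ((3 : ℕ) : ℤ) ∣ m
      · obtain ⟨m1, hm1⟩ := hm3
        by_cases hm13 : ((3 : ℕ) : ℤ) ∣ m1
        · obtain ⟨m2, hm2⟩ := hm13
          have h1 : (((3 : ℕ) : ℤ)) ^ 2 * ((((3 : ℕ) : ℤ)) ^ 2 * ((((3 : ℕ) : ℤ)) ^ 2 *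
              ((243 * b * m2 ^ 2 + δ * e ^ 2) * (3 * b * m2 ^ 2 + δ * e ^ 2)))) = b * N ^ 2 := by
            rw [hd, hm, hm1, hm2] at h; push_cast at h ⊢; linear_combination h
          obtain ⟨n, -, hn⟩ := extract hp hb h1
          obtain ⟨n, -, hn⟩ := extract hp hb hn
          obtain ⟨n, -, hn⟩ := extract hp hb hn
          apply concl _ n 1 one_ne_zero hn
          have e243 : (243 : ZMod 3) = 0 := by
            have := (zero_iff (p := 3) (x := 243)).mpr (by norm_num)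
            push_cast at this; exact this
          have e3 : (3 : ZMod 3) = 0 := by
            have := (zero_iff (p := 3) (x := 3)).mpr (by norm_num)
            push_cast at this; exact this
          push_cast
          rw [e243, e3]; ring
        · exfalso
          have hC : ¬ ((3 : ℕ) : ℤ) ∣ (3 * (9 * b * m1 ^ 2) + δ * e ^ 2) * (b * m1 ^ 2 + 3 * (δ * e ^ 2)) := by
            apply ndvd_mul hp
            · exact ndvd_add_r (ndvd_mul hp hδ (ndvd_sq hp he)) ⟨_, by push_cast; rfl⟩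
            · exact ndvd_add_l (ndvd_mul hp hb (ndvd_sq hp hm13)) ⟨_, by push_cast; rfl⟩
          have := parity hp (i := 5) (j := 0) (N := N) hC hb (by
            rw [hd, hm, hm1] at h; push_cast at h ⊢; linear_combination h)
          omega
      · exfalso
        have hC : ¬ ((3 : ℕ) : ℤ) ∣ (3 * (b * m ^ 2) + δ * e ^ 2) * (b * m ^ 2 + 3 * (9 * δ * e ^ 2)) := by
          apply ndvd_mul hp
          · exact ndvd_add_r (ndvd_mul hp hδ (ndvd_sq hp he)) ⟨_, by push_cast; rfl⟩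
          · exact ndvd_add_l (ndvd_mul hp hb (ndvd_sq hp hm3)) ⟨_, by push_cast; rfl⟩
        have := parity hp (i := 3) (j := 0) (N := N) hC hb (by
          rw [hd, hm] at h; push_cast at h ⊢; linear_combination h)
        omega
    · have h1 : (p : ℤ) ^ 2 * ((b * p * m ^ 2 + δ * e ^ 2) * (b * p * m ^ 2 + 81 * δ * e ^ 2)) =
          b * N ^ 2 := by
        rw [hd, hm] at h; linear_combination h
      obtain ⟨n, -, hn⟩ := extract hp hb h1
      have h9 : (9 : ZMod p) ≠ 0 := by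
        intro h0
        have : (((3 ^ 2 : ℕ)) : ZMod p) = 0 := by push_cast; norm_num; exact h0
        rw [ZMod.natCast_eq_zero_iff] at this
        have := hp.dvd_of_dvd_pow this
        exact hp3 ((Nat.prime_dvd_prime_iff_eq hp Nat.prime_three).mp this)
      apply concl _ n 9 h9 hn
      push_cast
      rw [hpp]; ring
  · have hM0 : (M : ZMod p) ≠ 0 := ne_iff.mpr hM
    have h8 := congrArg (Int.cast : ℤ → ZMod p) h
    rw [hd] at h8
    push_cast at h8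
    rw [hpp] at h8
    have h9 : (b : ZMod p) * M ^ 4 = N ^ 2 := by
      apply mul_left_cancel₀ hb0
      linear_combination h8
    refine ⟨N / M ^ 2, ?_⟩
    field_simp
    linear_combination h9

/-- local condition at odd ramified primes dividing the class -/
theorem sq_of_dvd {p : ℕ} (hp : p.Prime) {δ β : ℤ} (hb : Squarefree b) (hMe : IsCoprime M e)
    (h : (b * M ^ 2 + d * e ^ 2) * (b * M ^ 2 + 81 * d * e ^ 2) = b * N ^ 2)
    (hd : d = p * δ) (hδ : ¬ (p : ℤ) ∣ δ) (hbβ : b = p * β) :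
    IsSquare ((-(δ * β) : ℤ) : ZMod p) := by
  have := Fact.mk hp
  have hp' : Prime (p : ℤ) := Nat.prime_iff_prime_int.mp hp
  have hβ := not_dvd_of_sqf hp hb hbβ
  have hβ0 : (β : ZMod p) ≠ 0 := ne_iff.mpr hβ
  have hpp : (p : ZMod p) = 0 := by simp
  have h1 : p * ((β * M ^ 2 + δ * e ^ 2) * (β * M ^ 2 + 81 * δ * e ^ 2)) = β * N ^ 2 := by
    apply mul_left_cancel₀ hp'.ne_zero
    rw [hd, hbβ] at h; linear_combination h
  have hpN : (p : ℤ) ∣ N := by
    have : (p : ℤ) ∣ β * N ^ 2 := ⟨_, h1.symm⟩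
    rcases hp'.dvd_or_dvd this with h | h
    · exact absurd h hβ
    · exact hp'.dvd_of_dvd_pow h
  obtain ⟨n, hn⟩ := hpN
  have h2 : (β * M ^ 2 + δ * e ^ 2) * (β * M ^ 2 + 81 * δ * e ^ 2) = p * β * n ^ 2 := by
    apply mul_left_cancel₀ hp'.ne_zero
    rw [h1, hn]; ring
  have he : ¬ (p : ℤ) ∣ e := by
    intro he
    have hM := cop_ndvd hp hMe he
    obtain ⟨f, hf⟩ := he
    have : (p : ℤ) ∣ β * M ^ 2 * (β * M ^ 2) := by
      refine ⟨β * n ^ 2 - (δ * p * f ^ 2 * (β * M ^ 2 + 81 * δ * (p * f) ^ 2) + β * M ^ 2 * (81 * δ * p * f ^ 2)), ?_⟩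
      rw [hf] at h2
      linear_combination h2
    exact ndvd_mul hp (ndvd_mul hp hβ (ndvd_sq hp hM)) (ndvd_mul hp hβ (ndvd_sq hp hM)) this
  have he0 : (e : ZMod p) ≠ 0 := ne_iff.mpr he
  have concl : ∀ (m : ℤ), (p : ℤ) ∣ β * m ^ 2 + δ * e ^ 2 → IsSquare ((-(δ * β) : ℤ) : ZMod p) := by
    intro m hm
    have h3 : ((β * m ^ 2 + δ * e ^ 2 : ℤ) : ZMod p) = 0 := zero_iff.mpr hm
    push_cast at h3
    refine ⟨β * m / e, ?_⟩
    push_cast
    field_simp
    linear_combination (-1 : ZMod p) * h3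
  have h3 : (p : ℤ) ∣ (β * M ^ 2 + δ * e ^ 2) * (β * M ^ 2 + 81 * δ * e ^ 2) :=
    ⟨β * n ^ 2, by rw [h2]; ring⟩
  rcases hp'.dvd_or_dvd h3 with h3 | h3
  · exact concl M h3
  · by_cases hp3 : p = 3
    · subst hp3
      have hM : ((3 : ℕ) : ℤ) ∣ M := by
        have : ((3 : ℕ) : ℤ) ∣ β * M ^ 2 := (dvd_add_left ⟨27 * δ * e ^ 2, by push_cast; ring⟩).mp h3
        rcases hp'.dvd_or_dvd this with h | h
        · exact absurd h hβ
        · exact hp'.dvd_of_dvd_pow h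
      obtain ⟨m, hm⟩ := hM
      by_cases hm3 : ((3 : ℕ) : ℤ) ∣ m
      · obtain ⟨m1, hm1⟩ := hm3
        by_cases hfin : ((3 : ℕ) : ℤ) ∣ β * m1 ^ 2 + δ * e ^ 2
        · exact concl m1 hfin
        · exfalso
          have hC : ¬ ((3 : ℕ) : ℤ) ∣ (3 * (27 * β * m1 ^ 2) + δ * e ^ 2) * (β * m1 ^ 2 + δ * e ^ 2) := by
            apply ndvd_mul hp
            · exact ndvd_add_r (ndvd_mul hp hδ (ndvd_sq hp he)) ⟨_, by push_cast; rfl⟩
            · exact hfin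
          have := parity hp (i := 4) (j := 1) (N := n) hC hβ (by
            rw [hm, hm1] at h2; push_cast at h2 ⊢; linear_combination h2)
          omega
      · exfalso
        have hC : ¬ ((3 : ℕ) : ℤ) ∣ (3 * (3 * β * m ^ 2) + δ * e ^ 2) * (β * m ^ 2 + 3 * (3 * δ * e ^ 2)) := by
          apply ndvd_mul hp
          · exact ndvd_add_r (ndvd_mul hp hδ (ndvd_sq hp he)) ⟨_, by push_cast; rfl⟩
          · exact ndvd_add_l (ndvd_mul hp hβ (ndvd_sq hp hm3)) ⟨_, by push_cast; rfl⟩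
        have := parity hp (i := 2) (j := 1) (N := n) hC hβ (by
          rw [hm] at h2; push_cast at h2 ⊢; linear_combination h2)
        omega
    · have h9 : (9 : ZMod p) ≠ 0 := by
        intro h0
        have : (((3 ^ 2 : ℕ)) : ZMod p) = 0 := by push_cast; norm_num; exact h0
        rw [ZMod.natCast_eq_zero_iff] at this
        have := hp.dvd_of_dvd_pow this
        exact hp3 ((Nat.prime_dvd_prime_iff_eq hp Nat.prime_three).mp this)
      have h4 : ((β * M ^ 2 + 81 * δ * e ^ 2 : ℤ) : ZMod p) = 0 := zero_iff.mpr h3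
      push_cast at h4
      refine ⟨β * M / (9 * e), ?_⟩
      push_cast
      field_simp
      linear_combination (-1 : ZMod p) * h4

theorem aux8 {A k n : ℤ} (hA : A % 2 = 1) (h : A * (A + 8 * k) = b * n ^ 2) : b % 8 = 1 := by
  have key : ∀ A b n : ZMod 8, (A = 1 ∨ A = 3 ∨ A = 5 ∨ A = 7) → A * A = b * n ^ 2 → b = 1 := by
    decide
  have h1 := congrArg (Int.cast : ℤ → ZMod 8) h
  push_cast at h1
  rw [show (8 : ZMod 8) = 0 by decide, zero_mul, add_zero] at h1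
  have hA' : (A : ZMod 8) = 1 ∨ (A : ZMod 8) = 3 ∨ (A : ZMod 8) = 5 ∨ (A : ZMod 8) = 7 := by
    have : A % 8 = 1 ∨ A % 8 = 3 ∨ A % 8 = 5 ∨ A % 8 = 7 := by omega
    rcases this with h | h | h | h
    · left; exact (ZMod.intCast_eq_intCast_iff_dvd_sub A 1 8).mpr (by push_cast; omega)
    · right; left; exact_mod_cast (ZMod.intCast_eq_intCast_iff_dvd_sub A 3 8).mpr (by push_cast; omega)
    · right; right; left; exact_mod_cast (ZMod.intCast_eq_intCast_iff_dvd_sub A 5 8).mpr (by push_cast; omega)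
    · right; right; right; exact_mod_cast (ZMod.intCast_eq_intCast_iff_dvd_sub A 7 8).mpr (by push_cast; omega)
  have h2 := key A b n hA' h1
  have h3 := (ZMod.intCast_eq_intCast_iff_dvd_sub b 1 8).mp (by exact_mod_cast h2)
  push_cast at h3
  omega

theorem aux8' {A k n : ℤ} (hA : A % 2 = 1) (hk : k % 2 = 1) (h : A * (A + 4 * k) = b * n ^ 2) :
    b % 8 = 5 := by
  have key : ∀ A b n : ZMod 8, (A = 1 ∨ A = 3 ∨ A = 5 ∨ A = 7) → A * (A + 4) = b * n ^ 2 → b = 5 := by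
    decide
  obtain ⟨j, hj⟩ : ∃ j, k = 2 * j + 1 := ⟨k / 2, by omega⟩
  have h1 := congrArg (Int.cast : ℤ → ZMod 8) h
  rw [hj] at h1
  push_cast at h1
  rw [show ((A : ZMod 8) + 4 * (2 * j + 1)) = A + 4 + 8 * j by ring,
    show (8 : ZMod 8) = 0 by decide, zero_mul, add_zero] at h1
  have hA' : (A : ZMod 8) = 1 ∨ (A : ZMod 8) = 3 ∨ (A : ZMod 8) = 5 ∨ (A : ZMod 8) = 7 := by
    have : A % 8 = 1 ∨ A % 8 = 3 ∨ A % 8 = 5 ∨ A % 8 = 7 := by omega
    rcases this with h | h | h | h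
    · left; exact (ZMod.intCast_eq_intCast_iff_dvd_sub A 1 8).mpr (by push_cast; omega)
    · right; left; exact_mod_cast (ZMod.intCast_eq_intCast_iff_dvd_sub A 3 8).mpr (by push_cast; omega)
    · right; right; left; exact_mod_cast (ZMod.intCast_eq_intCast_iff_dvd_sub A 5 8).mpr (by push_cast; omega)
    · right; right; right; exact_mod_cast (ZMod.intCast_eq_intCast_iff_dvd_sub A 7 8).mpr (by push_cast; omega)
  have h2 := key A b n hA' h1
  have h3 := (ZMod.intCast_eq_intCast_iff_dvd_sub b 5 8).mp (by exact_mod_cast h2)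
  push_cast at h3
  omega

end

end Vale.Agent.P017.H185
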