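import Mathlib

namespace Vale.Agent.P017.H185

open WeierstrassCurve Height

section Alg
variable {K : Type*} [Field K] [DecidableEq K] [CharZero K]

/-- the doubling case of the addition-and-subtraction map -/
theorem sym2x_self (W : WeierstrassCurve K) [W.IsElliptic] (h1 : W.a₁ = 0) (h3 : W.a₃ = 0)
    (P : W.toAffine.Point) :
    ∃ c : K, c ≠ 0 ∧ (fun i => MvPolynomial.eval (P.sym2x P) (W.addSubMap i))
      = c • (P + P).sym2x 0 := by
  rcases P with _ | ⟨x, y, h⟩
  · refine ⟨1, one_ne_zero, ?_⟩
    funext i
    fin_cases i <;> simp [← Affine.Point.zero_def, addSubMap]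
  · have heq : y ^ 2 = x ^ 3 + W.a₂ * x ^ 2 + W.a₄ * x + W.a₆ := by
      have := h.1
      rw [Affine.equation_iff] at this
      simp only [h1, h3] at this
      linear_combination this
    by_cases hy : y = 0
    · have hz : (Affine.Point.some x y h : W.toAffine.Point) + Affine.Point.some x y h = 0 := by
        apply Affine.Point.add_of_Y_eq rfl
        simp [Affine.negY, h1, h3, hy]
      rw [hz]
      refine ⟨MvPolynomial.eval ((Affine.Point.some x y h).sym2x (Affine.Point.some x y h))
        (W.addSubMap 0), ?_, ?_⟩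
      · intro h0
        have hne := addSubMap_ne_zero W (x := (Affine.Point.some x y h).sym2x
          (Affine.Point.some x y h)) (Affine.Point.sym2x_ne_zero _ _)
        apply hne
        funext i
        fin_cases i
        · exact h0
        · simp [addSubMap, b₂, b₄, b₆, h1, h3]
          linear_combination (-4 : K) * heq + (4 : K) * y * hy
        · simp [addSubMap]
          ring
      · funext i
        fin_cases i
        · simp [addSubMap]
        · simp [addSubMap, b₂, b₄, b₆, h1, h3]
          linear_combination (-4 : K) * heq + (4 : K) * y * hy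
        · simp [addSubMap]
          ring
    · have hne : y ≠ W.toAffine.negY x y := by
        simp only [Affine.negY, h1, h3]
        intro h2
        apply hy
        have : (2 : K) * y = 0 := by linear_combination h2
        simpa using this
      have hxy : ¬(x = x ∧ y = W.toAffine.negY x y) := fun h => hne h.2
      rw [Affine.Point.add_some hxy]
      refine ⟨4 * y ^ 2, mul_ne_zero (by norm_num) (pow_ne_zero 2 hy), ?_⟩
      have hs : W.toAffine.slope x x y y = (3 * x ^ 2 + 2 * W.a₂ * x + W.a₄) / (2 * y) := by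
        rw [Affine.slope_of_Y_ne rfl hne]
        simp only [Affine.negY, h1, h3]
        congr 1 <;> ring
      funext i
      fin_cases i
      · simp only [Affine.Point.sym2x_some_some, addSubMap, Affine.Point.sym2x_some_zero, Affine.addX, hs,
          b₂, b₄, b₆, b₈, h1, h3]
        simp
        field_simp
        rw [heq]
        ring
      · simp [addSubMap, b₂, b₄, b₆, h1, h3]
        linear_combination (-4 : K) * heq
      · simp [addSubMap]
        ring

/-- the addition-and-subtraction map on points -/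
theorem sym2x_add_sub (W : WeierstrassCurve K) [W.IsElliptic] (h1 : W.a₁ = 0) (h3 : W.a₃ = 0)
    (P Q : W.toAffine.Point) :
    ∃ c : K, c ≠ 0 ∧ (fun i => MvPolynomial.eval (P.sym2x Q) (W.addSubMap i))
      = c • (P + Q).sym2x (P - Q) := by
  by_cases hPQ : P = Q
  · subst hPQ
    simpa using sym2x_self W h1 h3 P
  by_cases hPQ' : P = -Q
  · subst hPQ'
    obtain ⟨c, hc, h⟩ := sym2x_self W h1 h3 (-Q)
    refine ⟨c, hc, ?_⟩
    rw [show -Q + Q = 0 by simp, Affine.Point.sym2x_comm 0, sub_eq_add_neg, ← h,
      Affine.Point.sym2x_neg_right (-Q) Q]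
  rcases P with _ | ⟨x, y, h⟩
  · rcases Q with _ | ⟨x', y', h'⟩
    · exact absurd rfl hPQ
    · refine ⟨1, one_ne_zero, ?_⟩
      funext i
      fin_cases i <;> simp [← Affine.Point.zero_def, addSubMap, Affine.Point.neg_some]
      all_goals ring
  · rcases Q with _ | ⟨x', y', h'⟩
    · refine ⟨1, one_ne_zero, ?_⟩
      funext i
      fin_cases i <;> simp [← Affine.Point.zero_def, addSubMap]
      all_goals ring
    · have heq : y ^ 2 = x ^ 3 + W.a₂ * x ^ 2 + W.a₄ * x + W.a₆ := by
        have := h.1
        rw [Affine.equation_iff] at this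
        simp only [h1, h3] at this
        linear_combination this
      have heq' : y' ^ 2 = x' ^ 3 + W.a₂ * x' ^ 2 + W.a₄ * x' + W.a₆ := by
        have := h'.1
        rw [Affine.equation_iff] at this
        simp only [h1, h3] at this
        linear_combination this
      have hx : x ≠ x' := by
        rintro rfl
        have h2 : (y - y') * (y + y') = 0 := by linear_combination heq - heq'
        rcases mul_eq_zero.mp h2 with h2 | h2
        · exact hPQ (by simp [sub_eq_zero.mp h2])
        · apply hPQ'
          rw [Affine.Point.neg_some]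
          simp only [Affine.Point.some.injEq, true_and, Affine.negY, h1, h3]
          linear_combination h2
      have hx0 : x - x' ≠ 0 := sub_ne_zero.mpr hx
      rw [sub_eq_add_neg, Affine.Point.neg_some, Affine.Point.add_some (fun h => hx h.1),
        Affine.Point.add_some (fun h => hx h.1)]
      refine ⟨(x - x') ^ 2, pow_ne_zero 2 hx0, ?_⟩
      simp only [Affine.Point.sym2x_some_some]
      have hs : W.toAffine.slope x x' y y' = (y - y') / (x - x') := Affine.slope_of_X_ne hx
      have hs' : W.toAffine.slope x x' y (W.toAffine.negY x' y') = (y + y') / (x - x') := by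
        rw [Affine.slope_of_X_ne hx]
        simp [Affine.negY, h1, h3]
      rw [hs, hs']
      have hy4 : y ^ 4 = (x ^ 3 + W.a₂ * x ^ 2 + W.a₄ * x + W.a₆) ^ 2 := by
        rw [← heq]; ring
      funext i
      fin_cases i
      · simp only [addSubMap, Affine.addX,
          b₂, b₄, b₆, b₈, h1, h3]
        simp
        field_simp
        linear_combination (-(y^2 - y'^2 + (x ^ 3 + W.a₂ * x ^ 2 + W.a₄ * x + W.a₆) - (x' ^ 3 + W.a₂ * x' ^ 2 + W.a₄ * x' + W.a₆)) + 2*((W.a₂+x+x')*(x-x')^2))*heq + ((y^2 - y'^2 + (x ^ 3 + W.a₂ * x ^ 2 + W.a₄ * x + W.a₆) - (x' ^ 3 + W.a₂ * x' ^ 2 + W.a₄ * x' + W.a₆)) + 2*((W.a₂+x+x')*(x-x')^2))*heq'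
      · simp only [addSubMap, Affine.addX,
          b₂, b₄, b₆, b₈, h1, h3]
        simp
        field_simp
        linear_combination (-2 : K) * heq + (-2 : K) * heq'
      · simp [addSubMap]
        ring

end Alg

section Ht

variable {K : Type*} [Field K] [DecidableEq K] [CharZero K] [AdmissibleAbsValues K]

/-- the naive height on points -/
noncomputable def ht {W : WeierstrassCurve K} (P : W.toAffine.Point) : ℝ :=
  logHeight P.xRep

theorem ht_nonneg {W : WeierstrassCurve K} (P : W.toAffine.Point) : 0 ≤ ht P :=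
  logHeight_nonneg _

theorem xRep_ne_zero {W : WeierstrassCurve K} (P : W.toAffine.Point) : P.xRep ≠ 0 := by
  cases P <;> simp [Affine.Point.xRep]

theorem abs_sym2x_sub (W : WeierstrassCurve K) : ∃ C : ℝ, ∀ P Q : W.toAffine.Point,
    |logHeight (P.sym2x Q) - (ht P + ht Q)| ≤ C := by
  obtain ⟨C, hC⟩ := abs_logHeight_sym2_sub_le K
  refine ⟨C, fun P Q => ?_⟩
  have hP : ![P.xRep 0, P.xRep 1] = P.xRep := by
    funext i; fin_cases i <;> rfl
  have hQ : ![Q.xRep 0, Q.xRep 1] = Q.xRep := by
    funext i; fin_cases i <;> rfl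
  have := @hC (P.xRep 0) (P.xRep 1) (Q.xRep 0) (Q.xRep 1) (by rw [hP]; exact xRep_ne_zero P)
    (by rw [hQ]; exact xRep_ne_zero Q)
  rw [hP, hQ] at this
  exact this

/-- **The approximate parallelogram law** for the naive height. -/
theorem parallelogram (W : WeierstrassCurve K) [W.IsElliptic] (h1 : W.a₁ = 0) (h3 : W.a₃ = 0) :
    ∃ C : ℝ, ∀ P Q : W.toAffine.Point,
      |ht (P + Q) + ht (P - Q) - 2 * (ht P + ht Q)| ≤ C := by
  obtain ⟨C₁, h₁⟩ := abs_sym2x_sub W
  obtain ⟨C₂, h₂⟩ := W.abs_logHeight_addSubMap_sub_two_mul_logHeight_le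
  refine ⟨3 * C₁ + C₂, fun P Q => ?_⟩
  obtain ⟨c, hc, hcc⟩ := sym2x_add_sub W h1 h3 P Q
  have e1 := abs_le.mp (h₁ P Q)
  have e2 := abs_le.mp (h₁ (P + Q) (P - Q))
  have e3 := abs_le.mp (h₂ (P.sym2x Q))
  rw [hcc, logHeight_smul_eq_logHeight _ hc] at e3
  rw [abs_le]
  constructor <;> linarith [e1.1, e1.2, e2.1, e2.2, e3.1, e3.2]

theorem northcott (W : WeierstrassCurve K) (h1 : W.a₁ = 0) (h3 : W.a₃ = 0)
    [hN : Northcott (logHeight₁ (K := K))] : Northcott (ht (W := W)) := by
  constructor
  intro B
  have hfin : {x : K | logHeight₁ x ≤ B}.Finite := hN.finite_le B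
  have hsub : {P : W.toAffine.Point | ht P ≤ B} ⊆ {0} ∪
      ⋃ x ∈ {x : K | logHeight₁ x ≤ B}, {P : W.toAffine.Point | ∃ y h, P = Affine.Point.some x y h} := by
    rintro (_ | ⟨x, y, h⟩) hP
    · exact Or.inl rfl
    · refine Or.inr ?_
      simp only [Set.mem_iUnion]
      refine ⟨x, ?_, y, h, rfl⟩
      simpa [ht, Affine.Point.xRep, ← logHeight₁_eq_logHeight] using hP
  refine Set.Finite.subset (Set.Finite.union (Set.finite_singleton 0) (hfin.biUnion fun x _ => ?_)) hsub
  by_cases hex : ∃ y₀, W.toAffine.Nonsingular x y₀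
  · obtain ⟨y₀, h₀⟩ := hex
    refine Set.Finite.subset (Set.toFinite {Affine.Point.some x y₀ h₀, -Affine.Point.some x y₀ h₀}) ?_
    rintro P ⟨y, h, rfl⟩
    have heq := h.1
    have heq₀ := h₀.1
    rw [Affine.equation_iff] at heq heq₀
    simp only [h1, h3] at heq heq₀
    have h2 : (y - y₀) * (y + y₀) = 0 := by linear_combination heq - heq₀
    rcases mul_eq_zero.mp h2 with h2 | h2
    · left
      have : y = y₀ := by linear_combination h2
      subst this; rfl
    · right
      have : y = -y₀ := by linear_combination h2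
      subst this
      simp [Affine.Point.neg_some, Affine.negY, h1, h3]
  · convert Set.finite_empty
    ext P
    simp only [Set.mem_setOf_eq, Set.mem_empty_iff_false, iff_false, not_exists]
    intro y h _
    exact hex ⟨y, h⟩

end Ht

end Vale.Agent.P017.H185
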