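import Vale.Agent.P017.H185.QF

namespace Vale.Agent.P017.H185

open NumberField

theorem exists_QF (K : Type*) [Field K] [NumberField K] [Algebra.IsQuadraticExtension ℚ K]
    [IsTotallyComplex K] : ∃ d : ℕ, Nonempty (QF K d) := by
  classical
  have hcard : Nat.card Gal(K/ℚ) = 2 := by
    rw [IsGalois.card_aut_eq_finrank, Algebra.IsQuadraticExtension.finrank_eq_two]
  have hfin : Finite Gal(K/ℚ) := inferInstance
  obtain ⟨σ, hσ1⟩ : ∃ σ : Gal(K/ℚ), σ ≠ 1 := by
    have : Nontrivial Gal(K/ℚ) := by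
      rw [← Finite.one_lt_card_iff_nontrivial, hcard]; norm_num
    exact exists_ne 1
  have hall : ∀ τ : Gal(K/ℚ), τ = 1 ∨ τ = σ := by
    intro τ
    by_contra hcon
    push Not at hcon
    have := Fintype.ofFinite Gal(K/ℚ)
    have h3 : ({1, σ, τ} : Finset Gal(K/ℚ)).card = 3 := by
      rw [Finset.card_eq_three]
      exact ⟨1, σ, τ, hσ1.symm, hcon.1.symm, hcon.2.symm, rfl⟩
    have h4 := Finset.card_le_univ ({1, σ, τ} : Finset Gal(K/ℚ))
    rw [← Nat.card_eq_fintype_card, hcard, h3] at h4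
    omega
  have hfix : ∀ z : K, σ z = z → ∃ r : ℚ, z = r := by
    intro z hz
    have : z ∈ Set.range (algebraMap ℚ K) := by
      rw [IsGalois.mem_range_algebraMap_iff_fixed]
      intro τ
      rcases hall τ with rfl | rfl
      · rfl
      · exact hz
    obtain ⟨r, hr⟩ := this
    exact ⟨r, by rw [← hr]; simp⟩
  have hσσ : ∀ z, σ (σ z) = z := by
    intro z
    have h2 : σ * σ = 1 := by
      rcases hall (σ * σ) with h | h
      · exact h
      · exact absurd (mul_left_cancel (h.trans (mul_one σ).symm)) hσ1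
    calc σ (σ z) = (σ * σ) z := rfl
      _ = z := by rw [h2]; rfl
  obtain ⟨z, hz⟩ : ∃ z, σ z ≠ z := by
    by_contra hcon
    push Not at hcon
    exact hσ1 (AlgEquiv.ext hcon)
  obtain ⟨β, hβ⟩ : ∃ β, β = z - σ z := ⟨_, rfl⟩
  have hβ0 : β ≠ 0 := by
    rw [hβ]; exact sub_ne_zero.mpr (Ne.symm hz)
  have hσβ : σ β = -β := by rw [hβ, map_sub, hσσ]; ring
  obtain ⟨r, hr⟩ := hfix (β ^ 2) (by rw [map_pow, hσβ]; ring)
  have hspan : ∀ z : K, ∃ u v : ℚ, z = (u : K) + v * β := by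
    intro z
    obtain ⟨u, hu⟩ := hfix ((z + σ z) / 2) (by
      rw [map_div₀, map_add, hσσ, map_ofNat]; ring)
    obtain ⟨v, hv⟩ := hfix ((z - σ z) / 2 / β) (by
      rw [map_div₀, map_div₀, map_sub, hσσ, map_ofNat, hσβ]
      field_simp
      ring)
    refine ⟨u, v, ?_⟩
    rw [← hu, ← hv]
    field_simp
    ring
  have hrneg : r < 0 := by
    by_contra hcon
    push Not at hcon
    obtain ⟨w⟩ : Nonempty (InfinitePlace K) := inferInstance
    have hw := IsTotallyComplex.isComplex w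
    rw [InfinitePlace.isComplex_iff] at hw
    apply hw
    obtain ⟨φ, hφ⟩ : ∃ φ, φ = w.embedding := ⟨_, rfl⟩
    rw [← hφ]
    have h1 : (φ β) ^ 2 = (r : ℂ) := by
      rw [← map_pow, hr]; simp
    have h2 : ∃ s : ℝ, φ β = s := by
      have hs : ((Real.sqrt r : ℝ) : ℂ) ^ 2 = (r : ℂ) := by
        rw [← Complex.ofReal_pow, Real.sq_sqrt (by exact_mod_cast hcon)]; simp
      have h3 : (φ β - (Real.sqrt r : ℝ)) * (φ β + (Real.sqrt r : ℝ)) = 0 := by
        linear_combination h1 - hs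
      rcases mul_eq_zero.mp h3 with h | h
      · exact ⟨Real.sqrt r, sub_eq_zero.mp h⟩
      · exact ⟨-Real.sqrt r, by push_cast; linear_combination h⟩
    obtain ⟨s, hs⟩ := h2
    rw [ComplexEmbedding.isReal_iff]
    ext z
    obtain ⟨u, v, hz⟩ := hspan z
    rw [ComplexEmbedding.conjugate_coe_eq, hz, map_add, map_mul, hs]
    simp
  -- choose the squarefree part
  obtain ⟨d, k, hdk, hd⟩ := Nat.sq_mul_squarefree ((-r).num.natAbs * (-r).den)
  have hnum : 0 < (-r).num := Rat.num_pos.mpr (by linarith)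
  have hm0 : (-r).num.natAbs * (-r).den ≠ 0 := by
    apply mul_ne_zero
    · omega
    · exact (-r).den_ne_zero
  have hk : k ≠ 0 := by rintro rfl; apply hm0; rw [← hdk]; simp
  have hkK : (k : K) ≠ 0 := by exact_mod_cast hk
  have hden : ((-r).den : K) ≠ 0 := by exact_mod_cast (-r).den_ne_zero
  have hmain : -(r : K) * ((-r).den : K) ^ 2 = (k : K) ^ 2 * d := by
    have h1 : (-r) * ((-r).den : ℚ) = ((-r).num.natAbs : ℚ) := by
      have := Rat.mul_den_eq_num (-r)
      rw [this]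
      have h2 : ((-r).num.natAbs : ℤ) = (-r).num := Int.natAbs_of_nonneg hnum.le
      rw [← Int.cast_natCast (R := ℚ), h2]
    have h2 : (-r) * ((-r).den : ℚ) ^ 2 = (k : ℚ) ^ 2 * d := by
      rw [sq, ← mul_assoc, h1]
      exact_mod_cast hdk.symm
    have h3 : (((-r) * ((-r).den : ℚ) ^ 2 : ℚ) : K) = (((k : ℚ) ^ 2 * d : ℚ) : K) := by rw [h2]
    push_cast at h3
    exact_mod_cast h3
  refine ⟨d, ⟨⟨β * (-r).den / k, ?_, hd, σ, ?_, ?_⟩⟩⟩
  · rw [div_pow, mul_pow, hr]
    field_simp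
    linear_combination (-1 : K) * hmain
  · rw [map_div₀, map_mul, hσβ]
    simp
    ring
  · intro z
    obtain ⟨u, v, hz⟩ := hspan z
    refine ⟨u, v * k / (-r).den, ?_⟩
    rw [hz]
    push_cast
    field_simp

end Vale.Agent.P017.H185
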