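import Mathlib

namespace Vale.Agent.P017.H185

open NumberField

/-- A presentation of `K` as `ℚ(√-d)` with `d` squarefree. -/
structure QF (K : Type*) [Field K] [NumberField K] (d : ℕ) where
  θ : K
  hθ : θ ^ 2 = -(d : K)
  hd : Squarefree d
  σ : K ≃ₐ[ℚ] K
  hσ : σ θ = -θ
  hspan : ∀ z : K, ∃ u v : ℚ, z = (u : K) + v * θ

namespace QF

variable {K : Type*} [Field K] [NumberField K] {d : ℕ} (q : QF K d)

include q in
theorem d_pos : 0 < d := Nat.pos_of_ne_zero q.hd.ne_zero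

theorem uniq {u v : ℚ} (h : (u : K) + v * q.θ = 0) : u = 0 ∧ v = 0 := by
  have hd := q.d_pos
  have h1 : (v : K) * q.θ = -u := by linear_combination h
  have h2 : ((v ^ 2 * (-(d : ℚ)) : ℚ) : K) = ((u ^ 2 : ℚ) : K) := by
    push_cast
    rw [← q.hθ, ← mul_pow, h1]; ring
  have h3 : v ^ 2 * (-(d : ℚ)) = u ^ 2 := by exact_mod_cast h2
  have hd' : (0 : ℚ) < d := by exact_mod_cast hd
  have hv : v = 0 := by
    by_contra hv
    have : 0 < v ^ 2 := by positivity
    nlinarith [sq_nonneg u]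
  refine ⟨?_, hv⟩
  rw [hv] at h3
  have : u ^ 2 = 0 := by rw [← h3]; ring
  simpa using this

/-- rational coordinate -/
noncomputable def re (z : K) : ℚ := (q.hspan z).choose
/-- coordinate of `θ` -/
noncomputable def im (z : K) : ℚ := (q.hspan z).choose_spec.choose

theorem eq_re_im (z : K) : z = (q.re z : K) + q.im z * q.θ :=
  (q.hspan z).choose_spec.choose_spec

theorem re_im_unique {z : K} {u v : ℚ} (h : z = (u : K) + v * q.θ) : q.re z = u ∧ q.im z = v := by
  have h1 := q.eq_re_im z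
  have h2 : ((q.re z - u : ℚ) : K) + ((q.im z - v : ℚ) : K) * q.θ = 0 := by
    push_cast
    linear_combination h - h1
  obtain ⟨h3, h4⟩ := q.uniq h2
  exact ⟨by linarith, by linarith⟩

/-- the norm -/
noncomputable def nm (z : K) : ℚ := q.re z ^ 2 + d * q.im z ^ 2

theorem σ_apply (z : K) : q.σ z = (q.re z : K) - q.im z * q.θ := by
  conv_lhs => rw [q.eq_re_im z]
  rw [map_add, map_mul, q.hσ]
  simp [sub_eq_add_neg]

theorem mul_σ (z : K) : z * q.σ z = (q.nm z : K) := by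
  rw [q.σ_apply]
  conv_lhs => rw [q.eq_re_im z]
  have : ((q.re z : K) + q.im z * q.θ - (q.re z : K)) = q.im z * q.θ := by ring
  rw [show ((q.re ((q.re z : K) + q.im z * q.θ) : K)) = q.re z by
      rw [← q.eq_re_im z]]
  rw [show ((q.im ((q.re z : K) + q.im z * q.θ) : K)) = q.im z by
      rw [← q.eq_re_im z]]
  simp only [nm]
  push_cast
  linear_combination (-(q.im z : K) ^ 2) * q.hθ

theorem σσ (z : K) : q.σ (q.σ z) = z := by
  conv_lhs => rw [q.σ_apply z]
  rw [map_sub, map_mul, q.hσ]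
  simp only [map_ratCast]
  conv_rhs => rw [q.eq_re_im z]
  ring

theorem nm_mul (z w : K) : q.nm (z * w) = q.nm z * q.nm w := by
  have : ((q.nm (z * w) : ℚ) : K) = ((q.nm z * q.nm w : ℚ) : K) := by
    push_cast
    rw [← q.mul_σ, ← q.mul_σ, ← q.mul_σ, map_mul]; ring
  exact_mod_cast this

theorem nm_nonneg (z : K) : 0 ≤ q.nm z := by
  unfold nm; positivity

theorem nm_eq_zero {z : K} (h : q.nm z = 0) : z = 0 := by
  have hd' : (0 : ℚ) < d := by exact_mod_cast q.d_pos
  have h1 : q.re z ^ 2 = 0 := by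
    unfold nm at h
    nlinarith [sq_nonneg (q.re z), mul_nonneg hd'.le (sq_nonneg (q.im z))]
  have h2 : q.im z ^ 2 = 0 := by
    unfold nm at h
    rw [h1, zero_add] at h
    rcases mul_eq_zero.mp h with h | h
    · exact absurd h hd'.ne'
    · exact h
  rw [q.eq_re_im z, pow_eq_zero_iff two_ne_zero |>.mp h1, pow_eq_zero_iff two_ne_zero |>.mp h2]
  simp

theorem nm_rat (r : ℚ) : q.nm (r : K) = r ^ 2 := by
  obtain ⟨h1, h2⟩ := q.re_im_unique (z := (r : K)) (u := r) (v := 0) (by simp)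
  unfold nm; rw [h1, h2]; ring

theorem nm_coords (u v : ℚ) : q.nm ((u : K) + v * q.θ) = u ^ 2 + d * v ^ 2 := by
  obtain ⟨h1, h2⟩ := q.re_im_unique (z := (u : K) + v * q.θ) rfl
  unfold nm; rw [h1, h2]

theorem nm_σ (z : K) : q.nm (q.σ z) = q.nm z := by
  have : ((q.nm (q.σ z) : ℚ) : K) = ((q.nm z : ℚ) : K) := by
    rw [← q.mul_σ, ← q.mul_σ, q.σσ]; ring
  exact_mod_cast this

/-- a rational algebraic integer is an integer -/
theorem int_of_isIntegral {r : ℚ} (h : IsIntegral ℤ (r : K)) : ∃ n : ℤ, r = n := by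
  have h2 : IsIntegral ℤ (algebraMap ℚ K r) := by simpa using h
  rw [isIntegral_algebraMap_iff (algebraMap ℚ K).injective] at h2
  obtain ⟨y, hy⟩ := IsIntegrallyClosed.isIntegral_iff.mp h2
  exact ⟨y, by simpa using hy.symm⟩

theorem int_of_sq_mul {r : ℚ} {n : ℤ} (hd : Squarefree d) (h : (d : ℚ) * r ^ 2 = n) :
    ∃ m : ℤ, r = m := by
  refine ⟨r.num, ?_⟩
  have h0 : (r.den : ℚ) ≠ 0 := by exact_mod_cast r.den_ne_zero
  have h1 : (d : ℚ) * r.num ^ 2 = n * r.den ^ 2 := by
    have : r = r.num / r.den := (Rat.num_div_den r).symm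
    rw [this] at h
    field_simp at h
    linarith
  have h2 : (d : ℤ) * r.num ^ 2 = n * (r.den : ℤ) ^ 2 := by exact_mod_cast h1
  have h3 : ((r.den : ℤ) ^ 2) ∣ (d : ℤ) * r.num ^ 2 := ⟨n, by rw [h2]; ring⟩
  have hcop : IsCoprime ((r.den : ℤ) ^ 2) (r.num ^ 2) := by
    apply IsCoprime.pow
    rw [isCoprime_comm, Int.isCoprime_iff_gcd_eq_one]
    have := r.reduced
    rwa [Int.gcd, Int.natAbs_natCast]
  have h4 : ((r.den : ℤ) ^ 2) ∣ (d : ℤ) := hcop.dvd_of_dvd_mul_right h3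
  have h5 : r.den * r.den ∣ d := by
    have : ((r.den * r.den : ℕ) : ℤ) ∣ (d : ℤ) := by push_cast; rw [← sq]; exact h4
    exact_mod_cast this
  have h6 := hd _ h5
  have h7 : r.den = 1 := Nat.isUnit_iff.mp h6
  conv_lhs => rw [← Rat.num_div_den r, h7]
  simp

/-- integral elements have half-integral coordinates -/
theorem int_coords {z : K} (hz : IsIntegral ℤ z) : ∃ a b : ℤ, 2 * z = (a : K) + b * q.θ ∧
    (4 : ℤ) ∣ a ^ 2 + d * b ^ 2 := by
  have hσz : IsIntegral ℤ (q.σ z) := by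
    have := hz.map (q.σ.toAlgHom.restrictScalars ℤ)
    simpa using this
  have htr : IsIntegral ℤ ((2 * q.re z : ℚ) : K) := by
    have := hz.add hσz
    rw [q.σ_apply] at this
    have e : z + ((q.re z : K) - q.im z * q.θ) = ((2 * q.re z : ℚ) : K) := by
      push_cast
      linear_combination q.eq_re_im z
    rwa [e] at this
  have hnm : IsIntegral ℤ ((q.nm z : ℚ) : K) := by
    rw [← q.mul_σ]; exact hz.mul hσz
  obtain ⟨a, ha⟩ := int_of_isIntegral htr
  obtain ⟨n, hn⟩ := int_of_isIntegral hnm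
  have h1 : (d : ℚ) * (2 * q.im z) ^ 2 = ((4 * n - a ^ 2 : ℤ) : ℚ) := by
    push_cast
    rw [← hn, ← ha]; unfold nm; ring
  obtain ⟨b, hb⟩ := int_of_sq_mul q.hd h1
  refine ⟨a, b, ?_, n, ?_⟩
  · have e1 : (a : K) = 2 * (q.re z : K) := by
      have : ((a : ℚ) : K) = ((2 * q.re z : ℚ) : K) := by rw [ha]
      push_cast at this; exact this
    have e2 : (b : K) = 2 * (q.im z : K) := by
      have : ((b : ℚ) : K) = ((2 * q.im z : ℚ) : K) := by rw [hb]
      push_cast at this; exact this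
    rw [e1, e2]
    linear_combination 2 * q.eq_re_im z
  · have : (d : ℚ) * b ^ 2 = 4 * n - a ^ 2 := by
      rw [← hb]; rw [h1]; push_cast; ring
    have h2 : (d : ℤ) * b ^ 2 = 4 * n - a ^ 2 := by exact_mod_cast this
    rw [h2]; ring

theorem of_coords {a b : ℤ} (h : (4 : ℤ) ∣ a ^ 2 + d * b ^ 2) :
    ∃ z : K, IsIntegral ℤ z ∧ 2 * z = (a : K) + b * q.θ := by
  obtain ⟨n, hn⟩ := h
  refine ⟨((a : K) + b * q.θ) / 2, ?_, by ring⟩
  refine ⟨Polynomial.X ^ 2 - Polynomial.C a * Polynomial.X + Polynomial.C n, ?_, ?_⟩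
  · have : Polynomial.X ^ 2 - Polynomial.C a * Polynomial.X + Polynomial.C n =
      Polynomial.X ^ 2 + (- Polynomial.C a * Polynomial.X + Polynomial.C n) := by ring
    rw [this]
    apply Polynomial.monic_X_pow_add
    have hle : (-Polynomial.C a * Polynomial.X + Polynomial.C n : Polynomial ℤ).degree ≤ 1 := by
      compute_degree
    exact lt_of_le_of_lt hle (by norm_num)
  · simp only [Polynomial.eval₂_add, Polynomial.eval₂_sub, Polynomial.eval₂_pow,
      Polynomial.eval₂_X, Polynomial.eval₂_mul, Polynomial.eval₂_C]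
    have hn' : (a : K) ^ 2 + d * b ^ 2 = 4 * n := by exact_mod_cast hn
    simp only [eq_intCast]
    linear_combination (1 / 4 : K) * b ^ 2 * q.hθ - (1 / 4 : K) * hn'

end QF

end Vale.Agent.P017.H185
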