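import Vale.Agent.P017.H185.DescQ
import Vale.Agent.P017.H185.QF

namespace Vale.Agent.P017.H185

open WeierstrassCurve NumberField

theorem sol_finite {D : ℚ} (hD : D ≠ 0) (h : Finite (ED D).toAffine.Point) :
    {p : ℚ × ℚ | p.2 ^ 2 = p.1 * (p.1 - 16 * D) * (p.1 - 25 * D)}.Finite := by
  rw [← Set.finite_coe_iff]
  refine Finite.of_injective (β := (ED D).toAffine.Point)
    (fun p : {p : ℚ × ℚ | p.2 ^ 2 = p.1 * (p.1 - 16 * D) * (p.1 - 25 * D)} =>
      pt hD p.1.1 p.1.2 p.2) ?_
  rintro ⟨⟨x, y⟩, hp⟩ ⟨⟨x', y'⟩, hp'⟩ h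
  simp only [pt, Affine.Point.some.injEq] at h
  simp [h.1, h.2]

section
variable {K : Type*} [Field K]

/-- coordinates of a point -/
def co {W : WeierstrassCurve K} : W.toAffine.Point → Option (K × K)
  | .zero => none
  | .some x y _ => some (x, y)

theorem co_injective {W : WeierstrassCurve K} : Function.Injective (co (W := W)) := by
  rintro (_ | ⟨x, y, h⟩) (_ | ⟨x', y', h'⟩) he
  · rfl
  · simp [co] at he
  · simp [co] at he
  · simp only [co, Option.some.injEq, Prod.mk.injEq] at he
    obtain ⟨rfl, rfl⟩ := he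
    rfl

theorem some_congr {W : WeierstrassCurve K} {x y x' y' : K} {h : W.toAffine.Nonsingular x y}
    {h' : W.toAffine.Nonsingular x' y'} (hx : x = x') (hy : y = y') :
    Affine.Point.some x y h = Affine.Point.some x' y' h' := by
  subst hx; subst hy; rfl

theorem finite_of_co {W : WeierstrassCurve K} {A : Set W.toAffine.Point} {S : Set (K × K)}
    (hS : S.Finite) (h : ∀ x y hn, Affine.Point.some x y hn ∈ A → (x, y) ∈ S) : A.Finite := by
  apply Set.Finite.of_finite_image _ (co_injective (W := W)).injOn
  refine Set.Finite.subset ((hS.image some).insert none) ?_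
  rintro _ ⟨P, hP, rfl⟩
  rcases P with _ | ⟨x, y, hn⟩
  · exact Or.inl rfl
  · exact Or.inr ⟨(x, y), h x y hn hP, rfl⟩

end

variable {K : Type*} [Field K] [NumberField K] {d : ℕ} (q : QF K d)

include q in
/-- **Reduction to the rational points on the curve and on its quadratic twist.** -/
theorem finite_EK (h1 : Finite (ED (-1)).toAffine.Point) (h2 : Finite (ED d).toAffine.Point) :
    Finite ((ED (-1)).baseChange K).toAffine.Point := by
  classical
  have hd0 : (d : ℚ) ≠ 0 := by exact_mod_cast q.d_pos.ne'
  have hdK : (d : K) ≠ 0 := by exact_mod_cast q.d_pos.ne'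
  have hθ0 : q.θ ≠ 0 := by
    intro h0
    have := q.hθ
    rw [h0] at this
    apply hdK
    linear_combination this
  let G := ((ED (-1)).baseChange K).toAffine.Point
  let s : G →+ G := Affine.Point.map (W' := (ED (-1)).toAffine) (q.σ : K →ₐ[ℚ] K)
  have heq : ∀ {x y : K}, ((ED (-1)).baseChange K).toAffine.Nonsingular x y →
      y ^ 2 = x * (x + 16) * (x + 25) := by
    intro x y h
    have h := h.1
    rw [Affine.equation_iff] at h
    simp [ED, WeierstrassCurve.baseChange] at h
    linear_combination h
  have hs : ∀ (x y : K) (hn : ((ED (-1)).baseChange K).toAffine.Nonsingular x y),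
      ∃ h' : ((ED (-1)).baseChange K).toAffine.Nonsingular (q.σ x) (q.σ y),
      s (Affine.Point.some x y hn) = Affine.Point.some (q.σ x) (q.σ y) h' := by
    intro x y hn
    exact ⟨_, Affine.Point.map_some (q.σ : K →ₐ[ℚ] K) hn⟩
  have hss : ∀ P, s (s P) = P := by
    rintro (_ | ⟨x, y, hn⟩)
    · rfl
    · obtain ⟨h1, e1⟩ := hs x y hn
      obtain ⟨h2, e2⟩ := hs _ _ h1
      rw [e1, e2]
      exact some_congr (q.σσ x) (q.σσ y)
  -- the invariant part
  have hA : {P : G | s P = P}.Finite := by
    refine finite_of_co (S := (fun p : ℚ × ℚ => ((p.1 : K), (p.2 : K))) ''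
      {p : ℚ × ℚ | p.2 ^ 2 = p.1 * (p.1 - 16 * (-1)) * (p.1 - 25 * (-1))})
      ((sol_finite m1 h1).image _) ?_
    intro x y hn hP
    have hP : s (Affine.Point.some x y hn) = Affine.Point.some x y hn := hP
    obtain ⟨h1, e1⟩ := hs x y hn
    rw [e1] at hP
    have hP := Affine.Point.some.inj hP
    have hx : x = (q.re x : K) := by
      have e1 := q.σ_apply x
      have e2 := q.eq_re_im x
      rw [hP.1] at e1
      linear_combination (1 / 2 : K) * e1 + (1 / 2 : K) * e2
    have hy : y = (q.re y : K) := by
      have e1 := q.σ_apply y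
      have e2 := q.eq_re_im y
      rw [hP.2] at e1
      linear_combination (1 / 2 : K) * e1 + (1 / 2 : K) * e2
    refine ⟨(q.re x, q.re y), ?_, by simp only [← hx, ← hy]⟩
    have := heq hn
    rw [hx, hy] at this
    simp only [Set.mem_ofPred_eq]
    have h3 : (((q.re y) ^ 2 : ℚ) : K) = (((q.re x) * (q.re x + 16) * (q.re x + 25) : ℚ) : K) := by
      push_cast; exact this
    have h4 : (q.re y) ^ 2 = (q.re x) * (q.re x + 16) * (q.re x + 25) := by exact_mod_cast h3
    rw [h4]; ring
  have hB : {P : G | s P = -P}.Finite := by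
    refine finite_of_co (S := (fun p : ℚ × ℚ => (-(p.1 : K) / d, (p.2 : K) * q.θ / d ^ 2)) ''
      {p : ℚ × ℚ | p.2 ^ 2 = p.1 * (p.1 - 16 * d) * (p.1 - 25 * d)})
      ((sol_finite hd0 h2).image _) ?_
    intro x y hn hP
    have hP : s (Affine.Point.some x y hn) = -Affine.Point.some x y hn := hP
    obtain ⟨h1, e1⟩ := hs x y hn
    rw [e1, Affine.Point.neg_some] at hP
    have hP := Affine.Point.some.inj hP
    have hx : x = (q.re x : K) := by
      have e1 := q.σ_apply x
      have e2 := q.eq_re_im x
      rw [hP.1] at e1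
      linear_combination (1 / 2 : K) * e1 + (1 / 2 : K) * e2
    have hny : q.σ y = -y := by
      rw [hP.2]
      simp [Affine.negY, ED, WeierstrassCurve.baseChange]
    have hy : y = (q.im y : K) * q.θ := by
      have e1 := q.σ_apply y
      have e2 := q.eq_re_im y
      rw [hny] at e1
      linear_combination (-1 / 2 : K) * e1 + (1 / 2 : K) * e2
    have h3 := heq hn
    rw [hx, hy] at h3
    refine ⟨(-(d : ℚ) * q.re x, (d : ℚ) ^ 2 * q.im y), ?_, ?_⟩
    · simp only [Set.mem_ofPred_eq]
      have h4 : (((-(d : ℚ)) * q.im y ^ 2 : ℚ) : K) =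
          (((q.re x) * (q.re x + 16) * (q.re x + 25) : ℚ) : K) := by
        push_cast
        rw [← h3, mul_pow, q.hθ]; ring
      have h5 : (-(d : ℚ)) * q.im y ^ 2 = (q.re x) * (q.re x + 16) * (q.re x + 25) := by
        exact_mod_cast h4
      linear_combination (-(d : ℚ) ^ 3) * h5
    · simp only [Prod.mk.injEq]
      constructor
      · push_cast
        field_simp
        exact hx.symm
      · push_cast
        field_simp
        exact hy.symm
  -- two-torsion
  have hT : {P : G | 2 • P = 0}.Finite := by
    refine finite_of_co (S := {((0 : K), (0 : K)), (-16, 0), (-25, 0)}) (Set.toFinite _) ?_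
    intro x y hn hP
    have hP : 2 • Affine.Point.some x y hn = 0 := hP
    rw [two_nsmul, add_eq_zero_iff_eq_neg, Affine.Point.neg_some] at hP
    simp only [Affine.Point.some.injEq, true_and] at hP
    have hy : y = 0 := by
      simp [Affine.negY, ED, WeierstrassCurve.baseChange] at hP
      have : (2 : K) * y = 0 := by linear_combination hP
      simpa using this
    have h3 := heq hn
    rw [hy] at h3
    have h4 : x * (x + 16) * (x + 25) = 0 := by rw [← h3]; ring
    rcases mul_eq_zero.mp h4 with h4 | h4
    · rcases mul_eq_zero.mp h4 with h4 | h4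
      · left; rw [h4, hy]
      · right; left; rw [hy, show x = -16 by linear_combination h4]
    · right; right; rw [hy, show x = -25 by linear_combination h4]; rfl
  let f : G → G × G := fun P => (P + s P, P - s P)
  have huniv : (f ⁻¹' ({P : G | s P = P} ×ˢ {P : G | s P = -P})) = Set.univ := by
    ext P
    simp only [Set.mem_preimage, Set.mem_prod, Set.mem_ofPred_eq, Set.mem_univ, iff_true, f]
    constructor
    · rw [map_add, hss, add_comm]
    · rw [map_sub, hss]; abel
  have hfin : (f ⁻¹' ({P : G | s P = P} ×ˢ {P : G | s P = -P})).Finite := by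
    apply Set.Finite.preimage' (hA.prod hB)
    rintro b -
    by_cases hb : ∃ P₀, f P₀ = b
    · obtain ⟨P₀, hP₀⟩ := hb
      refine Set.Finite.subset (hT.image (fun T => P₀ + T)) ?_
      intro P hP
      simp only [Set.mem_preimage, Set.mem_singleton_iff] at hP
      refine ⟨P - P₀, ?_, by simp⟩
      simp only [Set.mem_ofPred_eq]
      rw [← hP₀] at hP
      simp only [f, Prod.mk.injEq] at hP
      have e : 2 • (P - P₀) = ((P + s P) - (P₀ + s P₀)) + ((P - s P) - (P₀ - s P₀)) := by
        rw [two_nsmul]; abel
      rw [e, hP.1, hP.2]; simp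
    · convert Set.finite_empty
      ext P
      simp only [Set.mem_preimage, Set.mem_singleton_iff, Set.mem_empty_iff_false, iff_false]
      exact fun h => hb ⟨P, h⟩
  rw [huniv] at hfin
  exact Set.finite_univ_iff.mp hfin

/-- The modular curve `X₀(15)` (Cremona label 15a1): `y² + xy + y = x³ + x² - 10x - 10`. -/
def X015 : WeierstrassCurve ℚ := ⟨1, 1, 1, -10, -10⟩

theorem finite_X015 (K : Type*) [Field K] [NumberField K]
    (h : Finite ((ED (-1)).baseChange K).toAffine.Point) :
    Finite (X015.baseChange K).toAffine.Point := by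
  have hell : (ED (-1)).IsElliptic := ED_elliptic m1
  have hell' : ((ED (-1)).baseChange K).IsElliptic :=
    inferInstanceAs ((ED (-1)).map (algebraMap ℚ K)).IsElliptic
  have hns : ∀ x y : K, y ^ 2 = x * (x + 16) * (x + 25) →
      ((ED (-1)).baseChange K).toAffine.Nonsingular x y := by
    intro x y hxy
    apply Affine.equation_iff_nonsingular.mp
    rw [Affine.equation_iff]
    simp [ED, WeierstrassCurve.baseChange]
    linear_combination hxy
  have heq : ∀ {x y : K}, (X015.baseChange K).toAffine.Nonsingular x y →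
      (8 * y + 4 * x + 4) ^ 2 = (4 * x - 12) * ((4 * x - 12) + 16) * ((4 * x - 12) + 25) := by
    intro x y h
    have h := h.1
    rw [Affine.equation_iff] at h
    simp [X015, WeierstrassCurve.baseChange] at h
    linear_combination 64 * h
  let g : (X015.baseChange K).toAffine.Point → ((ED (-1)).baseChange K).toAffine.Point := fun P =>
    match P with
    | .zero => .zero
    | .some x y hn => .some (4 * x - 12) (8 * y + 4 * x + 4) (hns _ _ (heq hn))
  apply Finite.of_injective g
  rintro (_ | ⟨x, y, hn⟩) (_ | ⟨x', y', hn'⟩) he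
  · rfl
  · simp [g] at he
  · simp [g] at he
  · simp only [g, Affine.Point.some.injEq] at he
    have hx : x = x' := by linear_combination (1 / 4 : K) * he.1
    have hy : y = y' := by linear_combination (1 / 8 : K) * he.2 - (1 / 2 : K) * hx
    subst hx; subst hy; rfl

end Vale.Agent.P017.H185
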