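import Vale.Agent.P017.H185.Crit
import Vale.Agent.P017.H185.Red
import Vale.Agent.P017.H185.QFex

namespace Vale.Agent.P017.H185

open NumberField

namespace QF

variable {K : Type*} [Field K] [NumberField K] {d : ℕ} (q : QF K d)

include q in
theorem cond1 (hcl : ∀ c : ClassGroup (𝓞 K), orderOf c ≠ 4)
    (h5 : ¬ 5 ∣ d → ¬ IsSquare (-(d : ZMod 5))) : Cond1 (d : ℚ) := by
  have hdpos := q.d_pos
  have hdQ : (0 : ℚ) < d := by exact_mod_cast hdpos
  have hd1 : d ≠ 1 := by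
    rintro rfl
    exact h5 (by norm_num) (by decide)
  intro x y h hx
  have hx20 : x - 20 * d ≠ 0 := by
    intro h0
    have hx' : x = 20 * d := by linarith
    rw [hx'] at h
    have : y ^ 2 = -(400 * (d : ℚ) ^ 3) := by rw [h]; ring
    have h3 : 0 < (d : ℚ) ^ 3 := by positivity
    nlinarith [sq_nonneg y]
  have hxpos : 0 < x := by
    rcases lt_or_gt_of_ne hx with hneg | hpos
    · exfalso
      have h3 : 0 < (x - 16 * d) * (x - 25 * d) := by nlinarith
      have h4 : y ^ 2 = x * ((x - 16 * d) * (x - 25 * d)) := by rw [h]; ring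
      nlinarith [sq_nonneg y]
    · exact hpos
  obtain ⟨b, M, e, hb, hMe, hM, he, hXb⟩ := exists_sqf hx
  obtain ⟨N, hN⟩ := exists_int_eq (Y := y) (α := -16 * (d : ℤ)) (β := -25 * (d : ℤ)) hb hM he hXb
    (by push_cast; rw [h]; ring)
  have hr0 : (M / e : ℚ) ≠ 0 := div_ne_zero (by exact_mod_cast hM) (by exact_mod_cast he)
  have hbpos : 0 < b := by
    have h3 : (0 : ℚ) < (M / e : ℚ) ^ 2 := by positivity
    have h4 : (0 : ℚ) < b := by
      rw [hXb] at hxpos
      exact pos_of_mul_pos_left hxpos h3.le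
    exact_mod_cast h4
  lift b to ℕ using hbpos.le
  have hbsq : Squarefree b := Int.squarefree_natCast.mp hb
  have hram : ∀ p : ℕ, p.Prime → p ∣ b → Ram d p := by
    intro p hp hpb
    have hpbZ : (p : ℤ) ∣ (b : ℤ) := Int.natCast_dvd_natCast.mpr hpb
    by_cases hpd : p ∣ d
    · exact Or.inl hpd
    by_cases hp2 : p = 2
    · right
      refine ⟨hp2, ?_⟩
      intro h3
      subst hp2
      exact two_adic_first hb hMe (by omega) hN (by exact_mod_cast hpbZ)
    by_cases hp5 : p = 5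
    · exfalso
      subst hp5
      have h5d : ¬ ((5 : ℕ) : ℤ) ∣ (d : ℤ) := by rw [Int.natCast_dvd_natCast]; exact hpd
      have := five_adic_first hb hMe h5d hN hpbZ
      push_cast at this
      exact h5 hpd this
    exfalso
    apply prime_dvd_gen hp hb hMe hN hpbZ
    · intro h1
      rcases (Nat.prime_iff_prime_int.mp hp).dvd_or_dvd h1 with h1 | h1
      · rw [Int.dvd_neg] at h1
        have h3 : p ∣ 2 ^ 4 := by exact_mod_cast h1
        exact hp2 ((Nat.prime_dvd_prime_iff_eq hp Nat.prime_two).mp (hp.dvd_of_dvd_pow h3))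
      · exact hpd (by exact_mod_cast h1)
    · intro h1
      rcases (Nat.prime_iff_prime_int.mp hp).dvd_or_dvd h1 with h1 | h1
      · rw [Int.dvd_neg] at h1
        have h3 : p ∣ 5 ^ 2 := by exact_mod_cast h1
        exact hp5 ((Nat.prime_dvd_prime_iff_eq hp Nat.prime_five).mp (hp.dvd_of_dvd_pow h3))
      · exact hpd (by exact_mod_cast h1)
  -- the norm equation
  have hnorm : q.nm ((((y / (M / e) / (x - 20 * d) : ℚ)) : K) +
      (((b * (M / e) / (x - 20 * d) : ℚ)) : K) * q.θ) = b := by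
    rw [q.nm_coords]
    obtain ⟨r, hr⟩ : ∃ r : ℚ, r = M / e := ⟨_, rfl⟩
    rw [← hr] at hXb hr0 ⊢
    push_cast at hXb
    obtain ⟨z, hz⟩ : ∃ z, z = x - 20 * d := ⟨_, rfl⟩
    rw [← hz] at hx20 ⊢
    have hy2 : y ^ 2 = b * r ^ 2 * (z ^ 2 - d * (b * r ^ 2)) := by
      rw [h, hz, hXb]; ring
    field_simp
    rw [hy2]
    ring
  rcases q.norm_trivial hcl hd1 hbsq hram hnorm with h1 | h1
  · refine ⟨M / e, Or.inl ?_⟩
    rw [hXb, h1]; push_cast; ring
  · refine ⟨M / e, Or.inr ?_⟩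
    rw [hXb, h1]; push_cast; ring

include q in
theorem cond2 (hcl : ∀ c : ClassGroup (𝓞 K), orderOf c ≠ 4)
    (h3 : ¬ 3 ∣ d → (d : ZMod 3) ≠ 1) : Cond2 (d : ℚ) := by
  have hdpos := q.d_pos
  intro X Y h hX
  obtain ⟨b, M, e, hb, hMe, hM, he, hXb⟩ := exists_sqf hX
  obtain ⟨N, hN⟩ := exists_int_eq (Y := Y) (α := (d : ℤ)) (β := 81 * (d : ℤ)) hb hM he hXb
    (by push_cast; rw [h])
  have hbprime : ∀ p : ℕ, p.Prime → (p : ℤ) ∣ b → (p : ℤ) ∣ (d : ℤ) := by
    intro p hp hpb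
    by_contra hpd
    by_cases h2 : (p : ℤ) ∣ (81 * (d : ℤ) : ℤ)
    · have hp3 : p = 3 := by
        rcases (Nat.prime_iff_prime_int.mp hp).dvd_or_dvd h2 with h2 | h2
        · have h4 : p ∣ 3 ^ 4 := by exact_mod_cast h2
          exact (Nat.prime_dvd_prime_iff_eq hp Nat.prime_three).mp (hp.dvd_of_dvd_pow h4)
        · exact absurd h2 hpd
      subst hp3
      have h5 := three_dvd (d := (d : ℤ)) hb hMe hN hpb hpd
      push_cast at h5
      exact h3 (fun h => hpd (by exact_mod_cast h)) h5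
    · exact prime_dvd_gen hp hb hMe hN hpb hpd h2
  have hdsq : Squarefree (d : ℤ) := Int.squarefree_natCast.mpr q.hd
  have hbd : b ∣ (d : ℤ) := by
    have hsq : Squarefree b.natAbs := Int.squarefree_natAbs.mpr hb
    have := sqf_dvd_of_primes hsq (X := (d : ℤ)) (fun p hp hpb => hbprime p hp (Int.natCast_dvd.mpr hpb))
    exact Int.natAbs_dvd.mp this
  obtain ⟨b', hb'⟩ : ∃ b', b * b' = -(d : ℤ) := by
    obtain ⟨c, hc⟩ := hbd
    exact ⟨-c, by rw [hc]; ring⟩
  have hb0 : b ≠ 0 := hb.ne_zero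
  have hndsq : ∀ {p : ℕ} {c : ℤ}, p.Prime → (d : ℤ) = p * c → ¬ (p : ℤ) ∣ c := by
    intro p c hp hc
    exact not_dvd_of_sqf hp hdsq hc
  have loc1 : ∀ p : ℕ, p.Prime → p ≠ 2 → (p : ℤ) ∣ b → IsSquare (b' : ZMod p) := by
    intro p hp hp2 hpb
    obtain ⟨β, hβ⟩ := hpb
    obtain ⟨δ, hδ⟩ := hbprime p hp ⟨β, hβ⟩
    have hβ' := not_dvd_of_sqf hp hb hβ
    have h1 := sq_of_dvd hp hb hMe hN hδ (hndsq hp hδ) hβ
    have hp0 : (p : ℤ) ≠ 0 := by exact_mod_cast hp.ne_zero
    have h2 : β * b' = -δ := by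
      apply mul_left_cancel₀ hp0
      rw [← mul_assoc, ← hβ, hb', hδ]; ring
    have h4 : -(δ * β) = β ^ 2 * b' := by
      have : -(δ * β) = (-δ) * β := by ring
      rw [this, ← h2]; ring
    rw [h4] at h1
    push_cast at h1
    have := Fact.mk hp
    have hβ0 : (β : ZMod p) ≠ 0 := ne_iff.mpr hβ'
    obtain ⟨z, hz⟩ := h1
    refine ⟨z / β, ?_⟩
    field_simp
    linear_combination hz
  have loc2 : ∀ p : ℕ, p.Prime → p ≠ 2 → (p : ℤ) ∣ b' → IsSquare (b : ZMod p) := by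
    intro p hp hp2 hpb
    have hpd : (p : ℤ) ∣ (d : ℤ) := by
      rw [← Int.dvd_neg, ← hb']; exact hpb.mul_left b
    obtain ⟨δ, hδ⟩ := hpd
    have hpb2 : ¬ (p : ℤ) ∣ b := by
      intro hpb2
      obtain ⟨β, hβ⟩ := hpb2
      obtain ⟨β', hβ'⟩ := hpb
      apply hndsq hp hδ
      have hp0 : (p : ℤ) ≠ 0 := by exact_mod_cast hp.ne_zero
      refine ⟨-(β * β'), ?_⟩
      apply mul_left_cancel₀ hp0
      rw [← hδ]
      have : (d : ℤ) = -(b * b') := by rw [hb']; ring
      rw [this, hβ, hβ']; ring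
    exact sq_of_ndvd hp hMe hN hδ (hndsq hp hδ) hpb2
  have hfin : b = 1 ∨ b' = 1 := by
    by_cases hd2 : d % 2 = 0
    · obtain ⟨δ, hδ⟩ : ∃ δ : ℤ, (d : ℤ) = 2 * δ := ⟨d / 2, by omega⟩
      have hδ2 : ¬ ((2 : ℕ) : ℤ) ∣ δ := hndsq Nat.prime_two (by push_cast; exact hδ)
      have hδo : δ % 2 = 1 := by push_cast at hδ2; omega
      by_cases hb2 : b % 2 = 0
      · obtain ⟨β, hβ⟩ : ∃ β, b = 2 * β := ⟨b / 2, by omega⟩
        have hβ2 := not_dvd_of_sqf Nat.prime_two hb (by push_cast; exact hβ)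
        have hβo : β % 2 = 1 := by push_cast at hβ2; omega
        have h8 := two_adic_even' hMe hβo hδo hδ hβ hN
        have h1 : β * b' = -δ := by
          apply mul_left_cancel₀ (show (2 : ℤ) ≠ 0 by norm_num)
          rw [← mul_assoc, ← hβ, hb', hδ]; ring
        have hb'8 : b' % 8 = 1 := by
          obtain ⟨k, hk⟩ := sq_mod8 hβo
          obtain ⟨j, hj⟩ : ∃ j, β + δ = 8 * j := ⟨(β + δ) / 8, by omega⟩
          have h2 : (8 * k + 1) * b' = β * (-δ) := by rw [← hk, ← h1]; ring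
          have h4 : β * (-δ) = 8 * (k - j * β) + 1 := by
            have : δ = 8 * j - β := by linarith
            rw [this]
            have : β * (-(8 * j - β)) = β ^ 2 - 8 * (j * β) := by ring
            rw [this, hk]; ring
          rw [h4] at h2
          have h5 : b' = 8 * (k - j * β - k * b') + 1 := by linarith
          omega
        exact (q.second_trivial hcl (by rw [mul_comm]; exact hb') (by omega) (fun _ => hb'8)
          loc2 loc1).symm
      · have h8 := two_adic_even hMe (by omega) hδo hδ hN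
        exact q.second_trivial hcl hb' (by omega) (fun _ => h8) loc1 loc2
    · have hbo : b % 2 = 1 := by
        by_contra hcon
        have h1 : ((2 : ℕ) : ℤ) ∣ b := by push_cast; omega
        have := hbprime 2 Nat.prime_two h1
        push_cast at this
        omega
      obtain ⟨hA, hB⟩ := two_adic_odd (d := (d : ℤ)) hMe hbo (by omega) hN
      by_cases hd3 : d % 4 = 3
      · refine q.second_trivial hcl hb' (hA (by omega)) ?_ loc1 loc2
        rintro (h1 | h1)
        · omega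
        · omega
      · rcases hB (by omega) with h8 | h8
        · exact q.second_trivial hcl hb' (by omega) (fun _ => h8) loc1 loc2
        · have hb'8 : b' % 8 = 1 := by
            obtain ⟨k, hk⟩ := sq_mod8 hbo
            obtain ⟨j, hj⟩ : ∃ j, b + d = 8 * j := ⟨(b + d) / 8, by omega⟩
            have h2 : (8 * k + 1) * b' = b * (-d) := by rw [← hk, ← hb']; ring
            have h4 : b * (-(d : ℤ)) = 8 * (k - j * b) + 1 := by
              have : (d : ℤ) = 8 * j - b := by linarith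
              rw [this]
              have : b * (-(8 * j - b)) = b ^ 2 - 8 * (j * b) := by ring
              rw [this, hk]; ring
            rw [h4] at h2
            have h5 : b' = 8 * (k - j * b - k * b') + 1 := by linarith
            omega
          exact (q.second_trivial hcl (by rw [mul_comm]; exact hb') (by omega) (fun _ => hb'8)
            loc2 loc1).symm
  refine ⟨M / e, ?_⟩
  rcases hfin with h1 | h1
  · left; rw [hXb, h1]; push_cast; ring
  · right
    rw [h1, mul_one] at hb'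
    rw [hXb, hb']; push_cast; ring

include q in
/-- `X₀(15)(K)` is finite, arithmetic form of the hypotheses -/
theorem finite_of_cond (hcl : ∀ c : ClassGroup (𝓞 K), orderOf c ≠ 4)
    (h3 : ¬ 3 ∣ d → (d : ZMod 3) ≠ 1) (h5 : ¬ 5 ∣ d → ¬ IsSquare (-(d : ZMod 5))) :
    Finite (X015.baseChange K).toAffine.Point := by
  have hd0 : (d : ℚ) ≠ 0 := by exact_mod_cast q.d_pos.ne'
  exact finite_X015 K (finite_EK q finite_EQ' (finite_ED hd0 (q.cond1 hcl h5) (q.cond2 hcl h3)))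

include q in
theorem not_inert (h3 : ¬ (Ideal.span {(3 : 𝓞 K)}).IsPrime) : ¬ 3 ∣ d → (d : ZMod 3) ≠ 1 := by
  intro hd3 hd1
  apply h3
  rw [Ideal.span_singleton_prime (by norm_num)]
  have hdiv : ∀ z : 𝓞 K, 3 ∣ q.N z → (3 : 𝓞 K) ∣ z := by
    intro z hz
    obtain ⟨a, b, hab, n, hn⟩ := q.int_coords (isInt z)
    have h1 : algebraMap (𝓞 K) K z = ((a / 2 : ℚ) : K) + ((b / 2 : ℚ) : K) * q.θ := by
      push_cast; linear_combination (1 / 2 : K) * hab
    have hNz : (q.N z : ℤ) = n := by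
      have e : (q.N z : ℚ) = n := by
        rw [q.N_eq, h1, q.nm_coords]
        have : ((a ^ 2 + d * b ^ 2 : ℤ) : ℚ) = ((4 * n : ℤ) : ℚ) := by rw [hn]
        push_cast at this
        linear_combination (1 / 4 : ℚ) * this
      exact_mod_cast e
    have h3n : ((n : ℤ) : ZMod 3) = 0 := by
      rw [ZMod.intCast_zmod_eq_zero_iff_dvd, ← hNz]; exact_mod_cast hz
    have h4 := congrArg (Int.cast : ℤ → ZMod 3) hn
    push_cast at h4
    rw [h3n, hd1] at h4
    have key : ∀ a b : ZMod 3, a ^ 2 + 1 * b ^ 2 = 4 * 0 → a = 0 ∧ b = 0 := by decide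
    obtain ⟨ha, hb⟩ := key _ _ h4
    rw [ZMod.intCast_zmod_eq_zero_iff_dvd] at ha hb
    obtain ⟨a', ha'⟩ := ha
    obtain ⟨b', hb'⟩ := hb
    push_cast at ha' hb'
    have h5 : (4 : ℤ) ∣ a' ^ 2 + d * b' ^ 2 := by
      have h6 : 9 * (a' ^ 2 + d * b' ^ 2) = 4 * n := by rw [← hn, ha', hb']; ring
      omega
    obtain ⟨y, hy, hy2⟩ := q.of_coords h5
    obtain ⟨y', hy'⟩ := exists_of_isInt hy
    refine ⟨y', ?_⟩
    apply ext'
    rw [map_mul, map_ofNat, hy']
    have : (2 : K) * algebraMap (𝓞 K) K z = 2 * (3 * y) := by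
      rw [hab, ha', hb']
      push_cast
      linear_combination (-(3 : K)) * hy2
    exact mul_left_cancel₀ two_ne_zero this
  have hN3 : ∀ z : 𝓞 K, (3 : 𝓞 K) ∣ z → 3 ∣ q.N z := by
    rintro z ⟨w, rfl⟩
    have h1 : ((q.N (3 * w) : ℕ) : 𝓞 K) = ((9 * q.N w : ℕ) : 𝓞 K) := by
      rw [← q.mul_s, map_mul, map_ofNat]
      push_cast
      rw [← q.mul_s]; ring
    have h2 : q.N (3 * w) = 9 * q.N w := by exact_mod_cast h1
    rw [h2]; exact ⟨3 * q.N w, by ring⟩
  refine ⟨by norm_num, ?_, ?_⟩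
  · intro hu
    have h1 : (3 : 𝓞 K) ∣ 1 := hu.dvd
    have h2 : ((3 : ℕ) : 𝓞 K) ∣ ((1 : ℕ) : 𝓞 K) := by push_cast; exact h1
    have := natCast_dvd (K := K) h2
    omega
  · intro x y hxy
    have h1 : 3 ∣ q.N (x * y) := hN3 _ hxy
    have h2 : q.N (x * y) = q.N x * q.N y := by
      have : ((q.N (x * y) : ℕ) : 𝓞 K) = ((q.N x * q.N y : ℕ) : 𝓞 K) := by
        push_cast
        rw [← q.mul_s, ← q.mul_s, ← q.mul_s, map_mul]; ring
      exact_mod_cast this
    rw [h2] at h1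
    rcases (Nat.Prime.dvd_mul Nat.prime_three).mp h1 with h1 | h1
    · exact Or.inl (hdiv x h1)
    · exact Or.inr (hdiv y h1)

include q in
theorem not_split (h5 : ∀ P Q : Ideal (𝓞 K), P.IsPrime → Q.IsPrime → (5 : 𝓞 K) ∈ P →
    (5 : 𝓞 K) ∈ Q → P = Q) : ¬ 5 ∣ d → ¬ IsSquare (-(d : ZMod 5)) := by
  rintro hd5 ⟨r, hr⟩
  obtain ⟨c, hc⟩ : ∃ c : ℤ, (c : ZMod 5) = r := ⟨r.val, by simp⟩
  have h5c : (5 : ℤ) ∣ c ^ 2 + d := by
    have : ((c ^ 2 + d : ℤ) : ZMod 5) = 0 := by
      push_cast; rw [hc]; linear_combination -hr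
    exact_mod_cast (ZMod.intCast_zmod_eq_zero_iff_dvd _ _).mp this
  have h2c : ¬ (5 : ℤ) ∣ 2 * c := by
    intro h
    have h1 : (5 : ℤ) ∣ c := by
      rcases (Int.prime_iff_natAbs_prime.mpr (by norm_num) : Prime (5 : ℤ)).dvd_or_dvd h with h | h
      · norm_num at h
      · exact h
    apply hd5
    have : (5 : ℤ) ∣ (d : ℤ) := (dvd_add_right (Dvd.dvd.pow h1 two_ne_zero)).mp h5c
    exact_mod_cast this
  have hnu : ¬ IsUnit (5 : 𝓞 K) := by
    intro hu
    have h2 : ((5 : ℕ) : 𝓞 K) ∣ ((1 : ℕ) : 𝓞 K) := by push_cast; exact hu.dvd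
    have := natCast_dvd (K := K) h2
    omega
  obtain ⟨P, hP, hP5⟩ := exists_max_ideal_of_mem_nonunits hnu
  have hPp : P.IsPrime := hP.isPrime
  have hPs : (P.map q.s).IsPrime := Ideal.map_isPrime_of_equiv q.s
  have h5s : (5 : 𝓞 K) ∈ P.map q.s := by
    have := Ideal.mem_map_of_mem q.s hP5
    rwa [map_ofNat] at this
  have hPeq := h5 P (P.map q.s) hPp hPs hP5 h5s
  obtain ⟨m, hm⟩ := h5c
  have hm' : (c : 𝓞 K) ^ 2 + d = 5 * m := by exact_mod_cast congrArg (Int.cast : ℤ → 𝓞 K) hm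
  have ht := q.t_sq
  have hprod : (q.t - c) * (q.t + c) ∈ P := by
    have e : (q.t - c) * (q.t + c) = 5 * (-m) := by linear_combination ht - hm'
    rw [e]; exact P.mul_mem_right _ hP5
  have hboth : (q.t - c) ∈ P ∧ (q.t + c) ∈ P := by
    rcases hPp.mem_or_mem hprod with h | h
    · refine ⟨h, ?_⟩
      have h1 := Ideal.mem_map_of_mem q.s h
      rw [← hPeq, map_sub, q.s_t, map_intCast] at h1
      have := P.neg_mem h1
      convert this using 1; ring
    · refine ⟨?_, h⟩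
      have h1 := Ideal.mem_map_of_mem q.s h
      rw [← hPeq, map_add, q.s_t, map_intCast] at h1
      have := P.neg_mem h1
      convert this using 1; ring
  have h2 : ((2 * c : ℤ) : 𝓞 K) ∈ P := by
    have := P.sub_mem hboth.2 hboth.1
    convert this using 1
    push_cast; ring
  obtain ⟨u, v, huv⟩ : IsCoprime (2 * c) (5 : ℤ) := by
    rw [isCoprime_comm]
    exact (Irreducible.coprime_iff_not_dvd
      (Int.prime_iff_natAbs_prime.mpr (by norm_num) : Prime (5 : ℤ)).irreducible).mpr h2c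
  apply hPp.ne_top
  rw [Ideal.eq_top_iff_one]
  have h3 : (1 : 𝓞 K) = (u : 𝓞 K) * ((2 * c : ℤ) : 𝓞 K) + (v : 𝓞 K) * 5 := by
    exact_mod_cast (congrArg (Int.cast : ℤ → 𝓞 K) huv).symm
  rw [h3]
  exact P.add_mem (P.mul_mem_left _ h2) (P.mul_mem_left _ hP5)

end QF

/-- **Main criterion.** -/
theorem criterion (K : Type*) [Field K] [NumberField K] [Algebra.IsQuadraticExtension ℚ K]
    [IsTotallyComplex K] (h3 : ¬ (Ideal.span {(3 : 𝓞 K)}).IsPrime)
    (h5 : ∀ P Q : Ideal (𝓞 K), P.IsPrime → Q.IsPrime → (5 : 𝓞 K) ∈ P → (5 : 𝓞 K) ∈ Q → P = Q)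
    (hcl : ∀ c : ClassGroup (𝓞 K), orderOf c ≠ 4) :
    Finite (X015.baseChange K).toAffine.Point := by
  obtain ⟨d, ⟨q⟩⟩ := exists_QF K
  exact q.finite_of_cond hcl (q.not_inert h3) (q.not_split h5)

end Vale.Agent.P017.H185
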